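import Crest.Agent.N336.Eng.Defs

-- ▼ part N336/Eng/Cx
section

/-!
# Row 336, CORE: complex powers of positive definite matrices (helper21)

* `cpw A z`, algebra of `cpw`, `pw`, `lg`, inverses, commuting products
* operator monotonicity (`lg_mono`, `pw_mono`, `inv_anti`), contractions
-/

set_option autoImplicit false
set_option linter.unusedSectionVars false

open Matrix Finset
open scoped ComplexOrder MatrixOrder Matrix.Norms.L2Operator InnerProductSpace

namespace Crest.Agent.N336.Eng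

open Crest.Agent.N336.Q

section alg

variable {n : Type} [Fintype n] [DecidableEq n] {A B : Matrix n n ℂ}

/-- complex power (of a positive definite matrix) -/
noncomputable def cpw (A : Matrix n n ℂ) (z : ℂ) : Matrix n n ℂ :=
  fc (fun x => Complex.exp (z * Real.log x)) A

lemma cpw_add (A : Matrix n n ℂ) (z w : ℂ) : cpw A (z + w) = cpw A z * cpw A w := by
  simp only [cpw, fc_mul, add_mul, Complex.exp_add]

lemma cpw_mul_cpw (A : Matrix n n ℂ) (z w : ℂ) : cpw A z * cpw A w = cpw A (z + w) :=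
  (cpw_add A z w).symm

@[simp] lemma cpw_zero (A : Matrix n n ℂ) : cpw A 0 = 1 := by
  simp only [cpw, zero_mul, Complex.exp_zero, fc_one]

lemma cpw_mul_neg (A : Matrix n n ℂ) (z : ℂ) : cpw A z * cpw A (-z) = 1 := by
  rw [cpw_mul_cpw, add_neg_cancel, cpw_zero]


lemma cpw_conjTranspose (A : Matrix n n ℂ) (z : ℂ) :
    (cpw A z)ᴴ = cpw A ((starRingEnd ℂ) z) := by
  rw [cpw, cpw, fc_conjTranspose]
  congr 1; funext x
  rw [Complex.star_def, ← Complex.exp_conj, map_mul, Complex.conj_ofReal]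


lemma cpw_ofReal (hA : A.PosDef) (s : ℝ) : cpw A s = pw A s :=
  fc_congr fun i => by
    beta_reduce
    rw [Real.rpow_def_of_pos (ev_pos hA i), Complex.ofReal_exp, mul_comm, Complex.ofReal_mul]

lemma pw_add (hA : A.PosDef) (s t : ℝ) : pw A (s + t) = pw A s * pw A t := by
  rw [← cpw_ofReal hA, ← cpw_ofReal hA, ← cpw_ofReal hA, Complex.ofReal_add, cpw_add]

lemma pw_mul_pw (hA : A.PosDef) (s t : ℝ) : pw A s * pw A t = pw A (s + t) :=
  (pw_add hA s t).symm

lemma pw_zero (A : Matrix n n ℂ) : pw A 0 = 1 := by simp [pw, fr, fc_one]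

lemma pw_one (hA : A.IsHermitian) : pw A 1 = A := by simpa [pw, fr] using fc_id hA

lemma pw_mul_neg (hA : A.PosDef) (s : ℝ) : pw A s * pw A (-s) = 1 := by
  rw [pw_mul_pw hA, add_neg_cancel, pw_zero]

lemma pw_neg_mul (hA : A.PosDef) (s : ℝ) : pw A (-s) * pw A s = 1 := by
  rw [pw_mul_pw hA, neg_add_cancel, pw_zero]

lemma pw_neg_one (hA : A.PosDef) : pw A (-1) = A⁻¹ := by
  have := pw_neg_mul hA 1
  rw [pw_one hA.1] at this
  exact (Matrix.inv_eq_left_inv this).symm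

lemma inv_eq_fr (hA : A.PosDef) : A⁻¹ = fr (fun x => x⁻¹) A := by
  rw [← pw_neg_one hA]; exact fc_congr fun i => by simp only [Real.rpow_neg_one]

lemma cpw_one (hA : A.PosDef) : cpw A 1 = A := by
  rw [← Complex.ofReal_one, cpw_ofReal hA, pw_one hA.1]

lemma cpw_neg_one (hA : A.PosDef) : cpw A (-1) = A⁻¹ := by
  rw [← pw_neg_one hA, ← cpw_ofReal hA]; simp

lemma pw_isHermitian (A : Matrix n n ℂ) (s : ℝ) : (pw A s).IsHermitian := fr_isHermitian _ _

lemma pw_conjTranspose (A : Matrix n n ℂ) (s : ℝ) : (pw A s)ᴴ = pw A s := (pw_isHermitian A s).eq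

lemma fr_posDef {g : ℝ → ℝ} (h : ∀ i, 0 < g (ev A i)) : (fr g A).PosDef := by
  have h1 : fr (fun x => (g x)⁻¹) A * fr g A = 1 := by
    rw [fc_mul, ← fc_one A]
    exact fc_congr fun i => by
      rw [← Complex.ofReal_mul, inv_mul_cancel₀ (h i).ne', Complex.ofReal_one]
  exact (fr_posSemidef fun i => (h i).le).posDef_iff_isUnit.2
    (IsUnit.of_mul_eq_one_right _ h1)

lemma pw_posDef (hA : A.PosDef) (s : ℝ) : (pw A s).PosDef :=
  fr_posDef fun i => Real.rpow_pos_of_pos (ev_pos hA i) s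

lemma cpw_pw (hA : A.PosDef) (s : ℝ) (z : ℂ) : cpw (pw A s) z = cpw A (z * s) := by
  rw [cpw, fc_fr]
  exact fc_congr fun i => by rw [Real.log_rpow (ev_pos hA i), Complex.ofReal_mul, mul_assoc]

lemma pw_pw (hA : A.PosDef) (s t : ℝ) : pw (pw A s) t = pw A (t * s) := by
  rw [← cpw_ofReal (pw_posDef hA s), cpw_pw hA, ← Complex.ofReal_mul, cpw_ofReal hA]

lemma cpw_inv (hA : A.PosDef) (z : ℂ) : cpw A⁻¹ z = cpw A (-z) := by
  rw [← pw_neg_one hA, cpw_pw hA]; simp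

lemma pw_inv (hA : A.PosDef) (s : ℝ) : pw A⁻¹ s = pw A (-s) := by
  rw [← pw_neg_one hA, pw_pw hA]; simp

lemma lg_pw (hA : A.PosDef) (s : ℝ) : lg (pw A s) = (s : ℂ) • lg A := by
  rw [lg, fr, fc_fr, fc_smul]
  exact fc_congr fun i => by rw [Real.log_rpow (ev_pos hA i), Complex.ofReal_mul]

lemma lg_inv (hA : A.PosDef) : lg A⁻¹ = -lg A := by
  rw [← pw_neg_one hA, lg_pw hA]; simp


lemma fc_add_smul_one (hA : A.IsHermitian) (f : ℝ → ℂ) (ε : ℝ) :
    fc f (A + ε • (1 : Matrix n n ℂ)) = fc (fun x => f (x + ε)) A := by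
  have : A + ε • (1 : Matrix n n ℂ) = fr (fun x => x + ε) A := by
    conv_lhs => rw [← fc_id hA, ← Complex.coe_smul, ← fc_const, fc_add]
    simp [fr]
  rw [this, fc_fr]

lemma cpw_unitary (A : Matrix n n ℂ) {z : ℂ} (hz : z.re = 0) : (cpw A z)ᴴ * cpw A z = 1 := by
  rw [cpw_conjTranspose, cpw_mul_cpw, add_comm, Complex.add_conj, hz]; simp

lemma cpw_unitary' (A : Matrix n n ℂ) {z : ℂ} (hz : z.re = 0) : cpw A z * (cpw A z)ᴴ = 1 := by
  rw [cpw_conjTranspose, cpw_mul_cpw, Complex.add_conj, hz]; simp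

lemma norm_ap_cpw_im (A : Matrix n n ℂ) {z : ℂ} (hz : z.re = 0) (v : Vec n) :
    ‖ap (cpw A z) v‖ = ‖v‖ := norm_ap_unitary (cpw_unitary A hz) v

lemma norm_cpw_im_le (A : Matrix n n ℂ) {z : ℂ} (hz : z.re = 0) : ‖cpw A z‖ ≤ 1 :=
  norm_of_unitary_le (cpw_unitary A hz)

lemma cpw_split (hA : A.PosDef) (z : ℂ) : cpw A z = cpw A (z.im * Complex.I) * pw A z.re := by
  rw [← cpw_ofReal hA, cpw_mul_cpw, add_comm, Complex.re_add_im]

lemma cpw_split' (hA : A.PosDef) (z : ℂ) : cpw A z = pw A z.re * cpw A (z.im * Complex.I) := by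
  rw [← cpw_ofReal hA, cpw_mul_cpw, Complex.re_add_im]

lemma norm_ap_cpw (hA : A.PosDef) (z : ℂ) (v : Vec n) :
    ‖ap (cpw A z) v‖ = ‖ap (pw A z.re) v‖ := by
  rw [cpw_split hA, ap_mul, norm_ap_cpw_im _ (by simp)]

lemma norm_ap_pw_sq (hA : A.PosDef) (s : ℝ) (v : Vec n) :
    ‖ap (pw A s) v‖ ^ 2 = qf v (pw A (2 * s)) := by
  rw [norm_ap_sq, pw_conjTranspose, pw_mul_pw hA, two_mul]

lemma norm_ap_cpw_sq (hA : A.PosDef) (z : ℂ) (v : Vec n) :
    ‖ap (cpw A z) v‖ ^ 2 = qf v (pw A (2 * z.re)) := by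
  rw [norm_ap_cpw hA, norm_ap_pw_sq hA]

lemma norm_ap_lg_sq (A : Matrix n n ℂ) (v : Vec n) :
    ‖ap (lg A) v‖ ^ 2 = qf v (fr (fun x => Real.log x ^ 2) A) := by
  rw [norm_ap_fc_sq, qf, re_inner_fr]
  simp

lemma norm_ap_cpw_sub_le (A : Matrix n n ℂ) {z : ℂ} (hz : z.re = 0) (v : Vec n) :
    ‖ap (cpw A z) v - v‖ ≤ ‖z‖ * ‖ap (lg A) v‖ := by
  have h1 : ap (cpw A z) v - v = ap (fc (fun x => Complex.exp (z * Real.log x) - 1) A) v := by
    rw [← fc_sub, fc_one, ap_sub, ap_one, cpw]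
  rw [h1, ← sq_le_sq₀ (norm_nonneg _) (by positivity), mul_pow, norm_ap_fc_sq, norm_ap_fc_sq,
    Finset.mul_sum]
  refine Finset.sum_le_sum fun i _ => ?_
  rw [← mul_assoc (‖z‖ ^ 2), ← mul_pow ‖z‖]
  refine mul_le_mul_of_nonneg_right (pow_le_pow_left₀ (norm_nonneg _) ?_ 2) (sq_nonneg _)
  have h2 : z * Real.log (ev A i) = Complex.I * ((z.im * Real.log (ev A i) : ℝ) : ℂ) := by
    apply Complex.ext <;> simp [hz]
  rw [h2]
  refine Real.norm_exp_I_mul_ofReal_sub_one_le.trans ?_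
  rw [norm_mul, Complex.norm_real]
  gcongr
  exact Complex.abs_im_le_norm z

/-! ### commutation -/

lemma commute_fc_fc {f g : ℝ → ℂ} (hA : A.IsHermitian) (hB : B.IsHermitian) (h : Commute A B) :
    Commute (fc f A) (fc g B) :=
  (fc_intertwine g hB hB (V := fc f A) (fc_intertwine f hA hA (V := B) h).symm).symm

lemma commute_fc_left (f : ℝ → ℂ) (hA : A.IsHermitian) {M : Matrix n n ℂ} (h : Commute A M) :
    Commute (fc f A) M := fc_intertwine f hA hA h

lemma commute_cpw_left (hA : A.IsHermitian) {M : Matrix n n ℂ} (h : Commute A M) (z : ℂ) :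
    Commute (cpw A z) M := commute_fc_left _ hA h

lemma commute_cpw_cpw (hA : A.IsHermitian) (hB : B.IsHermitian) (h : Commute A B) (z w : ℂ) :
    Commute (cpw A z) (cpw B w) := commute_fc_fc hA hB h

lemma fc_mul_of_eig (f : ℝ → ℂ) (hA : A.IsHermitian) {V : Matrix n n ℂ} {c : ℝ}
    (h : A * V = (c : ℂ) • V) : fc f A * V = f c • V := by
  have hD : (diagonal fun _ : n => (c : ℂ)).IsHermitian := by
    rw [isHermitian_diagonal_iff]; intro i; simp [IsSelfAdjoint]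
  have := fc_intertwine f hA hD (V := V)
    (by rw [h, ← smul_one_eq_diagonal, Matrix.mul_smul, Matrix.mul_one])
  rw [this, fc_diagonal f fun _ => c, ← smul_one_eq_diagonal, Matrix.mul_smul, Matrix.mul_one]

/-- joint eigenspaces of two commuting Hermitian matrices span -/
lemma ext_two (hA : A.IsHermitian) (hB : B.IsHermitian) (h : Commute A B) {M N : Matrix n n ℂ}
    (H : ∀ i j (V : Matrix n n ℂ), A * V = (ev A i : ℂ) • V → B * V = (ev B j : ℂ) • V →
      M * V = N * V) : M = N := by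
  classical
  let P : Matrix n n ℂ → ℝ → Matrix n n ℂ := fun C a => fc (fun x => if x = a then 1 else 0) C
  have hs : ∀ C : Matrix n n ℂ, ∑ a ∈ univ.image (ev C), P C a = 1 := fun C => by
    rw [fc_sum, ← fc_one C]
    exact fc_congr fun i => by simp
  have he : ∀ C : Matrix n n ℂ, C.IsHermitian → ∀ a, C * P C a = (a : ℂ) • P C a := fun C hC a => by
    conv_lhs => arg 1; rw [← fc_id hC]
    rw [fc_mul, fc_smul]
    exact fc_congr fun i => by split_ifs with h1 <;> simp [h1]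
  have h1 : ∑ a ∈ univ.image (ev A), ∑ b ∈ univ.image (ev B), P A a * P B b = 1 := by
    rw [← Finset.sum_mul_sum, hs, hs, Matrix.mul_one]
  rw [← Matrix.mul_one M, ← Matrix.mul_one N, ← h1, Matrix.mul_sum, Matrix.mul_sum]
  refine Finset.sum_congr rfl fun a ha => ?_
  rw [Matrix.mul_sum, Matrix.mul_sum]
  refine Finset.sum_congr rfl fun b hb => ?_
  obtain ⟨i, -, rfl⟩ := Finset.mem_image.1 ha
  obtain ⟨j, -, rfl⟩ := Finset.mem_image.1 hb
  refine H i j _ ?_ ?_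
  · rw [← Matrix.mul_assoc, he A hA, Matrix.smul_mul]
  · rw [← Matrix.mul_assoc, ← (commute_fc_left _ hA h).eq, Matrix.mul_assoc, he B hB,
      Matrix.mul_smul]

lemma isHermitian_mul (hA : A.IsHermitian) (hB : B.IsHermitian) (h : Commute A B) :
    (A * B).IsHermitian := by
  unfold Matrix.IsHermitian; rw [conjTranspose_mul, hA.eq, hB.eq, h.eq]

lemma posDef_mul (hA : A.PosDef) (hB : B.PosDef) (h : Commute A B) : (A * B).PosDef := by
  have h1 : A * B = (pw A (1 / 2))ᴴ * B * pw A (1 / 2) := by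
    rw [pw_conjTranspose, Matrix.mul_assoc, ← (commute_fc_left _ hA.1 h).eq, ← Matrix.mul_assoc,
      pw_mul_pw hA, add_halves, pw_one hA.1]
  rw [h1]
  exact hB.conjTranspose_mul_mul_same
    (Matrix.mulVec_injective_of_isUnit (pw_posDef hA _).isUnit)

lemma posSemidef_mul (hA : A.PosSemidef) (hB : B.PosSemidef) (h : Commute A B) :
    (A * B).PosSemidef := (Commute.mul_nonneg hA.nonneg hB.nonneg h).posSemidef

lemma fc_mul_comm (hA : A.IsHermitian) (hB : B.IsHermitian) (h : Commute A B) {f g k : ℝ → ℂ}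
    (H : ∀ i j, f (ev A i * ev B j) = g (ev A i) * k (ev B j)) :
    fc f (A * B) = fc g A * fc k B :=
  ext_two hA hB h fun i j V h1 h2 => by
    rw [fc_mul_of_eig f (isHermitian_mul hA hB h) (c := ev A i * ev B j)
      (by rw [Matrix.mul_assoc, h2, Matrix.mul_smul, h1, smul_smul, mul_comm]; norm_cast),
      Matrix.mul_assoc, fc_mul_of_eig k hB h2, Matrix.mul_smul, fc_mul_of_eig g hA h1, smul_smul,
      H, mul_comm]

lemma cpw_mul (hA : A.PosDef) (hB : B.PosDef) (h : Commute A B) (z : ℂ) :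
    cpw (A * B) z = cpw A z * cpw B z :=
  fc_mul_comm hA.1 hB.1 h fun i j => by
    rw [Real.log_mul (ev_pos hA i).ne' (ev_pos hB j).ne', Complex.ofReal_add, mul_add,
      Complex.exp_add]

lemma pw_mul (hA : A.PosDef) (hB : B.PosDef) (h : Commute A B) (s : ℝ) :
    pw (A * B) s = pw A s * pw B s := by
  rw [← cpw_ofReal (posDef_mul hA hB h), ← cpw_ofReal hA, ← cpw_ofReal hB, cpw_mul hA hB h]

lemma lg_mul (hA : A.PosDef) (hB : B.PosDef) (h : Commute A B) : lg (A * B) = lg A + lg B :=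
  ext_two hA.1 hB.1 h fun i j V h1 h2 => by
    rw [fc_mul_of_eig _ (isHermitian_mul hA.1 hB.1 h) (c := ev A i * ev B j)
      (by rw [Matrix.mul_assoc, h2, Matrix.mul_smul, h1, smul_smul, mul_comm]; norm_cast),
      Matrix.add_mul, fc_mul_of_eig _ hB.1 h2, fc_mul_of_eig _ hA.1 h1,
      Real.log_mul (ev_pos hA i).ne' (ev_pos hB j).ne', Complex.ofReal_add, add_smul]

lemma commute_inv (hB : B.PosDef) (h : Commute A B) : Commute A B⁻¹ := by
  rw [← pw_neg_one hB]; exact (commute_fc_left _ hB.1 h.symm).symm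

lemma posDef_mul_inv (hA : A.PosDef) (hB : B.PosDef) (h : Commute A B) : (A * B⁻¹).PosDef :=
  posDef_mul hA hB.inv (commute_inv hB h)

lemma cpw_mul_inv (hA : A.PosDef) (hB : B.PosDef) (h : Commute A B) (z : ℂ) :
    cpw (A * B⁻¹) z = cpw A z * cpw B (-z) := by
  rw [cpw_mul hA hB.inv (commute_inv hB h), cpw_inv hB]

lemma lg_mul_inv (hA : A.PosDef) (hB : B.PosDef) (h : Commute A B) :
    lg (A * B⁻¹) = lg A - lg B := by
  rw [lg_mul hA hB.inv (commute_inv hB h), lg_inv hB, sub_eq_add_neg]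

lemma inv_mul_inv (A : Matrix n n ℂ) (hB : B.PosDef) : (A * B⁻¹)⁻¹ = B * A⁻¹ := by
  rw [Matrix.mul_inv_rev, Matrix.nonsing_inv_nonsing_inv _ ((isUnit_iff_isUnit_det _).1 hB.isUnit)]

/-! ### order -/

lemma posDef_of_le (hA : A.PosDef) (h : A ≤ B) : B.PosDef := by
  have := hA.add_posSemidef (Matrix.le_iff.1 h)
  rwa [add_sub_cancel] at this

lemma lg_mono (hA : A.PosDef) (h : A ≤ B) : lg A ≤ lg B := by
  rw [lg, lg, fr_eq_cfc _ hA.1, fr_eq_cfc _ (posDef_of_le hA h).1]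
  exact CFC.log_le_log h hA.isStrictlyPositive

lemma pw_mono (hA : A.PosSemidef) (h : A ≤ B) {s : ℝ} (h0 : 0 ≤ s) (h1 : s ≤ 1) :
    pw A s ≤ pw B s := by
  have hB : B.PosSemidef := (hA.nonneg.trans h).posSemidef
  rw [pw, pw, fr_eq_cfc _ hA.1, fr_eq_cfc _ hB.1, ← CFC.rpow_eq_cfc_real hA.nonneg,
    ← CFC.rpow_eq_cfc_real hB.nonneg]
  exact CFC.rpow_le_rpow ⟨h0, h1⟩ h

lemma conj_mono (h : A ≤ B) (C : Matrix n n ℂ) : Cᴴ * A * C ≤ Cᴴ * B * C := by
  rw [Matrix.le_iff, ← Matrix.sub_mul, ← Matrix.mul_sub]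
  exact (Matrix.le_iff.1 h).conjTranspose_mul_mul_same C

lemma norm_le_one_of_le {C : Matrix n n ℂ} (h : Cᴴ * C ≤ 1) : ‖C‖ ≤ 1 := by
  rw [← norm_ap]
  refine ContinuousLinearMap.opNorm_le_bound _ zero_le_one fun v => ?_
  have h1 := re_inner_ap_mono h v
  rw [← norm_ap_sq, ap_one, inner_self_eq_norm_sq_to_K] at h1
  have h2 : ‖ap C v‖ ^ 2 ≤ ‖v‖ ^ 2 := by exact_mod_cast h1
  rw [one_mul]
  exact (sq_le_sq₀ (norm_nonneg _) (norm_nonneg _)).1 h2

lemma le_one_of_norm_le {C : Matrix n n ℂ} (h : ‖C‖ ≤ 1) : Cᴴ * C ≤ 1 := by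
  rw [Matrix.le_iff]
  refine posSemidef_of_re_inner (isHermitian_one.sub (isHermitian_conjTranspose_mul_self C))
    fun v => ?_
  rw [ap_sub, inner_sub_right, Complex.sub_re, ← norm_ap_sq, ap_one, inner_self_eq_norm_sq_to_K]
  have h1 : ‖ap C v‖ ≤ ‖v‖ := (norm_ap_le C v).trans (mul_le_of_le_one_left (norm_nonneg _) h)
  have h2 : ‖ap C v‖ ^ 2 ≤ ‖v‖ ^ 2 := by gcongr
  have h3 : (((‖v‖ : ℂ)) ^ 2).re = ‖v‖ ^ 2 := by norm_cast
  simp only [Complex.coe_algebraMap]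
  linarith

/-- `A ≤ B` makes `A^{1/2} B^{-1/2}` a contraction -/
lemma norm_half_le (hA : A.PosDef) (h : A ≤ B) : ‖pw A (1 / 2) * pw B (-(1 / 2))‖ ≤ 1 := by
  have hB := posDef_of_le hA h
  refine norm_le_one_of_le ?_
  have h1 := conj_mono h (pw B (-(1 / 2)))
  rw [conjTranspose_mul, pw_conjTranspose, pw_conjTranspose, Matrix.mul_assoc,
    ← Matrix.mul_assoc (pw A _), pw_mul_pw hA, add_halves, pw_one hA.1, ← Matrix.mul_assoc]
  rw [pw_conjTranspose] at h1
  refine h1.trans (le_of_eq ?_)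
  conv_lhs => arg 1; arg 2; rw [← pw_one hB.1]
  rw [pw_mul_pw hB, pw_mul_pw hB, ← pw_zero B]; norm_num

lemma norm_half_le' (hA : A.PosDef) (h : A ≤ B) : ‖pw B (-(1 / 2)) * pw A (1 / 2)‖ ≤ 1 := by
  have := norm_half_le hA h
  rwa [← l2_opNorm_conjTranspose, conjTranspose_mul, pw_conjTranspose, pw_conjTranspose] at this

lemma inv_anti (hA : A.PosDef) (h : A ≤ B) : B⁻¹ ≤ A⁻¹ := by
  have hB := posDef_of_le hA h
  have h1 := conj_mono (le_one_of_norm_le (norm_half_le' hA h)) (pw A (-(1 / 2)))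
  simp only [conjTranspose_mul, pw_conjTranspose, Matrix.mul_assoc, pw_mul_neg hA,
    Matrix.mul_one] at h1
  rw [← Matrix.mul_assoc, pw_neg_mul hA, Matrix.one_mul, pw_mul_pw hA, pw_mul_pw hB] at h1
  rw [← pw_neg_one hA, ← pw_neg_one hB]
  convert h1 using 2 <;> norm_num

/-- multiplying an inequality by a commuting positive matrix -/
lemma mul_le_mul_comm {C : Matrix n n ℂ} (h : A ≤ B) (hC : C.PosSemidef) (h1 : Commute A C)
    (h2 : Commute B C) : A * C ≤ B * C := by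
  rw [Matrix.le_iff, ← Matrix.sub_mul]
  exact posSemidef_mul (Matrix.le_iff.1 h) hC (h2.sub_left h1)

end alg

section supp

variable {ι : Type} [Fintype ι] [DecidableEq ι] {d : ι → Type} [∀ x, Fintype (d x)]
  [∀ x, DecidableEq (d x)] {X : Finset ι} {M : Q.Op d}

lemma supp_cpw (h : Supp X M) (hM : M.IsHermitian) (z : ℂ) : Supp X (cpw M z) := h.fc _ hM

lemma supp_pw (h : Supp X M) (hM : M.IsHermitian) (s : ℝ) : Supp X (pw M s) := h.fc _ hM

lemma supp_lg (h : Supp X M) (hM : M.IsHermitian) : Supp X (lg M) := h.fc _ hM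

lemma supp_inv (h : Supp X M) (hM : M.PosDef) : Supp X M⁻¹ := by
  rw [← pw_neg_one hM]; exact supp_pw h hM.1 _

end supp

end Crest.Agent.N336.Eng
end

-- ▼ part N336/Eng/Strip

/-!
# Row 336, CORE: entire functions bounded on strips, three lines, moments (helper21)

* `SB F` : entire and bounded on every vertical strip; closure properties
* `three`, `three_damp` : Hadamard three lines, plain and with Gaussian damping
* `mom_pw`, `Mom` : moment bounds
-/

set_option autoImplicit false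
set_option linter.unusedSectionVars false

open Matrix Finset
open scoped ComplexOrder MatrixOrder Matrix.Norms.L2Operator InnerProductSpace

namespace Crest.Agent.N336.Eng

open Crest.Agent.N336.Q

/-- entire and bounded on every vertical strip -/
structure SB {E : Type} [NormedAddCommGroup E] [NormedSpace ℂ E] (F : ℂ → E) : Prop where
  diff : Differentiable ℂ F
  bdd : ∀ a b : ℝ, ∃ C : ℝ, 0 ≤ C ∧ ∀ z : ℂ, a ≤ z.re → z.re ≤ b → ‖F z‖ ≤ C

namespace SB

section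
variable {E E' : Type} [NormedAddCommGroup E] [NormedSpace ℂ E] [NormedAddCommGroup E']
  [NormedSpace ℂ E'] {F G : ℂ → E}

lemma const (c : E) : SB fun _ : ℂ => c :=
  ⟨differentiable_const c, fun _ _ => ⟨‖c‖, norm_nonneg _, fun _ _ _ => le_rfl⟩⟩

lemma add (hF : SB F) (hG : SB G) : SB fun z => F z + G z :=
  ⟨hF.diff.add hG.diff, fun a b => by
    obtain ⟨C, hC, h1⟩ := hF.bdd a b
    obtain ⟨D, hD, h2⟩ := hG.bdd a b
    exact ⟨C + D, by positivity, fun z ha hb =>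
      (norm_add_le _ _).trans (add_le_add (h1 z ha hb) (h2 z ha hb))⟩⟩

lemma neg (hF : SB F) : SB fun z => -F z :=
  ⟨hF.diff.neg, fun a b => by simpa using hF.bdd a b⟩

lemma sub (hF : SB F) (hG : SB G) : SB fun z => F z - G z := by
  simpa [sub_eq_add_neg] using hF.add hG.neg

lemma smul {c : ℂ → ℂ} (hc : SB c) (hF : SB F) : SB fun z => c z • F z :=
  ⟨hc.diff.smul hF.diff, fun a b => by
    obtain ⟨C, hC, h1⟩ := hc.bdd a b
    obtain ⟨D, hD, h2⟩ := hF.bdd a b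
    exact ⟨C * D, by positivity, fun z ha hb => by
      rw [norm_smul]; exact mul_le_mul (h1 z ha hb) (h2 z ha hb) (norm_nonneg _) hC⟩⟩

lemma sum {K : Type*} (s : Finset K) {F : K → ℂ → E} (h : ∀ k ∈ s, SB (F k)) :
    SB fun z => ∑ k ∈ s, F k z := by
  classical
  induction s using Finset.induction_on with
  | empty => simpa using const (0 : E)
  | insert a s ha ih =>
    simp only [Finset.sum_insert ha]
    exact (h a (mem_insert_self _ _)).add (ih fun k hk => h k (mem_insert_of_mem hk))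

lemma clm (L : E →L[ℂ] E') (hF : SB F) : SB fun z => L (F z) :=
  ⟨L.differentiable.comp hF.diff, fun a b => by
    obtain ⟨C, hC, h1⟩ := hF.bdd a b
    exact ⟨‖L‖ * C, by positivity, fun z ha hb =>
      (L.le_opNorm _).trans (mul_le_mul_of_nonneg_left (h1 z ha hb) (norm_nonneg _))⟩⟩

lemma clm_apply {L : ℂ → E →L[ℂ] E'} (hL : SB L) (hF : SB F) : SB fun z => L z (F z) :=
  ⟨hL.diff.clm_apply hF.diff, fun a b => by
    obtain ⟨C, hC, h1⟩ := hL.bdd a b
    obtain ⟨D, hD, h2⟩ := hF.bdd a b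
    exact ⟨C * D, by positivity, fun z ha hb =>
      ((L z).le_opNorm _).trans (mul_le_mul (h1 z ha hb) (h2 z ha hb) (norm_nonneg _) hC)⟩⟩

/-- real affine change of variable -/
lemma affine (hF : SB F) (α : ℝ) (β : ℂ) : SB fun z => F (α * z + β) :=
  ⟨hF.diff.comp (by fun_prop), fun a b => by
    obtain ⟨C, hC, h1⟩ := hF.bdd (-(|α| * (|a| + |b|)) + β.re) (|α| * (|a| + |b|) + β.re)
    refine ⟨C, hC, fun z ha hb => ?_⟩
    have h2 : |z.re| ≤ |a| + |b| := by
      rw [abs_le]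
      constructor <;> linarith [le_abs_self b, neg_abs_le a, abs_nonneg a, abs_nonneg b]
    have h3 : |α * z.re| ≤ |α| * (|a| + |b|) := by rw [abs_mul]; gcongr
    have h4 := abs_le.1 h3
    refine h1 _ ?_ ?_ <;> simp <;> linarith⟩

lemma exp_mul (c : ℝ) : SB fun z : ℂ => Complex.exp (z * c) :=
  ⟨by fun_prop, fun a b => ⟨Real.exp ((|a| + |b|) * |c|), by positivity, fun z ha hb => by
    rw [Complex.norm_exp]
    refine Real.exp_le_exp.2 ?_
    have h2 : |z.re| ≤ |a| + |b| := by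
      rw [abs_le]
      constructor <;> linarith [le_abs_self b, neg_abs_le a, abs_nonneg a, abs_nonneg b]
    simp only [Complex.mul_re, Complex.ofReal_re, Complex.ofReal_im, mul_zero, sub_zero]
    exact (le_abs_self _).trans (by rw [abs_mul]; gcongr)⟩⟩

lemma norm_damp (lam : ℝ) (z₀ z : ℂ) : ‖Complex.exp (lam * (z - z₀) ^ 2)‖ =
    Real.exp (lam * ((z.re - z₀.re) ^ 2 - (z.im - z₀.im) ^ 2)) := by
  rw [Complex.norm_exp]; congr 1; simp [sq]

lemma damp {lam : ℝ} (h : 0 ≤ lam) (z₀ : ℂ) : SB fun z : ℂ => Complex.exp (lam * (z - z₀) ^ 2) :=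
  ⟨by fun_prop, fun a b => ⟨Real.exp (lam * (|a| + |b| + |z₀.re|) ^ 2), by positivity,
    fun z ha hb => by
      rw [norm_damp]
      refine Real.exp_le_exp.2 (mul_le_mul_of_nonneg_left ?_ h)
      have h2 : |z.re - z₀.re| ≤ |a| + |b| + |z₀.re| := by
        rw [abs_le]
        constructor <;> linarith [le_abs_self b, neg_abs_le a, abs_nonneg a, abs_nonneg b,
          le_abs_self z₀.re, neg_abs_le z₀.re]
      have h3 := pow_le_pow_left₀ (abs_nonneg _) h2 2
      rw [sq_abs] at h3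
      linarith [sq_nonneg (z.im - z₀.im)]⟩⟩

/-- the difference quotient at `c` -/
lemma dslope [CompleteSpace E] (hF : SB F) (c : ℂ) : SB (dslope F c) := by
  have hd : Differentiable ℂ (_root_.dslope F c) :=
    differentiableOn_univ.1
      ((Complex.differentiableOn_dslope Filter.univ_mem).2 hF.diff.differentiableOn)
  refine ⟨hd, fun a b => ?_⟩
  obtain ⟨C, hC, h1⟩ := hF.bdd a b
  obtain ⟨D, hD⟩ := (isCompact_closedBall c 1).exists_bound_of_continuousOn
    hd.continuous.continuousOn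
  refine ⟨max D (C + ‖F c‖), le_max_of_le_right (by positivity), fun z ha hb => ?_⟩
  by_cases hz : z ∈ Metric.closedBall c 1
  · exact le_max_of_le_left (hD z hz)
  · rw [Metric.mem_closedBall, not_le, dist_eq_norm] at hz
    have hne : z ≠ c := by rintro rfl; norm_num at hz
    refine le_max_of_le_right ?_
    rw [dslope_of_ne _ hne, slope_def_module, norm_smul, norm_inv]
    have h2 : ‖z - c‖⁻¹ ≤ 1 := inv_le_one_of_one_le₀ hz.le
    have h3 : ‖F z - F c‖ ≤ C + ‖F c‖ := (norm_sub_le _ _).trans (by linarith [h1 z ha hb])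
    calc _ ≤ 1 * (C + ‖F c‖) := by gcongr
      _ = _ := one_mul _

end

section
variable {𝔸 : Type} [NormedRing 𝔸] [NormedAlgebra ℂ 𝔸] {F G : ℂ → 𝔸}

lemma mul (hF : SB F) (hG : SB G) : SB fun z => F z * G z :=
  ⟨hF.diff.mul hG.diff, fun a b => by
    obtain ⟨C, hC, h1⟩ := hF.bdd a b
    obtain ⟨D, hD, h2⟩ := hG.bdd a b
    exact ⟨C * D, by positivity, fun z ha hb =>
      (norm_mul_le _ _).trans (mul_le_mul (h1 z ha hb) (h2 z ha hb) (norm_nonneg _) hC)⟩⟩

lemma mul_const (hF : SB F) (c : 𝔸) : SB fun z => F z * c := hF.mul (const c)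

lemma const_mul (hF : SB F) (c : 𝔸) : SB fun z => c * F z := (const c).mul hF

end

section
variable {n : Type} [Fintype n] [DecidableEq n]

/-- `ap` as a continuous linear map -/
noncomputable def apL (n : Type) [Fintype n] [DecidableEq n] :
    Matrix n n ℂ →L[ℂ] Vec n →L[ℂ] Vec n :=
  LinearMap.mkContinuous (Matrix.toEuclideanCLM (𝕜 := ℂ) (n := n)).toAlgEquiv.toLinearMap 1
    fun M => by rw [one_mul]; exact le_of_eq (norm_ap M)


lemma cpw (A : Matrix n n ℂ) : SB (cpw A) := by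
  have : Eng.cpw A = fun z => ∑ i, Complex.exp (z * Real.log (ev A i)) • pj (evec A i) :=
    funext fun z => fc_eq_sum _ _
  rw [this]
  exact sum _ fun i _ => (exp_mul _).smul (const _)

/-- `z ↦ A ^ (α z + β)` for real `α` -/
lemma cpw_affine (A : Matrix n n ℂ) (α : ℝ) (β : ℂ) : SB fun z => Eng.cpw A (α * z + β) :=
  (cpw A).affine α β

lemma cpw_of (A : Matrix n n ℂ) {g : ℂ → ℂ} (α : ℝ) (β : ℂ) (h : ∀ z, g z = α * z + β) :
    SB fun z => Eng.cpw A (g z) := by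
  simp only [h]; exact cpw_affine A α β

lemma cpw_neg (A : Matrix n n ℂ) : SB fun z => Eng.cpw A (-z) :=
  cpw_of A (-1) 0 fun z => by simp

lemma ap {F : ℂ → Matrix n n ℂ} {v : ℂ → Vec n} (hF : SB F) (hv : SB v) :
    SB fun z => ap (F z) (v z) := (hF.clm (apL n)).clm_apply hv

lemma ap_const {F : ℂ → Matrix n n ℂ} (hF : SB F) (v : Vec n) : SB fun z => Q.ap (F z) v :=
  hF.ap (const v)

lemma inner {v : ℂ → Vec n} (hv : SB v) (u : Vec n) : SB fun z => ⟪u, v z⟫_ℂ :=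
  hv.clm (innerSL ℂ u)

end

end SB

section three

variable {E : Type} [NormedAddCommGroup E] [NormedSpace ℂ E] {F : ℂ → E}

/-- Hadamard three lines -/
theorem three (hF : SB F) {a b M₀ M₁ : ℝ} (hab : a < b) {z : ℂ} (ha : a ≤ z.re) (hb : z.re ≤ b)
    (h0 : ∀ w : ℂ, w.re = a → ‖F w‖ ≤ M₀) (h1 : ∀ w : ℂ, w.re = b → ‖F w‖ ≤ M₁) :
    ‖F z‖ ≤ M₀ ^ (1 - (z.re - a) / (b - a)) * M₁ ^ ((z.re - a) / (b - a)) := by
  obtain ⟨C, -, hC⟩ := hF.bdd a b
  refine Complex.HadamardThreeLines.norm_le_interp_of_mem_verticalClosedStrip' hab ⟨ha, hb⟩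
    hF.diff.diffContOnCl ⟨C, ?_⟩ h0 h1
  rintro _ ⟨w, hw, rfl⟩
  exact hC w hw.1 hw.2

/-- maximum principle on a strip -/
theorem three_max (hF : SB F) {a b M : ℝ} (hab : a < b) {z : ℂ} (ha : a ≤ z.re) (hb : z.re ≤ b)
    (h0 : ∀ w : ℂ, w.re = a → ‖F w‖ ≤ M) (h1 : ∀ w : ℂ, w.re = b → ‖F w‖ ≤ M) : ‖F z‖ ≤ M := by
  have hM : 0 ≤ M := (norm_nonneg _).trans (h0 a (by simp))
  have := three hF hab ha hb h0 h1
  rwa [← Real.rpow_add' hM (by simp), sub_add_cancel, Real.rpow_one] at this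

/-- three lines in exponential form -/
theorem three_exp (hF : SB F) {a b m₀ m₁ : ℝ} (hab : a < b) {z : ℂ} (ha : a ≤ z.re)
    (hb : z.re ≤ b) (h0 : ∀ w : ℂ, w.re = a → ‖F w‖ ≤ Real.exp m₀)
    (h1 : ∀ w : ℂ, w.re = b → ‖F w‖ ≤ Real.exp m₁) :
    ‖F z‖ ≤ Real.exp (m₀ * (1 - (z.re - a) / (b - a)) + m₁ * ((z.re - a) / (b - a))) := by
  have := three hF hab ha hb h0 h1
  rwa [← Real.exp_mul, ← Real.exp_mul, ← Real.exp_add] at this

/-- three lines with Gaussian damping centred at `z` -/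
theorem three_damp (hF : SB F) {a b M₀ M₁ lam : ℝ} (hab : a < b) (hl : 0 ≤ lam) {z : ℂ}
    (ha : a ≤ z.re) (hb : z.re ≤ b)
    (h0 : ∀ w : ℂ, w.re = a → ‖F w‖ * Real.exp (-(lam * (w.im - z.im) ^ 2)) ≤ M₀)
    (h1 : ∀ w : ℂ, w.re = b → ‖F w‖ * Real.exp (-(lam * (w.im - z.im) ^ 2)) ≤ M₁) :
    ‖F z‖ ≤ Real.exp (lam * ((z.re - a) * (b - z.re))) *
      (M₀ ^ (1 - (z.re - a) / (b - a)) * M₁ ^ ((z.re - a) / (b - a))) := by
  have hM0 : 0 ≤ M₀ := le_trans (by positivity) (h0 a (by simp))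
  have hM1 : 0 ≤ M₁ := le_trans (by positivity) (h1 b (by simp))
  have key : ∀ (c M : ℝ) (w : ℂ), w.re = c →
      ‖F w‖ * Real.exp (-(lam * (w.im - z.im) ^ 2)) ≤ M →
      ‖Complex.exp (lam * (w - z) ^ 2) • F w‖ ≤ Real.exp (lam * (c - z.re) ^ 2) * M := by
    intro c M w hw h
    rw [norm_smul, SB.norm_damp, mul_sub, sub_eq_add_neg, Real.exp_add, hw, mul_assoc,
      mul_comm (Real.exp (-_))]
    gcongr
  have := three ((SB.damp hl z).smul hF) hab ha hb (fun w hw => key a M₀ w hw (h0 w hw))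
    fun w hw => key b M₁ w hw (h1 w hw)
  simp only [sub_self, ne_eq, OfNat.ofNat_ne_zero, not_false_eq_true, zero_pow, mul_zero,
    Complex.exp_zero, one_smul] at this
  refine this.trans (le_of_eq ?_)
  rw [Real.mul_rpow (by positivity) hM0, Real.mul_rpow (by positivity) hM1, ← Real.exp_mul,
    ← Real.exp_mul, mul_mul_mul_comm, ← Real.exp_add]
  congr 2
  have : b - a ≠ 0 := by linarith
  field_simp
  ring

end three

section deriv

variable {n : Type} [Fintype n] [DecidableEq n]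

lemma hasDerivAt_cpw (A : Matrix n n ℂ) (z : ℂ) : HasDerivAt (cpw A) (lg A * cpw A z) z := by
  have h1 : cpw A = fun z => ∑ i, Complex.exp (z * Real.log (ev A i)) • pj (evec A i) :=
    funext fun z => fc_eq_sum _ _
  have h2 : lg A * cpw A z =
      ∑ i, (Complex.exp (z * Real.log (ev A i)) * Real.log (ev A i)) • pj (evec A i) := by
    rw [cpw, fc_mul, fc_eq_sum]; simp only [mul_comm]
  rw [h2, h1]
  refine HasDerivAt.fun_sum fun i _ => HasDerivAt.smul_const ?_ _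
  simpa using ((hasDerivAt_id z).mul_const (Real.log (ev A i) : ℂ)).cexp

lemma hasDerivAt_cpw_zero (A : Matrix n n ℂ) : HasDerivAt (cpw A) (lg A) 0 := by
  simpa using hasDerivAt_cpw A 0

lemma hasDerivAt_cpw_neg_zero (A : Matrix n n ℂ) :
    HasDerivAt (fun z => cpw A (-z)) (-lg A) 0 := by
  have h := (hasDerivAt_cpw A (-0)).scomp (0 : ℂ) (hasDerivAt_neg (0 : ℂ))
  simp only [neg_zero, cpw_zero, Matrix.mul_one, neg_smul, one_smul] at h
  exact h

lemma HasDerivAt.inner_ap {F : ℂ → Matrix n n ℂ} {F' : Matrix n n ℂ} {z : ℂ}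
    (h : HasDerivAt F F' z) (u v : Vec n) :
    HasDerivAt (fun w => ⟪u, ap (F w) v⟫_ℂ) ⟪u, ap F' v⟫_ℂ z :=
  ((innerSL ℂ u).comp ((ContinuousLinearMap.apply ℂ (Vec n) v).comp
    (SB.apL n))).hasFDerivAt.comp_hasDerivAt z h

end deriv

section mom

variable {n : Type} [Fintype n] [DecidableEq n] {A : Matrix n n ℂ} {v : Vec n}

lemma qf_fr (g : ℝ → ℝ) (A : Matrix n n ℂ) (v : Vec n) :
    qf v (fr g A) = ∑ i, g (ev A i) * ‖⟪evec A i, v⟫_ℂ‖ ^ 2 := re_inner_fr g A v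

lemma qf_fr_le {g k : ℝ → ℝ} (h : ∀ i, g (ev A i) ≤ k (ev A i)) (v : Vec n) :
    qf v (fr g A) ≤ qf v (fr k A) := re_inner_ap_mono (fr_le_fr h) v

lemma qf_add (M N : Matrix n n ℂ) (v : Vec n) : qf v (M + N) = qf v M + qf v N := by
  simp only [qf, ap_add, inner_add_right, Complex.add_re]

lemma qf_sub (M N : Matrix n n ℂ) (v : Vec n) : qf v (M - N) = qf v M - qf v N := by
  simp only [qf, ap_sub, inner_sub_right, Complex.sub_re]

lemma qf_neg (M : Matrix n n ℂ) (v : Vec n) : qf v (-M) = -qf v M := by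
  simp only [qf, ap_neg, inner_neg_right, Complex.neg_re]

lemma qf_smul (c : ℝ) (M : Matrix n n ℂ) (v : Vec n) : qf v ((c : ℂ) • M) = c * qf v M := by
  simp only [qf, ap_smul, inner_smul_right, Complex.re_ofReal_mul]

lemma qf_one (v : Vec n) : qf v 1 = ‖v‖ ^ 2 := by
  rw [qf, ap_one, inner_self_eq_norm_sq_to_K]; norm_cast

lemma qf_self (hA : A.IsHermitian) (v : Vec n) :
    qf v A = ∑ i, ev A i * ‖⟪evec A i, v⟫_ℂ‖ ^ 2 := by
  rw [← qf_fr (fun x => x), fr_id hA]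


/-- pointwise affine bounds pass to expectations -/
lemma qf_fr_le_lin {g k₁ k₂ k₃ : ℝ → ℝ} {a b₁ b₂ b₃ : ℝ} (hv : ‖v‖ = 1)
    (h : ∀ i, g (ev A i) ≤ a + b₁ * k₁ (ev A i) + b₂ * k₂ (ev A i) + b₃ * k₃ (ev A i)) :
    qf v (fr g A) ≤ a + b₁ * qf v (fr k₁ A) + b₂ * qf v (fr k₂ A) + b₃ * qf v (fr k₃ A) := by
  have h1 := sum_sq_inner_evec A v
  rw [hv, one_pow] at h1
  simp only [qf_fr, Finset.mul_sum]
  conv_rhs => rw [← mul_one a, ← h1, Finset.mul_sum]
  simp only [← Finset.sum_add_distrib]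
  refine Finset.sum_le_sum fun i _ => ?_
  have := mul_le_mul_of_nonneg_right (h i) (sq_nonneg ‖⟪evec A i, v⟫_ℂ‖)
  linarith

/-- Jensen for `x ^ g`, `0 ≤ g ≤ 1` -/
lemma mom_pw (hA : A.PosDef) (hv : ‖v‖ = 1) {m g : ℝ} (hm : 0 < m) (h : qf v A ≤ m) (h0 : 0 ≤ g)
    (h1 : g ≤ 1) : qf v (pw A g) ≤ m ^ g := by
  have hp : 0 < m ^ g := Real.rpow_pos_of_pos hm g
  have := qf_fr_le_lin (A := A) (g := fun x => x ^ g) (k₁ := fun x => x) (k₂ := fun x => x)
    (k₃ := fun x => x) (a := m ^ g * (1 - g)) (b₁ := m ^ g * g / m) (b₂ := 0) (b₃ := 0) hv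
    fun i => by
      have hx := ev_pos hA i
      have h2 := rpow_one_add_le_one_add_mul_self (s := ev A i / m - 1)
        (by linarith [div_pos hx hm]) h0 h1
      rw [add_sub_cancel, Real.div_rpow hx.le hm.le, div_le_iff₀ hp] at h2
      refine h2.trans (le_of_eq ?_)
      field_simp
      ring
  rw [fr_id hA.1] at this
  have h3 : m ^ g * g / m * qf v A ≤ m ^ g * g / m * m := by gcongr
  rw [div_mul_cancel₀ _ hm.ne'] at h3
  exact this.trans (by linarith)

lemma mom_pw_neg (hA : A.PosDef) (hv : ‖v‖ = 1) {m g : ℝ} (hm : 0 < m) (h : qf v A⁻¹ ≤ m)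
    (h0 : 0 ≤ g) (h1 : g ≤ 1) : qf v (pw A (-g)) ≤ m ^ g := by
  rw [← pw_inv hA]; exact mom_pw hA.inv hv hm h h0 h1

/-- first moments of `x` and `x⁻¹` are at most `exp l` -/
structure Mom (A : Matrix n n ℂ) (v : Vec n) (l : ℝ) : Prop where
  pd : A.PosDef
  unit : ‖v‖ = 1
  one_le : 1 ≤ l
  pos : qf v A ≤ Real.exp l
  neg : qf v A⁻¹ ≤ Real.exp l

namespace Mom

variable {l : ℝ}

lemma inv (h : Mom A v l) : Mom A⁻¹ v l :=
  ⟨h.pd.inv, h.unit, h.one_le, h.neg, by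
    rw [Matrix.nonsing_inv_nonsing_inv _ ((isUnit_iff_isUnit_det _).1 h.pd.isUnit)]; exact h.pos⟩

lemma pw_le (h : Mom A v l) {g : ℝ} (hg : |g| ≤ 1) : qf v (pw A g) ≤ Real.exp (l * |g|) := by
  rw [Real.exp_mul]
  rcases le_total 0 g with h0 | h0
  · rw [abs_of_nonneg h0] at hg ⊢
    exact mom_pw h.pd h.unit (Real.exp_pos l) h.pos h0 hg
  · rw [abs_of_nonpos h0] at hg ⊢
    have := mom_pw_neg h.pd h.unit (Real.exp_pos l) h.neg (neg_nonneg.2 h0) hg
    rwa [neg_neg] at this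


lemma pw_inv_l (h : Mom A v l) : qf v (pw A l⁻¹) ≤ 3 ∧ qf v (pw A (-l⁻¹)) ≤ 3 := by
  have hl : 0 < l := by linarith [h.one_le]
  have h1 : |l⁻¹| ≤ 1 := by
    rw [abs_of_pos (inv_pos.2 hl)]; exact inv_le_one_of_one_le₀ h.one_le
  have h2 := h.pw_le h1
  have h3 := h.pw_le (g := -l⁻¹) (by rwa [abs_neg])
  rw [abs_neg] at h3
  rw [abs_of_pos (inv_pos.2 hl), mul_inv_cancel₀ hl.ne'] at h2 h3
  have := Real.exp_one_lt_d9
  constructor <;> linarith

lemma sq_le_exp (u : ℝ) : u ^ 2 ≤ 4 * Real.exp (3 / 4 * |u|) := by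
  have h := Real.quadratic_le_exp_of_nonneg (x := 3 / 4 * |u|) (by positivity)
  have h2 : (3 / 4 * |u|) ^ 2 = 9 / 16 * u ^ 2 := by rw [mul_pow, sq_abs]; norm_num
  nlinarith [abs_nonneg u, sq_nonneg u]

lemma exp_abs_le {x : ℝ} (hx : 0 < x) (g : ℝ) :
    Real.exp |g * Real.log x| ≤ x ^ g + x ^ (-g) := by
  rw [Real.rpow_def_of_pos hx, Real.rpow_def_of_pos hx, mul_comm (Real.log x),
    mul_comm (Real.log x), neg_mul]
  rcases abs_cases (g * Real.log x) with ⟨h, -⟩ | ⟨h, -⟩ <;> rw [h] <;>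
    linarith [Real.exp_pos (g * Real.log x), Real.exp_pos (-(g * Real.log x))]

lemma log_sq (h : Mom A v l) : qf v (fr (fun x => Real.log x ^ 2) A) ≤ 24 * l ^ 2 := by
  have hl : 0 < l := by linarith [h.one_le]
  have := qf_fr_le_lin (A := A) (g := fun x => Real.log x ^ 2) (k₁ := fun x => x ^ l⁻¹)
    (k₂ := fun x => x ^ (-l⁻¹)) (k₃ := fun x => x) (a := 0) (b₁ := 4 * l ^ 2) (b₂ := 4 * l ^ 2)
    (b₃ := 0) h.unit fun i => by
      have h1 := exp_abs_le (ev_pos h.pd i) l⁻¹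
      have h2 := sq_le_exp (l⁻¹ * Real.log (ev A i))
      have h3 : Real.exp (3 / 4 * |l⁻¹ * Real.log (ev A i)|) ≤
          Real.exp |l⁻¹ * Real.log (ev A i)| :=
        Real.exp_le_exp.2 (by linarith [abs_nonneg (l⁻¹ * Real.log (ev A i))])
      have h4 : Real.log (ev A i) ^ 2 = l ^ 2 * (l⁻¹ * Real.log (ev A i)) ^ 2 := by field_simp
      have h5 : 0 < l ^ 2 := by positivity
      rw [h4]; nlinarith
  obtain ⟨h1, h2⟩ := h.pw_inv_l
  have h5 : 0 < l ^ 2 := by positivity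
  simp only [pw] at h1 h2
  nlinarith

lemma norm_lg_le (h : Mom A v l) : ‖ap (lg A) v‖ ≤ 5 * l := by
  have hl : 0 < l := by linarith [h.one_le]
  rw [← sq_le_sq₀ (norm_nonneg _) (by positivity), norm_ap_lg_sq]
  nlinarith [h.log_sq]

lemma norm_cpw_sub_le (h : Mom A v l) {z : ℂ} (hz : z.re = 0) :
    ‖ap (cpw A z) v - v‖ ≤ 5 * l * ‖z‖ := by
  refine (norm_ap_cpw_sub_le A hz v).trans ?_
  rw [mul_comm]
  gcongr
  exact h.norm_lg_le

lemma exp_le_quad (w : ℝ) : Real.exp w ≤ 1 + w + w ^ 2 * Real.exp |w| := by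
  rcases le_total 0 w with h | h
  · rw [abs_of_nonneg h]
    have h1 := Real.add_one_le_exp (-w)
    have h2 : Real.exp w * Real.exp (-w) = 1 := by rw [← Real.exp_add]; simp
    have h3 := Real.exp_pos w
    have h4 : Real.exp w ≤ 1 + w * Real.exp w := by nlinarith
    nlinarith [mul_le_mul_of_nonneg_left h4 h]
  · rw [abs_of_nonpos h]
    have h1 := Real.add_one_le_exp (-w)
    have h2 : Real.exp w * Real.exp (-w) = 1 := by rw [← Real.exp_add]; simp
    have h3 := Real.exp_pos w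
    have h4 : Real.exp w * (1 - w) ≤ 1 := by nlinarith
    have h5 : Real.exp w ≤ 1 + w + w ^ 2 := by
      by_contra hc
      push Not at hc
      nlinarith [mul_lt_mul_of_pos_right hc (show 0 < 1 - w by linarith),
        mul_nonneg (sq_nonneg w) (neg_nonneg.2 h)]
    nlinarith [sq_nonneg w, mul_nonneg (sq_nonneg w) (neg_nonneg.2 h)]

/-- second order bound for small moments -/
lemma pw_le_exp (h : Mom A v l) {g : ℝ} (hg : |g| * l ≤ 1 / 4) :
    qf v (pw A g) ≤ Real.exp (g * qf v (lg A) + 24 * g ^ 2 * l ^ 2) := by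
  have hl : 0 < l := by linarith [h.one_le]
  have := qf_fr_le_lin (A := A) (g := fun x => x ^ g) (k₁ := fun x => x ^ l⁻¹)
    (k₂ := fun x => x ^ (-l⁻¹)) (k₃ := Real.log) (a := 1) (b₁ := 4 * g ^ 2 * l ^ 2)
    (b₂ := 4 * g ^ 2 * l ^ 2) (b₃ := g) h.unit fun i => by
      have h1 := exp_abs_le (ev_pos h.pd i) l⁻¹
      set u := l⁻¹ * Real.log (ev A i) with hu
      have h2 := sq_le_exp u
      have h3 := exp_le_quad (g * Real.log (ev A i))
      have h4 : g * Real.log (ev A i) = g * l * u := by rw [hu]; field_simp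
      have h5 : Real.exp |g * l * u| ≤ Real.exp (1 / 4 * |u|) := by
        rw [abs_mul, abs_mul, abs_of_pos hl]; gcongr
      have h6 : Real.exp (3 / 4 * |u|) * Real.exp (1 / 4 * |u|) = Real.exp |u| := by
        rw [← Real.exp_add]; congr 1; ring
      have h7 : (g * l * u) ^ 2 * Real.exp |g * l * u| ≤ g ^ 2 * l ^ 2 * (4 * Real.exp |u|) := by
        rw [← h6, mul_pow, mul_pow, mul_assoc (g ^ 2 * l ^ 2), ← mul_assoc 4]
        gcongr
      have h8 : 0 ≤ g ^ 2 * l ^ 2 := by positivity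
      rw [Real.rpow_def_of_pos (ev_pos h.pd i) g, mul_comm (Real.log _) g]
      rw [h4] at h3 ⊢
      nlinarith
  obtain ⟨h1, h2⟩ := h.pw_inv_l
  have h5 : 0 ≤ g ^ 2 * l ^ 2 := by positivity
  have h6 := Real.add_one_le_exp (g * qf v (lg A) + 24 * g ^ 2 * l ^ 2)
  simp only [pw, lg] at h1 h2 h6 ⊢
  nlinarith

end Mom

end mom

end Crest.Agent.N336.Eng
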