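import Crest.Agent.N336.Eng.Dom
import Mathlib
import Crest.Agent.N336.Eng.Strip
import Crest.Agent.N336.Eng.Pure
import Crest.Agent.N336.Q.Ent

-- ▼ part N336/Eng/Geo
section

/-!
# Row 336, engine: frames, the weighted geometric mean of two matrices, tangent maps (helper88)
-/

set_option autoImplicit false
set_option linter.unusedSectionVars false

open Matrix Finset MeasureTheory
open scoped ComplexOrder MatrixOrder Matrix.Norms.L2Operator InnerProductSpace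

namespace Crest.Agent.N336.Eng.En

open Crest.Agent.N336.Q

variable {n : Type} [Fintype n] [DecidableEq n]

/-- a frame diagonalising a pair of positive definite matrices -/
structure Fr (n : Type) [Fintype n] [DecidableEq n] where
  S : Matrix n n ℂ
  Si : Matrix n n ℂ
  x : n → ℝ
  hx : ∀ i, 0 < x i
  h1 : S * Si = 1
  h2 : Si * S = 1

/-- real diagonal matrix -/
noncomputable abbrev dg (y : n → ℝ) : Matrix n n ℂ := diagonal fun i => (y i : ℂ)

lemma qf_dg (y : n → ℝ) (w : Vec n) : qf w (dg y) = ∑ i, y i * ‖w i‖ ^ 2 := by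
  simp only [qf, inner_eq_sum, ap_apply, diagonal_apply, ite_mul, zero_mul, Finset.sum_ite_eq,
    Finset.mem_univ, if_true, Complex.re_sum]
  refine Finset.sum_congr rfl fun i _ => ?_
  rw [mul_left_comm, Complex.re_ofReal_mul, Complex.star_def, Complex.conj_mul', ← Complex.ofReal_pow,
    Complex.ofReal_re]


namespace Fr

variable (F F' : Fr n)

noncomputable def D (y : n → ℝ) : Matrix n n ℂ := F.S * dg y * F.Sᴴ
noncomputable def a : Matrix n n ℂ := F.D fun _ => 1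
noncomputable def b : Matrix n n ℂ := F.D F.x
noncomputable def m (τ : ℝ) : Matrix n n ℂ := F.D fun i => F.x i ^ τ

/-- mixed tangent map -/
noncomputable def L (K : ℝ → ℝ → ℝ) : Matrix n n ℂ →ₗ[ℝ] Matrix n n ℂ where
  toFun Y := F'.S * sch (fun i j => K (F'.x i) (F.x j)) (F'.Si * Y * F.Siᴴ) * F.Sᴴ
  map_add' Y Z := by simp only [Matrix.mul_add, Matrix.add_mul, map_add]
  map_smul' c Y := by
    simp only [Matrix.mul_smul, Matrix.smul_mul, map_smul, RingHom.id_apply]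

lemma L_apply (K : ℝ → ℝ → ℝ) (Y : Matrix n n ℂ) : F.L F' K Y =
    F'.S * sch (fun i j => K (F'.x i) (F.x j)) (F'.Si * Y * F.Siᴴ) * F.Sᴴ := rfl

lemma h3 : F.Sᴴ * F.Siᴴ = 1 := by rw [← conjTranspose_mul, F.h2, conjTranspose_one]
lemma h4 : F.Siᴴ * F.Sᴴ = 1 := by rw [← conjTranspose_mul, F.h1, conjTranspose_one]

lemma sandwich (Y : Matrix n n ℂ) : F'.S * (F'.Si * Y * F.Siᴴ) * F.Sᴴ = Y := by
  calc _ = (F'.S * F'.Si) * Y * (F.Siᴴ * F.Sᴴ) := by simp only [Matrix.mul_assoc]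
    _ = Y := by rw [F'.h1, F.h4, Matrix.one_mul, Matrix.mul_one]

lemma Si_D (y : n → ℝ) : F.Si * F.D y * F.Siᴴ = dg y := by
  calc _ = (F.Si * F.S) * dg y * (F.Sᴴ * F.Siᴴ) := by simp only [D, Matrix.mul_assoc]
    _ = _ := by rw [F.h2, F.h3, Matrix.one_mul, Matrix.mul_one]

lemma L_D (K : ℝ → ℝ → ℝ) (y : n → ℝ) :
    F.L F K (F.D y) = F.D fun i => K (F.x i) (F.x i) * y i := by
  rw [L_apply, Si_D, sch_diagonal]; rfl


lemma qf_D (y : n → ℝ) (v : Vec n) : qf v (F.D y) = ∑ i, y i * ‖ap F.Sᴴ v i‖ ^ 2 := by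
  rw [D, qf_conj, qf_dg]

lemma D_mono {y z : n → ℝ} (h : ∀ i, y i ≤ z i) : QL (F.D y) (F.D z) := fun v => by
  rw [qf_D, qf_D]; exact Finset.sum_le_sum fun i _ => mul_le_mul_of_nonneg_right (h i) (sq_nonneg _)

lemma D_add (y z : n → ℝ) : F.D (fun i => y i + z i) = F.D y + F.D z := by
  simp only [D, dg, ← Matrix.mul_add, ← Matrix.add_mul, diagonal_add, Complex.ofReal_add]

lemma D_smul (c : ℝ) (y : n → ℝ) : F.D (fun i => c * y i) = c • F.D y := by
  have : dg (fun i => c * y i) = c • dg y := by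
    ext i j; by_cases h : i = j <;> simp [h]
  simp only [D, this, Matrix.mul_smul, Matrix.smul_mul]

lemma D_posDef {y : n → ℝ} (h : ∀ i, 0 < y i) : (F.D y).PosDef := by
  have h0 : (dg y).PosDef := by
    rw [posDef_diagonal_iff]; intro i; exact_mod_cast h i
  have hu : IsUnit F.S := ⟨⟨F.S, F.Si, F.h1, F.h2⟩, rfl⟩
  exact h0.mul_mul_conjTranspose_same (Matrix.vecMul_injective_of_isUnit hu)

lemma a_posDef : F.a.PosDef := F.D_posDef fun _ => one_pos
lemma b_posDef : F.b.PosDef := F.D_posDef F.hx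
lemma m_posDef (τ : ℝ) : (F.m τ).PosDef := F.D_posDef fun i => Real.rpow_pos_of_pos (F.hx i) τ

variable {τ : ℝ}

lemma LA_D (h : τ ∈ Set.Ioo (0 : ℝ) 1) (y : n → ℝ) :
    F.L F (KA τ) (F.D y) = (1 - τ) • F.D fun i => F.x i ^ τ * y i := by
  rw [L_D, ← D_smul]; congr 1; funext i; rw [KA_diag h (F.hx i), mul_assoc]

lemma LA_a (h : τ ∈ Set.Ioo (0 : ℝ) 1) : F.L F (KA τ) F.a = (1 - τ) • F.m τ := by
  rw [a, LA_D F h]; simp only [mul_one, m]

lemma LB_b (h : τ ∈ Set.Ioo (0 : ℝ) 1) : F.L F (KB τ) F.b = τ • F.m τ := by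
  rw [b, L_D, m, ← D_smul]; congr 1; funext i; rw [← KB_diag h (F.hx i), mul_comm]

lemma domA (h : τ ∈ Set.Ioo (0 : ℝ) 1) {Y P E : Matrix n n ℂ} (hd : Dom Y P E) :
    Dom (F.L F' (KA τ) Y) (F'.L F' (KA τ) P) (F.L F (KA τ) E) :=
  ((hd.conj F'.Si F.Si).sch (w := wA τ) (a := fun i => pA (F'.x i)) (b := fun i => pA (F.x i))
    (fun _ ht => wA_nonneg h ht) (fun i j => int_A h (F'.hx i) (F.hx j))
    (fun i j => int_A h (F'.hx i) (F'.hx j)) (fun i j => int_A h (F.hx i) (F.hx j))).conj F'.S F.S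

lemma domB (h : τ ∈ Set.Ioo (0 : ℝ) 1) {Y P E : Matrix n n ℂ} (hd : Dom Y P E) :
    Dom (F.L F' (KB τ) Y) (F'.L F' (KB τ) P) (F.L F (KB τ) E) :=
  ((hd.conj F'.Si F.Si).sch (w := wB τ) (a := fun i => pB (F'.x i)) (b := fun i => pB (F.x i))
    (fun _ ht => wB_nonneg h ht) (fun i j => int_B h (F'.hx i) (F.hx j))
    (fun i j => int_B h (F'.hx i) (F'.hx j)) (fun i j => int_B h (F.hx i) (F.hx j))).conj F'.S F.S

lemma LA_mono (h : τ ∈ Set.Ioo (0 : ℝ) 1) {E E' : Matrix n n ℂ} (hE : QL E E') :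
    QL (F.L F (KA τ) E) (F.L F (KA τ) E') := by
  rw [← QL.sub_iff, ← map_sub]
  exact (F.domA F h (dom_zero_iff.2 (QL.sub_iff.2 hE))).right

lemma LB_mono (h : τ ∈ Set.Ioo (0 : ℝ) 1) {E E' : Matrix n n ℂ} (hE : QL E E') :
    QL (F.L F (KB τ) E) (F.L F (KB τ) E') := by
  rw [← QL.sub_iff, ← map_sub]
  exact (F.domB F h (dom_zero_iff.2 (QL.sub_iff.2 hE))).right

lemma Si_comm (g : Matrix n n ℂ) (y y' : n → ℝ) :
    F'.Si * (g * F.D y - F'.D y' * g) * F.Siᴴ =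
      F'.Si * g * F.S * dg y - dg y' * (F'.Sᴴ * g * F.Siᴴ) := by
  have e1 : F'.Si * (g * F.D y) * F.Siᴴ = F'.Si * g * F.S * dg y * (F.Sᴴ * F.Siᴴ) := by
    simp only [D, Matrix.mul_assoc]
  have e2 : F'.Si * (F'.D y' * g) * F.Siᴴ = (F'.Si * F'.S) * dg y' * (F'.Sᴴ * g * F.Siᴴ) := by
    simp only [D, Matrix.mul_assoc]
  rw [Matrix.mul_sub, Matrix.sub_mul, e1, e2, F.h3, F'.h2, Matrix.mul_one, Matrix.one_mul]

/-- the intertwining identity -/
lemma inter (h : τ ∈ Set.Ioo (0 : ℝ) 1) (g : Matrix n n ℂ) :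
    g * F.m τ - F'.m τ * g =
      F.L F' (KA τ) (g * F.a - F'.a * g) + F.L F' (KB τ) (g * F.b - F'.b * g) := by
  rw [← F.sandwich F' (g * F.m τ - F'.m τ * g), L_apply, L_apply, ← Matrix.add_mul,
    ← Matrix.mul_add, m, m, a, a, b, b, Si_comm, Si_comm, Si_comm]
  congr 2
  ext i j
  simp only [Matrix.sub_apply, Matrix.add_apply, sch_apply, mul_diagonal, diagonal_mul]
  rw [← KA_add_right h (F'.hx i) (F.hx j), ← KA_add_left h (F'.hx i) (F.hx j)]
  push_cast; ring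

/-- the tangent inequality -/
lemma tan (h : τ ∈ Set.Ioo (0 : ℝ) 1) :
    QL (F'.m τ) (F.L F (KA τ) F'.a + F.L F (KB τ) F'.b) := by
  intro v
  set R := F.Si * F'.S with hR
  have e0 : ∀ y, F.Si * F'.D y * F.Siᴴ = R * dg y * Rᴴ := fun y => by
    simp only [hR, D, conjTranspose_mul, Matrix.mul_assoc]
  set w := ap F.Sᴴ v with hw
  have e1 : ap F'.Sᴴ v = ap Rᴴ w := by
    rw [hw, ← ap_mul, hR, conjTranspose_mul, Matrix.mul_assoc, F.h4, Matrix.mul_one]
  rw [qf_add, L_apply, L_apply, qf_conj, qf_conj, ← hw, a, b, e0, e0, m, qf_D, e1]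
  obtain ⟨i1, e2⟩ := sch_int (w := wA τ) (a := fun i => pA (F.x i)) (b := fun i => pA (F.x i))
    (fun i j => int_A h (F.hx i) (F.hx j)) (R * dg (fun _ => 1) * Rᴴ) w w
  obtain ⟨i2, e3⟩ := sch_int (w := wB τ) (a := fun i => pB (F.x i)) (b := fun i => pB (F.x i))
    (fun i j => int_B h (F.hx i) (F.hx j)) (R * dg F'.x * Rᴴ) w w
  have i0 : ∀ i, IntegrableOn (fun t => r0 τ t (F'.x i) * ‖ap Rᴴ w i‖ ^ 2) (Set.Ioi 0) :=
    fun i => (int_r0 h (F'.hx i).le).mul_const _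
  have e4 : ∑ i, F'.x i ^ τ * ‖ap Rᴴ w i‖ ^ 2 =
      ∫ t in Set.Ioi 0, ∑ i, r0 τ t (F'.x i) * ‖ap Rᴴ w i‖ ^ 2 := by
    rw [integral_finsetSum _ fun i _ => i0 i]
    simp only [integral_mul_const, integral_r0 h (F'.hx _).le]
  simp only [qf, KA, KB]
  rw [e2, e3, e4, ← integral_add i1 i2]
  refine setIntegral_mono_on (integrable_finsetSum _ fun i _ => i0 i) (i1.add i2)
    measurableSet_Ioi fun t ht => ?_
  have ht' : (0 : ℝ) < t := ht
  have e5 : w = dv (fun i => pA (F.x i) t) w + (t : ℂ) • dv (fun i => pB (F.x i) t) w := by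
    ext i
    have : pA (F.x i) t + t * pB (F.x i) t = 1 := by
      have := F.hx i
      unfold pA pB; field_simp; ring
    have h' : (pA (F.x i) t : ℂ) + (t : ℂ) * (pB (F.x i) t : ℂ) = 1 := by exact_mod_cast this
    simp only [dv, PiLp.add_apply, PiLp.smul_apply, smul_eq_mul]
    linear_combination (-(w i)) * h'
  have q1 := qf_conj R (dg fun _ => 1) (dv (fun i => pA (F.x i) t) w)
  have q2 := qf_conj R (dg F'.x) (dv (fun i => pB (F.x i) t) w)
  rw [qf_dg] at q1 q2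
  simp only [qf] at q1 q2
  rw [q1, q2, Finset.mul_sum, Finset.mul_sum, ← Finset.sum_add_distrib]
  refine Finset.sum_le_sum fun i _ => ?_
  have h1 := par_ineq ht' (F'.hx i) (ap Rᴴ (dv (fun i => pA (F.x i) t) w) i)
    (ap Rᴴ (dv (fun i => pB (F.x i) t) w) i)
  have e6 : ap Rᴴ w i = ap Rᴴ (dv (fun i => pA (F.x i) t) w) i +
      (t : ℂ) * ap Rᴴ (dv (fun i => pB (F.x i) t) w) i := by
    conv_lhs => rw [e5]
    simp only [map_add, map_smul, PiLp.add_apply, PiLp.smul_apply, smul_eq_mul]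
  rw [← e6] at h1
  have h3 := mul_le_mul_of_nonneg_left h1 (wA_nonneg h ht')
  rw [wB_eq ht']
  have : r0 τ t (F'.x i) = wA τ t * (F'.x i / (t + F'.x i)) := by simp [r0, wA]
  rw [this]; nlinarith

/-- the geometric mean bound for quadratic forms -/
lemma geo (h : τ ∈ Set.Ioo (0 : ℝ) 1) {w : Vec n} (hw : w ≠ 0) :
    Real.log (qf w (F.m τ)) ≤ (1 - τ) * Real.log (qf w F.a) + τ * Real.log (qf w F.b) := by
  have ha := qf_pos F.a_posDef hw
  have hb := qf_pos F.b_posDef hw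
  have hm := qf_pos (F.m_posDef τ) hw
  set α := qf w F.a with hα
  set β := qf w F.b with hβ
  have hl : 0 < β / α := div_pos hb ha
  have h1 : QL (F.m τ) (F.D fun i => (β / α) ^ τ * ((1 - τ) * 1 + τ / (β / α) * F.x i)) := by
    refine F.D_mono fun i => ?_
    have h2 := Real.geom_mean_le_arith_mean2_weighted (w₁ := 1 - τ) (w₂ := τ) (p₁ := 1)
      (p₂ := F.x i / (β / α)) (by linarith [h.2]) h.1.le zero_le_one
      (div_pos (F.hx i) hl).le (by ring)
    rw [Real.one_rpow, one_mul, Real.div_rpow (F.hx i).le hl.le,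
      div_le_iff₀ (Real.rpow_pos_of_pos hl τ)] at h2
    refine h2.trans (le_of_eq ?_); ring
  have h2 := h1 w
  rw [D_smul, D_add, D_smul, D_smul, qf_smul, qf_add, qf_smul, qf_smul] at h2
  change qf w (F.m τ) ≤ (β / α) ^ τ * ((1 - τ) * α + τ / (β / α) * β) at h2
  have e : (1 - τ) * α + τ / (β / α) * β = α := by field_simp; ring
  rw [e] at h2
  have h3 := Real.log_le_log hm h2
  rw [Real.log_mul (Real.rpow_pos_of_pos hl τ).ne' ha.ne', Real.log_rpow hl,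
    Real.log_div hb.ne' ha.ne'] at h3
  linarith

lemma m_of_eq (hab : F.a = F.b) (τ : ℝ) : F.m τ = F.a := by
  have h1 : dg (fun _ : n => (1 : ℝ)) = dg F.x := by rw [← F.Si_D, ← F.Si_D]; exact congrArg (fun Z => F.Si * Z * F.Siᴴ) hab
  have h2 : ∀ i, F.x i = 1 := fun i => by
    have := congrFun (congrFun h1 i) i
    simp only [diagonal_apply_eq] at this
    exact_mod_cast this.symm
  simp only [m, a, h2, Real.one_rpow]

lemma x_le_one (hab : QL F.b F.a) (i : n) : F.x i ≤ 1 := by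
  have h1 := (hab.conj F.Si) (EuclideanSpace.single i 1)
  rw [a, b, Si_D, Si_D, qf_dg, qf_dg] at h1
  simpa [Finset.sum_eq_single i, PiLp.single_apply, apply_ite] using h1

end Fr

end Crest.Agent.N336.Eng.En
end

-- ▼ part N336/Eng/Mean
section

/-!
# Row 336, engine: canonical frames and the uniform geometric mean of a family (helper88)
-/

set_option autoImplicit false
set_option linter.unusedSectionVars false

open Matrix Finset
open scoped ComplexOrder MatrixOrder Matrix.Norms.L2Operator InnerProductSpace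

namespace Crest.Agent.N336.Eng.En

open Crest.Agent.N336.Q

variable {n : Type} [Fintype n] [DecidableEq n]

lemma pw_mul {A : Matrix n n ℂ} (hA : A.PosDef) (s t : ℝ) : pw A s * pw A t = pw A (s + t) := by
  rw [fc_mul]
  exact fc_congr fun i => by simp only [Real.rpow_add (ev_pos hA i), Complex.ofReal_mul]

lemma pw_zero (A : Matrix n n ℂ) : pw A 0 = 1 := by
  simp only [pw, fr, Real.rpow_zero, Complex.ofReal_one, fc_one]

lemma pw_one {A : Matrix n n ℂ} (hA : A.IsHermitian) : pw A 1 = A := by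
  simp only [pw, Real.rpow_one]; exact fr_id hA

lemma pw_herm (A : Matrix n n ℂ) (s : ℝ) : (pw A s)ᴴ = pw A s := fr_isHermitian _ _

lemma pw_mul_neg {A : Matrix n n ℂ} (hA : A.PosDef) {s t : ℝ} (h : s + t = 0) :
    pw A s * pw A t = 1 := by rw [pw_mul hA, h, pw_zero]

lemma fr_posDef {g : ℝ → ℝ} {A : Matrix n n ℂ} (h : ∀ i, 0 < g (ev A i)) : (fr g A).PosDef :=
  (⟨eU A, (eU A)ᴴ, fun _ => 1, fun _ => one_pos, eU_mul_star A, star_mul_eU A⟩ : Fr n).D_posDef h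

lemma pw_posDef {A : Matrix n n ℂ} (hA : A.PosDef) (s : ℝ) : (pw A s).PosDef :=
  fr_posDef fun i => Real.rpow_pos_of_pos (ev_pos hA i) s

/-- relative operator `A^{-1/2} B A^{-1/2}` -/
noncomputable abbrev rel (A B : Matrix n n ℂ) : Matrix n n ℂ := pw A (-1 / 2) * B * pw A (-1 / 2)

lemma rel_posDef {A B : Matrix n n ℂ} (hA : A.PosDef) (hB : B.PosDef) : (rel A B).PosDef := by
  have hu : IsUnit (pw A (-1 / 2)) := (pw_posDef hA _).isUnit
  have := hB.mul_mul_conjTranspose_same (Matrix.vecMul_injective_of_isUnit hu)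
  rwa [pw_herm] at this

/-- the frame of a positive definite pair -/
noncomputable def frP {A B : Matrix n n ℂ} (hA : A.PosDef) (hB : B.PosDef) : Fr n where
  S := pw A (1 / 2) * eU (rel A B)
  Si := (eU (rel A B))ᴴ * pw A (-1 / 2)
  x := ev (rel A B)
  hx := ev_pos (rel_posDef hA hB)
  h1 := by
    rw [Matrix.mul_assoc, ← Matrix.mul_assoc (eU _), eU_mul_star, Matrix.one_mul,
      pw_mul_neg hA (by norm_num)]
  h2 := by
    rw [Matrix.mul_assoc, ← Matrix.mul_assoc (pw A _), pw_mul_neg hA (by norm_num),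
      Matrix.one_mul, star_mul_eU]

open Classical in
/-- the canonical frame -/
noncomputable def fr0 (A B : Matrix n n ℂ) : Fr n :=
  if h : A.PosDef ∧ B.PosDef then frP h.1 h.2
  else ⟨1, 1, fun _ => 1, fun _ => one_pos, one_mul _, one_mul _⟩

lemma fr0_D {A B : Matrix n n ℂ} (hA : A.PosDef) (hB : B.PosDef) (f : ℝ → ℝ) :
    (fr0 A B).D (fun i => f ((fr0 A B).x i)) = pw A (1 / 2) * fr f (rel A B) * pw A (1 / 2) := by
  rw [fr0, dif_pos ⟨hA, hB⟩]
  simp only [Fr.D, frP]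
  rw [conjTranspose_mul, pw_herm]
  change _ = _ * (eU (rel A B) * dg (fun i => f (ev (rel A B) i)) * (eU (rel A B))ᴴ) * _
  simp only [Matrix.mul_assoc]

lemma fr0_a {A B : Matrix n n ℂ} (hA : A.PosDef) (hB : B.PosDef) : (fr0 A B).a = A := by
  have := fr0_D hA hB fun _ => 1
  simp only [fr, Complex.ofReal_one, fc_one, Matrix.mul_one] at this
  rw [Fr.a, this]
  change pw A (1 / 2) * pw A (1 / 2) = A
  rw [pw_mul hA, add_halves, pw_one hA.1]

lemma fr0_b {A B : Matrix n n ℂ} (hA : A.PosDef) (hB : B.PosDef) : (fr0 A B).b = B := by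
  have := fr0_D hA hB fun x => x
  rw [fr_id (rel_posDef hA hB).1] at this
  rw [Fr.b, this]
  calc _ = (pw A (1 / 2) * pw A (-1 / 2)) * B * (pw A (-1 / 2) * pw A (1 / 2)) := by
        simp only [Matrix.mul_assoc]
    _ = B := by
        rw [pw_mul_neg hA (by norm_num), pw_mul_neg hA (by norm_num), Matrix.one_mul,
          Matrix.mul_one]

/-- one node: domination of the intertwining defect -/
lemma Fr.dom_node (F F' : Fr n) {τ : ℝ} (h : τ ∈ Set.Ioo (0 : ℝ) 1) (g : Matrix n n ℂ)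
    {qa qb : ℝ} {Ea Eb : Matrix n n ℂ} (ha : Dom (g * F.a - F'.a * g) (qa • F'.a) Ea)
    (hb : Dom (g * F.b - F'.b * g) (qb • F'.b) Eb) :
    Dom (g * F.m τ - F'.m τ * g) (((1 - τ) * qa + τ * qb) • F'.m τ)
      (F.L F (KA τ) Ea + F.L F (KB τ) Eb) := by
  have := (F.domA F' h ha).add (F.domB F' h hb)
  rw [map_smul, map_smul, F'.LA_a h, F'.LB_b h, smul_smul, smul_smul, ← add_smul,
    ← F.inter F' h] at this
  rwa [mul_comm (1 - τ), mul_comm τ]

lemma wt_mem (k : ℕ) : ((k + 1 : ℝ) / (k + 2)) ∈ Set.Ioo (0 : ℝ) 1 :=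
  ⟨by positivity, by rw [div_lt_one (by positivity)]; linarith⟩

/-- uniform geometric mean of `k + 1` matrices -/
noncomputable def mean : (k : ℕ) → (Fin (k + 1) → Matrix n n ℂ) → Matrix n n ℂ
  | 0, A => A 0
  | k + 1, A => (fr0 (A 0) (mean k (Fin.tail A))).m ((k + 1 : ℝ) / (k + 2))

/-- its tangent map -/
noncomputable def mP : (k : ℕ) → (Fin (k + 1) → Matrix n n ℂ) →
    (Fin (k + 1) → Matrix n n ℂ) →ₗ[ℝ] Matrix n n ℂ
  | 0, _ => LinearMap.proj 0
  | k + 1, A =>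
    ((fr0 (A 0) (mean k (Fin.tail A))).L (fr0 (A 0) (mean k (Fin.tail A)))
        (KA ((k + 1 : ℝ) / (k + 2)))).comp (LinearMap.proj 0) +
      ((fr0 (A 0) (mean k (Fin.tail A))).L (fr0 (A 0) (mean k (Fin.tail A)))
        (KB ((k + 1 : ℝ) / (k + 2)))).comp
        ((mP k (Fin.tail A)).comp (LinearMap.funLeft ℝ _ Fin.succ))

lemma mP_succ (k : ℕ) (A E : Fin (k + 2) → Matrix n n ℂ) : mP (k + 1) A E =
    (fr0 (A 0) (mean k (Fin.tail A))).L (fr0 (A 0) (mean k (Fin.tail A)))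
        (KA ((k + 1 : ℝ) / (k + 2))) (E 0) +
      (fr0 (A 0) (mean k (Fin.tail A))).L (fr0 (A 0) (mean k (Fin.tail A)))
        (KB ((k + 1 : ℝ) / (k + 2))) (mP k (Fin.tail A) (Fin.tail E)) := rfl

lemma mean_posDef : ∀ (k : ℕ) (A : Fin (k + 1) → Matrix n n ℂ), (∀ j, (A j).PosDef) →
    (mean k A).PosDef
  | 0, _, h => h 0
  | _ + 1, _, _ => Fr.m_posDef _ _

lemma mP_mono : ∀ (k : ℕ) (A E E' : Fin (k + 1) → Matrix n n ℂ), (∀ j, QL (E j) (E' j)) →
    QL (mP k A E) (mP k A E')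
  | 0, _, _, _, h => h 0
  | k + 1, A, E, E', h => by
    rw [mP_succ, mP_succ]
    exact (Fr.LA_mono _ (wt_mem k) (h 0)).add
      (Fr.LB_mono _ (wt_mem k) (mP_mono k _ _ _ fun j => h j.succ))

lemma mP_norm : ∀ (k : ℕ) (A : Fin (k + 1) → Matrix n n ℂ) (ξ : Fin (k + 1) → ℝ),
    (∀ j, (A j).PosDef) → mP k A (fun j => ξ j • A j) = ((∑ j, ξ j) / (k + 1)) • mean k A
  | 0, A, ξ, _ => by simp [mP, mean]
  | k + 1, A, ξ, h => by
    have hm := mean_posDef k (Fin.tail A) fun j => h j.succ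
    have ih := mP_norm k (Fin.tail A) (Fin.tail ξ) fun j => h j.succ
    rw [mP_succ, show (Fin.tail fun j => ξ j • A j) = fun j => Fin.tail ξ j • Fin.tail A j from rfl,
      ih, map_smul, map_smul]
    have e1 := (fr0 (A 0) (mean k (Fin.tail A))).LA_a (wt_mem k)
    have e2 := (fr0 (A 0) (mean k (Fin.tail A))).LB_b (wt_mem k)
    rw [fr0_a (h 0) hm] at e1
    rw [fr0_b (h 0) hm] at e2
    rw [e1, e2, smul_smul, smul_smul, ← add_smul, Fin.sum_univ_succ ξ]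
    congr 1
    simp only [Fin.tail]
    push_cast; field_simp; ring

lemma mean_tan : ∀ (k : ℕ) (A A' : Fin (k + 1) → Matrix n n ℂ), (∀ j, (A' j).PosDef) →
    QL (mean k A') (mP k A A')
  | 0, _, _, _ => QL.refl _
  | k + 1, A, A', h => by
    have hm := mean_posDef k (Fin.tail A') fun j => h j.succ
    have h1 := (fr0 (A 0) (mean k (Fin.tail A))).tan (fr0 (A' 0) (mean k (Fin.tail A'))) (wt_mem k)
    rw [fr0_a (h 0) hm, fr0_b (h 0) hm] at h1
    rw [mP_succ]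
    exact h1.trans ((QL.refl _).add
      (Fr.LB_mono _ (wt_mem k) (mean_tan k _ _ fun j => h j.succ)))

lemma mean_dom (g : Matrix n n ℂ) : ∀ (k : ℕ) (A A' E : Fin (k + 1) → Matrix n n ℂ)
    (q : Fin (k + 1) → ℝ), (∀ j, (A j).PosDef) → (∀ j, (A' j).PosDef) →
    (∀ j, Dom (g * A j - A' j * g) (q j • A' j) (E j)) →
    Dom (g * mean k A - mean k A' * g) (((∑ j, q j) / (k + 1)) • mean k A') (mP k A E)
  | 0, A, A', E, q, _, _, h => by simpa [mean, mP] using h 0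
  | k + 1, A, A', E, q, hA, hA', h => by
    have hm := mean_posDef k (Fin.tail A) fun j => hA j.succ
    have hm' := mean_posDef k (Fin.tail A') fun j => hA' j.succ
    have ih := mean_dom g k (Fin.tail A) (Fin.tail A') (Fin.tail E) (Fin.tail q)
      (fun j => hA j.succ) (fun j => hA' j.succ) fun j => h j.succ
    have := (fr0 (A 0) (mean k (Fin.tail A))).dom_node (fr0 (A' 0) (mean k (Fin.tail A')))
      (wt_mem k) g (qa := q 0) (qb := (∑ j, Fin.tail q j) / (k + 1)) (Ea := E 0)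
      (Eb := mP k (Fin.tail A) (Fin.tail E))
      (by rw [fr0_a (hA 0) hm, fr0_a (hA' 0) hm']; exact h 0)
      (by rw [fr0_b (hA 0) hm, fr0_b (hA' 0) hm']; exact ih)
    have e : (∑ j, q j) / (((k + 1 : ℕ) : ℝ) + 1) = (1 - (k + 1 : ℝ) / (k + 2)) * q 0 +
        (k + 1 : ℝ) / (k + 2) * ((∑ j, Fin.tail q j) / (k + 1)) := by
      rw [Fin.sum_univ_succ q]
      simp only [Fin.tail]
      push_cast; field_simp; ring
    rw [mP_succ, e]
    exact this

lemma mean_geo {w : Vec n} (hw : w ≠ 0) : ∀ (k : ℕ) (A : Fin (k + 1) → Matrix n n ℂ),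
    (∀ j, (A j).PosDef) → Real.log (qf w (mean k A)) ≤ (∑ j, Real.log (qf w (A j))) / (k + 1)
  | 0, A, _ => by simp [mean]
  | k + 1, A, h => by
    have hm := mean_posDef k (Fin.tail A) fun j => h j.succ
    have ih := mean_geo hw k (Fin.tail A) fun j => h j.succ
    have h1 := (fr0 (A 0) (mean k (Fin.tail A))).geo (wt_mem k) hw
    rw [fr0_a (h 0) hm, fr0_b (h 0) hm] at h1
    refine h1.trans ?_
    have h2 := mul_le_mul_of_nonneg_left ih (wt_mem k).1.le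
    refine (add_le_add_right h2 _).trans (le_of_eq ?_)
    rw [Fin.sum_univ_succ (fun j => Real.log (qf w (A j)))]
    simp only [Fin.tail]
    push_cast; field_simp; ring

lemma mean_const {A : Matrix n n ℂ} (hA : A.PosDef) : ∀ k : ℕ, mean k (fun _ => A) = A
  | 0 => rfl
  | k + 1 => by
    have e : Fin.tail (fun _ : Fin (k + 2) => A) = fun _ => A := rfl
    simp only [mean, e, mean_const hA k]
    rw [Fr.m_of_eq _ (by rw [fr0_a hA hA, fr0_b hA hA]), fr0_a hA hA]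

/-! ### means over a finite type -/

section fam

variable {X : Type} [Fintype X] [Nonempty X]

/-- enumeration -/
noncomputable def en (X : Type) [Fintype X] [Nonempty X] : Fin (Fintype.card X - 1 + 1) ≃ X :=
  (Fintype.equivFinOfCardEq (Nat.sub_add_cancel Fintype.card_pos).symm).symm

lemma card_cast (X : Type) [Fintype X] [Nonempty X] :
    ((Fintype.card X - 1 : ℕ) : ℝ) + 1 = Fintype.card X := by
  exact_mod_cast Nat.sub_add_cancel (Fintype.card_pos (α := X))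

/-- uniform geometric mean -/
noncomputable def mn (A : X → Matrix n n ℂ) : Matrix n n ℂ := mean _ fun j => A (en X j)

/-- tangent map of the uniform geometric mean -/
noncomputable def mnP (A : X → Matrix n n ℂ) : (X → Matrix n n ℂ) →ₗ[ℝ] Matrix n n ℂ :=
  (mP _ fun j => A (en X j)).comp (LinearMap.funLeft ℝ _ (en X))

lemma mn_posDef {A : X → Matrix n n ℂ} (h : ∀ x, (A x).PosDef) : (mn A).PosDef :=
  mean_posDef _ _ fun _ => h _

lemma mnP_mono (A : X → Matrix n n ℂ) {E E' : X → Matrix n n ℂ} (h : ∀ x, QL (E x) (E' x)) :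
    QL (mnP A E) (mnP A E') := mP_mono _ _ _ _ fun _ => h _

lemma mnP_norm {A : X → Matrix n n ℂ} (h : ∀ x, (A x).PosDef) (ξ : X → ℝ) :
    mnP A (fun x => ξ x • A x) = ((∑ x, ξ x) / Fintype.card X) • mn A := by
  have := mP_norm _ (fun j => A (en X j)) (fun j => ξ (en X j)) fun _ => h _
  rw [Equiv.sum_comp (en X) ξ, card_cast] at this
  exact this

lemma mn_tan (A : X → Matrix n n ℂ) {A' : X → Matrix n n ℂ} (h : ∀ x, (A' x).PosDef) :
    QL (mn A') (mnP A A') := mean_tan _ _ _ fun _ => h _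

lemma mn_dom (g : Matrix n n ℂ) {A A' E : X → Matrix n n ℂ} {q : X → ℝ}
    (hA : ∀ x, (A x).PosDef) (hA' : ∀ x, (A' x).PosDef)
    (h : ∀ x, Dom (g * A x - A' x * g) (q x • A' x) (E x)) :
    Dom (g * mn A - mn A' * g) (((∑ x, q x) / Fintype.card X) • mn A') (mnP A E) := by
  have := mean_dom g _ (fun j => A (en X j)) (fun j => A' (en X j)) (fun j => E (en X j))
    (fun j => q (en X j)) (fun _ => hA _) (fun _ => hA' _) fun _ => h _
  rw [Equiv.sum_comp (en X) q, card_cast] at this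
  exact this

lemma mn_geo {A : X → Matrix n n ℂ} (h : ∀ x, (A x).PosDef) {w : Vec n} (hw : w ≠ 0) :
    Real.log (qf w (mn A)) ≤ (∑ x, Real.log (qf w (A x))) / Fintype.card X := by
  have := mean_geo hw _ (fun j => A (en X j)) fun _ => h _
  rw [Equiv.sum_comp (en X) fun x => Real.log (qf w (A x)), card_cast] at this
  exact this

lemma mn_const {A : Matrix n n ℂ} (hA : A.PosDef) : mn (fun _ : X => A) = A := mean_const hA _

lemma mnP_self {A : X → Matrix n n ℂ} (h : ∀ x, (A x).PosDef) : mnP A A = mn A := by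
  have := mnP_norm h fun _ => 1
  simp only [one_smul, Finset.sum_const, Finset.card_univ, nsmul_eq_mul, mul_one] at this
  rwa [div_self (by exact_mod_cast Fintype.card_pos.ne'), one_smul] at this

lemma mn_mono {A A' : X → Matrix n n ℂ} (h : ∀ x, (A x).PosDef) (h' : ∀ x, (A' x).PosDef)
    (hle : ∀ x, QL (A x) (A' x)) : QL (mn A) (mn A') := by
  rw [← mnP_self h']; exact (mn_tan A' h).trans (mnP_mono _ hle)

lemma mn_le {A : X → Matrix n n ℂ} {B : Matrix n n ℂ} (h : ∀ x, (A x).PosDef) (hB : B.PosDef)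
    (hle : ∀ x, QL (A x) B) : QL (mn A) B := by
  rw [← mn_const (X := X) hB]; exact mn_mono h (fun _ => hB) hle

lemma le_mn {A : X → Matrix n n ℂ} {B : Matrix n n ℂ} (h : ∀ x, (A x).PosDef) (hB : B.PosDef)
    (hle : ∀ x, QL B (A x)) : QL B (mn A) := by
  rw [← mn_const (X := X) hB]; exact mn_mono (fun _ => hB) h hle

end fam

end Crest.Agent.N336.Eng.En
private theorem rz_d1c7c4448d : type_of% @_root_.Crest.Agent.N336.Eng.En.mP.eq_def := @_root_.Crest.Agent.N336.Eng.En.mP.eq_def -- L112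
private theorem rz_5f6089b3ed : type_of% @_root_.Crest.Agent.N336.Eng.En.mP.eq_1 := @_root_.Crest.Agent.N336.Eng.En.mP.eq_1 -- L112
private theorem rz_12d7b84467 : type_of% @_root_.Crest.Agent.N336.Eng.En.mean.eq_def := @_root_.Crest.Agent.N336.Eng.En.mean.eq_def -- L107
private theorem rz_db202964b8 : type_of% @_root_.Crest.Agent.N336.Eng.En.mean.eq_1 := @_root_.Crest.Agent.N336.Eng.En.mean.eq_1 -- L107
end

-- ▼ part N336/Eng/Tree
section

/-!
# Row 336, engine: means over random histories (helper88)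
-/

set_option autoImplicit false
set_option linter.unusedSectionVars false

open Matrix Finset
open scoped ComplexOrder MatrixOrder Matrix.Norms.L2Operator InnerProductSpace

namespace Crest.Agent.N336.Eng.En

open Crest.Agent.N336.Q

variable {n : Type} [Fintype n] [DecidableEq n] {Cf X : Type} [Fintype X] [Nonempty X]
  (mv : Cf → X → Cf)

/-- mean over histories of length `t` -/
noncomputable def Gt (N : Cf → Matrix n n ℂ) : ℕ → Cf → Matrix n n ℂ
  | 0, c => N c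
  | t + 1, c => mn fun x => Gt N t (mv c x)

/-- its tangent map -/
noncomputable def Pt (N : Cf → Matrix n n ℂ) : ℕ → Cf → (Cf → Matrix n n ℂ) →ₗ[ℝ] Matrix n n ℂ
  | 0, c => LinearMap.proj c
  | t + 1, c => (mnP fun x => Gt mv N t (mv c x)).comp (LinearMap.pi fun x => Pt N t (mv c x))

lemma Pt_succ (N E : Cf → Matrix n n ℂ) (t : ℕ) (c : Cf) : Pt mv N (t + 1) c E =
    mnP (fun x => Gt mv N t (mv c x)) fun x => Pt mv N t (mv c x) E := rfl

lemma avg_iter_succ (f : Cf → ℝ) (t : ℕ) (c : Cf) :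
    (avg mv)^[t + 1] f c = (∑ x, (avg mv)^[t] f (mv c x)) / Fintype.card X := by
  rw [Function.iterate_succ_apply']; rfl

variable {N N' E E' : Cf → Matrix n n ℂ}

lemma Gt_posDef (h : ∀ c, (N c).PosDef) : ∀ t c, (Gt mv N t c).PosDef
  | 0, c => h c
  | t + 1, _ => mn_posDef fun _ => Gt_posDef h t _

lemma Pt_mono (N : Cf → Matrix n n ℂ) (h : ∀ c, QL (E c) (E' c)) :
    ∀ t c, QL (Pt mv N t c E) (Pt mv N t c E')
  | 0, c => h c
  | t + 1, _ => by
    rw [Pt_succ, Pt_succ]; exact mnP_mono _ fun _ => Pt_mono N h t _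

lemma Pt_norm (h : ∀ c, (N c).PosDef) (ξ : Cf → ℝ) :
    ∀ t c, Pt mv N t c (fun c' => ξ c' • N c') = (avg mv)^[t] ξ c • Gt mv N t c
  | 0, _ => rfl
  | t + 1, c => by
    rw [Pt_succ, avg_iter_succ]
    simp only [Pt_norm h ξ t]
    exact mnP_norm (fun _ => Gt_posDef mv h t _) _

lemma Gt_tan (N : Cf → Matrix n n ℂ) (h : ∀ c, (N' c).PosDef) :
    ∀ t c, QL (Gt mv N' t c) (Pt mv N t c N')
  | 0, _ => QL.refl _
  | t + 1, _ => by
    rw [Pt_succ]
    exact (mn_tan _ fun _ => Gt_posDef mv h t _).trans (mnP_mono _ fun _ => Gt_tan N h t _)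

lemma Gt_dom (g : Matrix n n ℂ) {q : Cf → ℝ} (h : ∀ c, (N c).PosDef) (h' : ∀ c, (N' c).PosDef)
    (hd : ∀ c, Dom (g * N c - N' c * g) (q c • N' c) (E c)) :
    ∀ t c, Dom (g * Gt mv N t c - Gt mv N' t c * g) ((avg mv)^[t] q c • Gt mv N' t c)
      (Pt mv N t c E)
  | 0, c => hd c
  | t + 1, c => by
    rw [Pt_succ, avg_iter_succ]
    exact mn_dom g (fun _ => Gt_posDef mv h t _) (fun _ => Gt_posDef mv h' t _)
      fun _ => Gt_dom g h h' hd t _

lemma Gt_mono (h : ∀ c, (N c).PosDef) (h' : ∀ c, (N' c).PosDef) (hle : ∀ c, QL (N c) (N' c)) :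
    ∀ t c, QL (Gt mv N t c) (Gt mv N' t c)
  | 0, c => hle c
  | t + 1, _ => mn_mono (fun _ => Gt_posDef mv h t _) (fun _ => Gt_posDef mv h' t _)
      fun _ => Gt_mono h h' hle t _

lemma Gt_le {A : Cf → Matrix n n ℂ} (hA : ∀ c, (A c).PosDef) (h : ∀ c, (N c).PosDef)
    (hm : ∀ c x, QL (A (mv c x)) (A c)) (hle : ∀ c, QL (N c) (A c)) :
    ∀ t c, QL (Gt mv N t c) (A c)
  | 0, c => hle c
  | t + 1, c => mn_le (fun _ => Gt_posDef mv h t _) (hA c)
      fun x => (Gt_le hA h hm hle t _).trans (hm c x)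

lemma le_Gt {B : Matrix n n ℂ} (hB : B.PosDef) (h : ∀ c, (N c).PosDef) :
    ∀ t c, (∀ l : List X, l.length = t → QL B (N (l.foldl mv c))) → QL B (Gt mv N t c)
  | 0, _, hl => hl [] rfl
  | t + 1, c, hl => le_mn (fun _ => Gt_posDef mv h t _) hB fun x =>
      le_Gt hB h t _ fun l hl' => hl (x :: l) (by simp [hl'])

lemma Gt_shift (N : Cf → Matrix n n ℂ) :
    ∀ t c, Gt mv N (t + 1) c = Gt mv (fun c => mn fun x => N (mv c x)) t c
  | 0, _ => rfl
  | t + 1, c => by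
    change mn (fun x => Gt mv N (t + 1) (mv c x)) = _
    simp only [Gt_shift N t]; rfl

/-! ### the top mean over a random time offset -/

variable (c₀ : Cf) (T : ℕ)

/-- top mean -/
noncomputable def Tp (N : Cf → Matrix n n ℂ) (t : ℕ) : Matrix n n ℂ :=
  mn fun o : Fin (T + 1) => Gt mv N (o + t) c₀

/-- its tangent map -/
noncomputable def TP (N : Cf → Matrix n n ℂ) (t : ℕ) : (Cf → Matrix n n ℂ) →ₗ[ℝ] Matrix n n ℂ :=
  (mnP fun o : Fin (T + 1) => Gt mv N (o + t) c₀).comp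
    (LinearMap.pi fun o : Fin (T + 1) => Pt mv N (o + t) c₀)

lemma TP_apply (N E : Cf → Matrix n n ℂ) (t : ℕ) : TP mv c₀ T N t E =
    mnP (fun o : Fin (T + 1) => Gt mv N (o + t) c₀) fun o => Pt mv N (o + t) c₀ E := rfl

lemma ex_eq (t : ℕ) (f : Cf → ℝ) : ex mv c₀ (T + 1) t f =
    (∑ o : Fin (T + 1), (avg mv)^[o + t] f c₀) / Fintype.card (Fin (T + 1)) := by
  rw [ex, Fintype.card_fin, Finset.sum_range fun o => (avg mv)^[o + t] f c₀]

lemma Tp_posDef (h : ∀ c, (N c).PosDef) (t : ℕ) : (Tp mv c₀ T N t).PosDef :=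
  mn_posDef fun _ => Gt_posDef mv h _ _

lemma TP_mono (N : Cf → Matrix n n ℂ) (h : ∀ c, QL (E c) (E' c)) (t : ℕ) :
    QL (TP mv c₀ T N t E) (TP mv c₀ T N t E') := by
  rw [TP_apply, TP_apply]; exact mnP_mono _ fun _ => Pt_mono mv N h _ _

lemma TP_norm (h : ∀ c, (N c).PosDef) (ξ : Cf → ℝ) (t : ℕ) :
    TP mv c₀ T N t (fun c' => ξ c' • N c') = ex mv c₀ (T + 1) t ξ • Tp mv c₀ T N t := by
  rw [TP_apply, ex_eq]
  simp only [Pt_norm mv h ξ]
  exact mnP_norm (fun _ => Gt_posDef mv h _ _) _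

lemma Tp_tan (N : Cf → Matrix n n ℂ) (h : ∀ c, (N' c).PosDef) (t : ℕ) :
    QL (Tp mv c₀ T N' t) (TP mv c₀ T N t N') := by
  rw [TP_apply]
  exact (mn_tan _ fun _ => Gt_posDef mv h _ _).trans (mnP_mono _ fun _ => Gt_tan mv N h _ _)

lemma Tp_dom (g : Matrix n n ℂ) {q : Cf → ℝ} (h : ∀ c, (N c).PosDef) (h' : ∀ c, (N' c).PosDef)
    (hd : ∀ c, Dom (g * N c - N' c * g) (q c • N' c) (E c)) (t : ℕ) :
    Dom (g * Tp mv c₀ T N t - Tp mv c₀ T N' t * g) (ex mv c₀ (T + 1) t q • Tp mv c₀ T N' t)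
      (TP mv c₀ T N t E) := by
  rw [TP_apply, ex_eq]
  exact mn_dom g (fun _ => Gt_posDef mv h _ _) (fun _ => Gt_posDef mv h' _ _)
    fun _ => Gt_dom mv g h h' hd _ _

lemma Tp_mono (h : ∀ c, (N c).PosDef) (h' : ∀ c, (N' c).PosDef) (hle : ∀ c, QL (N c) (N' c))
    (t : ℕ) : QL (Tp mv c₀ T N t) (Tp mv c₀ T N' t) :=
  mn_mono (fun _ => Gt_posDef mv h _ _) (fun _ => Gt_posDef mv h' _ _)
    fun _ => Gt_mono mv h h' hle _ _

lemma Tp_le {A : Cf → Matrix n n ℂ} (hA : ∀ c, (A c).PosDef) (h : ∀ c, (N c).PosDef)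
    (hm : ∀ c x, QL (A (mv c x)) (A c)) (hle : ∀ c, QL (N c) (A c)) (t : ℕ) :
    QL (Tp mv c₀ T N t) (A c₀) :=
  mn_le (fun _ => Gt_posDef mv h _ _) (hA c₀) fun _ => Gt_le mv hA h hm hle _ _

lemma le_Tp {B : Matrix n n ℂ} (hB : B.PosDef) (h : ∀ c, (N c).PosDef) (t : ℕ)
    (hl : ∀ l : List X, l.length ≤ T + t → QL B (N (l.foldl mv c₀))) : QL B (Tp mv c₀ T N t) :=
  le_mn (fun _ => Gt_posDef mv h _ _) hB fun o => le_Gt mv hB h _ _ fun l hl' =>
    hl l (by have := o.2; omega)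

lemma Tp_shift (N : Cf → Matrix n n ℂ) (t : ℕ) :
    Tp mv c₀ T N (t + 1) = Tp mv c₀ T (fun c => mn fun x => N (mv c x)) t := by
  simp only [Tp, ← add_assoc, Gt_shift]

/-! ### linearity of the expectations -/

lemma avg_iter_lin (a b : ℝ) (f g : Cf → ℝ) : ∀ (t : ℕ) (c : Cf),
    (avg mv)^[t] (fun c => a * f c + b * g c) c = a * (avg mv)^[t] f c + b * (avg mv)^[t] g c
  | 0, _ => rfl
  | t + 1, c => by
    simp only [avg_iter_succ, avg_iter_lin a b f g t, Finset.sum_add_distrib, ← Finset.mul_sum]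
    ring

lemma ex_lin (T t : ℕ) (a b : ℝ) (f g : Cf → ℝ) :
    ex mv c₀ T t (fun c => a * f c + b * g c) = a * ex mv c₀ T t f + b * ex mv c₀ T t g := by
  simp only [ex, avg_iter_lin, Finset.sum_add_distrib, ← Finset.mul_sum]; ring

lemma ex_avg (T t : ℕ) (f : Cf → ℝ) : ex mv c₀ T t (avg mv f) = ex mv c₀ T (t + 1) f := by
  simp only [ex, ← add_assoc, Function.iterate_succ_apply]

lemma avg_iter_nonneg {f : Cf → ℝ} (h : ∀ c, 0 ≤ f c) : ∀ (t : ℕ) (c : Cf), 0 ≤ (avg mv)^[t] f c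
  | 0, c => h c
  | t + 1, c => by
    rw [avg_iter_succ]
    exact div_nonneg (Finset.sum_nonneg fun _ _ => avg_iter_nonneg h t _) (Nat.cast_nonneg _)

lemma ex_nonneg (T t : ℕ) {f : Cf → ℝ} (h : ∀ c, 0 ≤ f c) : 0 ≤ ex mv c₀ T t f :=
  div_nonneg (Finset.sum_nonneg fun _ _ => avg_iter_nonneg mv h _ _) (Nat.cast_nonneg _)

end Crest.Agent.N336.Eng.En
end

-- ▼ part N336/Eng/Root
section

/-!
# Row 336, engine: the root node `M ^ (1/2)` and the energy inequality (helper88)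
-/

set_option autoImplicit false
set_option linter.unusedSectionVars false

open Matrix Finset MeasureTheory
open scoped ComplexOrder MatrixOrder Matrix.Norms.L2Operator InnerProductSpace

namespace Crest.Agent.N336.Eng.En

open Crest.Agent.N336.Q

variable {n : Type} [Fintype n] [DecidableEq n]

/-- frame of the pair `(1, M)` -/
noncomputable def frM {M : Matrix n n ℂ} (hM : M.PosDef) : Fr n :=
  ⟨eU M, (eU M)ᴴ, ev M, ev_pos hM, eU_mul_star M, star_mul_eU M⟩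

variable {M M' : Matrix n n ℂ}

lemma frM_a (hM : M.PosDef) : (frM hM).a = 1 := by
  have : (frM hM).a = fc (fun _ => ((1 : ℝ) : ℂ)) M := rfl
  rw [this, Complex.ofReal_one, fc_one]

lemma frM_b (hM : M.PosDef) : (frM hM).b = M := fr_id hM.1

lemma frM_m (hM : M.PosDef) (τ : ℝ) : (frM hM).m τ = pw M τ := rfl

/-- tangent map of the square root -/
noncomputable def LR (hM : M.PosDef) : Matrix n n ℂ →ₗ[ℝ] Matrix n n ℂ :=
  (frM hM).L (frM hM) (KB (1 / 2))

lemma LR_self (hM : M.PosDef) : LR hM M = (1 / 2 : ℝ) • pw M (1 / 2) := by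
  have := (frM hM).LB_b half_mem
  rwa [frM_b, frM_m] at this

lemma LR_mono (hM : M.PosDef) {E E' : Matrix n n ℂ} (h : QL E E') : QL (LR hM E) (LR hM E') :=
  (frM hM).LB_mono half_mem h

lemma root_tan (hM : M.PosDef) (hM' : M'.PosDef) :
    QL (pw M' (1 / 2)) ((1 / 2 : ℝ) • pw M (1 / 2) + LR hM M') := by
  have h1 := (frM hM).tan (frM hM') half_mem
  have h2 := (frM hM).LA_a half_mem
  rw [frM_a, frM_m] at h2
  rw [frM_a, frM_b, frM_m, h2, show (1 - 1 / 2 : ℝ) = 1 / 2 by norm_num] at h1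
  exact h1

lemma root_mono (hM : M.PosDef) (hM' : M'.PosDef) (h : QL M' M) :
    QL (pw M' (1 / 2)) (pw M (1 / 2)) := by
  have := (root_tan hM hM').trans ((QL.refl _).add (LR_mono hM h))
  rwa [LR_self, ← add_smul, add_halves, one_smul] at this

lemma dom_zero_smul (g : Matrix n n ℂ) : Dom (g * 1 - 1 * g) ((0 : ℝ) • (1 : Matrix n n ℂ)) 0 := by
  rw [Matrix.mul_one, Matrix.one_mul, sub_self, zero_smul]; exact Dom.zero

lemma energy_minus (hM : M.PosDef) (hM' : M'.PosDef) {g E : Matrix n n ℂ} {q : ℝ} (hq : 0 ≤ q)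
    (hd : Dom (g * M - M' * g) (q • M') E) (Ω : Vec n) :
    ‖ap (pw M' (-1 / 4) * g * pw M (1 / 2)) Ω - ap (pw M' (1 / 4) * g) Ω‖ ^ 2 ≤
      q / 2 * qf Ω (LR hM E) := by
  have h1 := (frM hM).dom_node (frM hM') half_mem g (qa := 0) (qb := q) (Ea := 0) (Eb := E)
    (by rw [frM_a, frM_a]; exact dom_zero_smul g) (by rw [frM_b, frM_b]; exact hd)
  rw [frM_m, frM_m, map_zero, zero_add] at h1
  have h2 := h1.conj (pw M' (-1 / 4)) 1
  rw [conjTranspose_one, Matrix.mul_one, Matrix.mul_one, Matrix.one_mul, pw_herm, Matrix.mul_smul,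
    Matrix.smul_mul, pw_mul hM', pw_mul_neg hM' (by norm_num), Matrix.mul_sub,
    ← Matrix.mul_assoc, ← Matrix.mul_assoc, pw_mul hM'] at h2
  have h3 := h2.norm_sq_le (by linarith) Ω
  rw [ap_sub, show (-1 / 4 + 1 / 2 : ℝ) = 1 / 4 by norm_num,
    show ((1 - 1 / 2) * 0 + 1 / 2 * q : ℝ) = q / 2 by ring] at h3
  exact h3

/-- constant of the fourth root estimate -/
noncomputable def c14 : ℝ := cc (1 / 4) / cc (1 / 2)

lemma c14_pos : 0 < c14 := div_pos (cc_pos quart_mem) (cc_pos half_mem)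

lemma sch_smul (c : ℝ) (K : n → n → ℝ) (Y : Matrix n n ℂ) :
    sch (fun i j => c * K i j) Y = c • sch K Y := by
  ext i j; simp [sch_apply, mul_assoc]

lemma energy_zero (hM : M.PosDef) (hM' : M'.PosDef) {g E : Matrix n n ℂ} {q : ℝ} (hq : 0 ≤ q)
    (hd : Dom (g * M - M' * g) (q • M') E) (Ω : Vec n) :
    ‖ap g (ap (pw M (1 / 4)) Ω) - ap (pw M' (1 / 4) * g) Ω‖ ^ 2 ≤
      c14 ^ 2 * q * qf Ω (LR hM E) := by
  set F := frM hM with hF
  set F' := frM hM' with hF'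
  have h1 := F.inter F' quart_mem g
  rw [hF, hF', frM_a, frM_a, frM_b, frM_b, frM_m, frM_m, Matrix.mul_one, Matrix.one_mul, sub_self,
    map_zero, zero_add, ← hF, ← hF'] at h1
  have iab : ∀ i j, IntegrableOn (fun t => cc (1 / 4) * (pB (F'.x i) t * pQ (F.x j) t))
      (Set.Ioi 0) := fun i j => by
    simp only [BQ_eq]; exact int_B quart_mem (F'.hx i) (F.hx j)
  have ibb : ∀ i j, IntegrableOn (fun t => cc (1 / 4) * (pQ (F.x i) t * pQ (F.x j) t))
      (Set.Ioi 0) := fun i j =>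
    IntegrableOn.congr_fun ((int_B half_mem (F.hx i) (F.hx j)).const_mul c14)
      (fun t ht => (QQ_eq ht _ _).symm) measurableSet_Ioi
  have h2 := ((hd.conj F'.Si F.Si).sch (w := fun _ => cc (1 / 4)) (a := fun i => pB (F'.x i))
    (b := fun i => pQ (F.x i)) (fun _ _ => (cc_pos quart_mem).le) iab
    (fun i j => int_BB (F'.hx i) (F'.hx j)) ibb).conj F'.S F.S
  have e1 : (fun i j => ∫ t in Set.Ioi 0, cc (1 / 4) * (pB (F'.x i) t * pQ (F.x j) t)) =
      fun i j => KB (1 / 4) (F'.x i) (F.x j) := by simp only [BQ_eq, KB]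
  have e2 : (fun i j => ∫ t in Set.Ioi 0, cc (1 / 4) * (pQ (F.x i) t * pQ (F.x j) t)) =
      fun i j => c14 * KB (1 / 2) (F.x i) (F.x j) := by
    funext i j
    rw [KB, ← integral_const_mul]
    exact setIntegral_congr_fun measurableSet_Ioi fun t ht => QQ_eq ht _ _
  have e3 : F'.Si * (q • M') * F'.Siᴴ = dg fun i => q * F'.x i := by
    rw [← F'.Si_D, F'.D_smul]; congr 3; exact (frM_b hM').symm
  rw [e1, e2, e3, sch_smul, sch_diagonal, Matrix.mul_smul, Matrix.smul_mul, ← F.L_apply,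
    ← F.L_apply, ← h1] at h2
  have h3 : QL (F'.D fun i => (∫ t in Set.Ioi 0, cc (1 / 4) * (pB (F'.x i) t * pB (F'.x i) t)) *
      (q * F'.x i)) ((c14 * q) • (1 : Matrix n n ℂ)) := by
    rw [← frM_a hM', ← hF', Fr.a, ← F'.D_smul]
    refine F'.D_mono fun i => ?_
    have := mul_le_mul_of_nonneg_left (BB_diag (F'.hx i)) hq
    rw [c14]; linarith
  have h4 := (h2.mono h3 (QL.refl _)).norm_sq_le (mul_nonneg c14_pos.le hq) Ω
  rw [qf_smul, ap_sub, ap_mul] at h4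
  refine h4.trans (le_of_eq ?_)
  rw [LR, ← hF]; ring

lemma qf_root (hM : M.PosDef) (Ω : Vec n) :
    ‖ap (pw M (1 / 4)) Ω‖ ^ 2 = qf Ω (pw M (1 / 2)) := by
  rw [norm_ap_sq, pw_herm, pw_mul hM]; norm_num

/-- the energy inequality -/
theorem energy_le {V : Type} [Fintype V] (hM : M.PosDef) {g Mt E : V → Matrix n n ℂ} {q : V → ℝ}
    (hMt : ∀ v, (Mt v).PosDef) (hq : ∀ v, 0 ≤ q v)
    (hd : ∀ v, Dom (g v * M - Mt v * g v) (q v • Mt v) (E v)) {Ω : Vec n} {E₀ : ℝ}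
    (hΩ : ap (∑ v, (g v)ᴴ * g v) Ω = (E₀ : ℂ) • Ω) :
    ∑ v, ‖ap (g v) (ap (pw M (1 / 4)) Ω)‖ ^ 2 ≤
      4 * E₀ * qf Ω (pw M (1 / 2)) + (1 + 2 * c14 ^ 2) * ∑ v, q v * qf Ω (LR hM (E v)) := by
  have key : ∀ v, ‖ap (g v) (ap (pw M (1 / 4)) Ω)‖ ^ 2 ≤
      4 * (⟪ap (pw M (1 / 2)) Ω, ap ((g v)ᴴ * g v) Ω⟫_ℂ).re +
        (1 + 2 * c14 ^ 2) * (q v * qf Ω (LR hM (E v))) := by
    intro v
    have h1 := energy_minus hM (hMt v) (hq v) (hd v) Ω
    have h2 := energy_zero hM (hMt v) (hq v) (hd v) Ω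
    set am := ap (pw (Mt v) (-1 / 4) * g v * pw M (1 / 2)) Ω with ham
    set ap' := ap (pw (Mt v) (1 / 4) * g v) Ω with hap
    set a0 := ap (g v) (ap (pw M (1 / 4)) Ω)
    have h3 : ⟪am, ap'⟫_ℂ = ⟪ap (pw M (1 / 2)) Ω, ap ((g v)ᴴ * g v) Ω⟫_ℂ := by
      rw [ham, hap, ap_mul, inner_ap_left, ← ap_mul, conjTranspose_mul, pw_herm, Matrix.mul_assoc,
        ← Matrix.mul_assoc (pw _ _), pw_mul_neg (hMt v) (by norm_num), Matrix.one_mul]
    have h4 := norm_sub_sq (𝕜 := ℂ) am ap'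
    have h5 : ‖a0‖ ≤ ‖a0 - ap'‖ + ‖ap'‖ := by simpa using norm_add_le (a0 - ap') ap'
    have h6 : ‖ap'‖ ^ 2 ≤ 2 * (⟪am, ap'⟫_ℂ).re + ‖am - ap'‖ ^ 2 := by
      have : RCLike.re ⟪am, ap'⟫_ℂ = (⟪am, ap'⟫_ℂ).re := rfl
      nlinarith [sq_nonneg ‖am‖]
    have h7 : ‖a0‖ ^ 2 ≤ 2 * ‖a0 - ap'‖ ^ 2 + 2 * ‖ap'‖ ^ 2 := by
      have := pow_le_pow_left₀ (norm_nonneg _) h5 2
      nlinarith [sq_nonneg (‖a0 - ap'‖ - ‖ap'‖)]
    rw [← h3]; nlinarith
  refine (Finset.sum_le_sum fun v _ => key v).trans (le_of_eq ?_)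
  rw [Finset.sum_add_distrib, ← Finset.mul_sum, ← Finset.mul_sum, ← Complex.re_sum, ← inner_sum,
    ← ap_sum, hΩ, inner_smul_right, Complex.re_ofReal_mul, re_inner_comm, mul_assoc]

end Crest.Agent.N336.Eng.En
end

-- ▼ part N336/Eng/Gain
section

/-!
# Row 336, engine: the interpolating path and the gain pigeonhole (helper88)
-/

set_option autoImplicit false
set_option linter.unusedSectionVars false

open Matrix Finset
open scoped ComplexOrder MatrixOrder Matrix.Norms.L2Operator InnerProductSpace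

namespace Crest.Agent.N336.Eng.En

open Crest.Agent.N336.Q

lemma pigeon (a γ : ℕ → ℝ → ℝ) {T : ℕ} {τ Z Bud η : ℝ} (hT : 1 ≤ T) (hτ : 0 < τ) (hZ : 0 ≤ Z)
    (hη : 0 < η)
    (h1 : ∀ t < T, ∀ σ ε, τ ≤ σ → 0 < ε → σ + ε ≤ 2 * τ →
      a t (σ + ε) ≤ a t σ - ε * γ t σ + ε ^ 2 * Z)
    (h2 : ∀ t, a (t + 1) τ ≤ a t (2 * τ)) (h3 : a 0 τ - a (T - 1) (2 * τ) ≤ Bud) :
    ∃ t < T, ∃ σ, τ ≤ σ ∧ σ ≤ 2 * τ ∧ γ t σ ≤ Bud / (T * τ) + η := by
  by_contra hc
  push Not at hc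
  obtain ⟨I, hI⟩ := exists_nat_gt (2 * τ * Z / η)
  have hI0 : (0 : ℝ) < I := lt_of_le_of_lt (by positivity) hI
  set ε := τ / I with hε
  have hε0 : 0 < ε := div_pos hτ hI0
  have hεZ : ε * Z ≤ η / 2 := by
    rw [div_lt_iff₀ hη] at hI
    rw [hε, div_mul_eq_mul_div, div_le_div_iff₀ hI0 two_pos]; nlinarith
  set b := Bud / (T * τ) + η / 2 with hb
  have s1 : ∀ t < T, ∀ i : ℕ, i ≤ I → a t (τ + i * ε) ≤ a t τ - i * ε * b := by
    intro t ht i
    induction i with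
    | zero => intro _; simp
    | succ i ih =>
      intro hi
      have hi' : (i + 1 : ℝ) ≤ I := by exact_mod_cast hi
      have e1 : (i + 1 : ℝ) * ε ≤ τ := by
        rw [hε, mul_div_assoc', div_le_iff₀ hI0]; nlinarith
      have e0 : 0 ≤ (i : ℝ) * ε := by positivity
      have k1 := h1 t ht (τ + i * ε) ε (by linarith) hε0 (by linarith)
      have k2 := hc t ht (τ + i * ε) (by linarith) (by linarith)
      have k3 := ih (by omega)
      have k4 := mul_le_mul_of_nonneg_left k2.le hε0.le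
      have k5 := mul_le_mul_of_nonneg_left hεZ hε0.le
      push_cast
      rw [show τ + (i + 1 : ℝ) * ε = τ + i * ε + ε by ring]
      rw [hb] at k3 ⊢; nlinarith
  have s2 : ∀ t < T, a t (2 * τ) ≤ a t τ - τ * b := by
    intro t ht
    have := s1 t ht I le_rfl
    have e : (I : ℝ) * ε = τ := by rw [hε]; field_simp
    rwa [e, ← two_mul] at this
  have s3 : ∀ t < T, a t (2 * τ) ≤ a 0 τ - (t + 1) * (τ * b) := by
    intro t
    induction t with
    | zero => intro h; simpa using s2 0 h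
    | succ t ih =>
      intro ht
      have := ih (by omega); have := s2 _ ht; have := h2 t
      push_cast; linarith
  have s4 := s3 (T - 1) (by omega)
  have hT' : (0 : ℝ) < T := by exact_mod_cast hT
  have e : ((T - 1 : ℕ) : ℝ) + 1 = T := by exact_mod_cast Nat.sub_add_cancel hT
  have e2 : (T : ℝ) * (τ * b) = Bud + T * τ * (η / 2) := by rw [hb]; field_simp
  rw [e, e2] at s4
  have : 0 < T * τ * (η / 2) := by positivity
  linarith

lemma rpow_step {x σ ε : ℝ} (hx : 0 < x) (hx1 : x ≤ 1) (hε : 0 < ε) :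
    x ^ (σ + ε) ≤ x ^ σ + (-ε) * (x ^ σ * -Real.log x) + ε ^ 2 * Real.log x ^ 2 * x ^ σ := by
  have hl : ε * Real.log x ≤ 0 := mul_nonpos_of_nonneg_of_nonpos hε.le (Real.log_nonpos hx.le hx1)
  have h1 : Real.exp (ε * Real.log x) ≤ 1 + ε * Real.log x + (ε * Real.log x) ^ 2 := by
    set y := ε * Real.log x
    have h2 := Real.add_one_le_exp (-y)
    have h3 : Real.exp y * Real.exp (-y) = 1 := by rw [← Real.exp_add]; simp
    have h4 := Real.exp_pos y
    have h5 : Real.exp y * (1 - y) ≤ 1 := by nlinarith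
    have h6 : 1 ≤ (1 + y + y ^ 2) * (1 - y) := by nlinarith [mul_nonneg (sq_nonneg y) (neg_nonneg.2 hl)]
    by_contra hc
    have := mul_lt_mul_of_pos_right (not_le.1 hc) (show 0 < 1 - y by linarith)
    linarith
  rw [Real.rpow_add hx, Real.rpow_def_of_pos hx ε, mul_comm (Real.log x) ε]
  have := mul_le_mul_of_nonneg_left h1 (Real.rpow_pos_of_pos hx σ).le
  nlinarith

variable {n : Type} [Fintype n] [DecidableEq n] {Cf X : Type} [Fintype X] [Nonempty X]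
  (mv : Cf → X → Cf) (A : Cf → Matrix n n ℂ)

/-- mean of the children -/
noncomputable def ch (c : Cf) : Matrix n n ℂ := mn fun x => A (mv c x)

/-- frame of a node -/
noncomputable def nf (c : Cf) : Fr n := fr0 (A c) (ch mv A c)

/-- node `A c #_σ mean of the children` -/
noncomputable def nd (σ : ℝ) (c : Cf) : Matrix n n ℂ := (nf mv A c).m σ

/-- gain operator of a node -/
noncomputable def gn (σ : ℝ) (c : Cf) : Matrix n n ℂ :=
  (nf mv A c).D fun i => (nf mv A c).x i ^ σ * -Real.log ((nf mv A c).x i)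

lemma nd_posDef (σ : ℝ) (c : Cf) : (nd mv A σ c).PosDef := Fr.m_posDef _ _

variable {mv A}

lemma ch_posDef (hA : ∀ c, (A c).PosDef) (c : Cf) : (ch mv A c).PosDef := mn_posDef fun _ => hA _

lemma nf_a (hA : ∀ c, (A c).PosDef) (c : Cf) : (nf mv A c).a = A c :=
  fr0_a (hA c) (ch_posDef hA c)

lemma nf_b (hA : ∀ c, (A c).PosDef) (c : Cf) : (nf mv A c).b = ch mv A c :=
  fr0_b (hA c) (ch_posDef hA c)

lemma ch_le (hA : ∀ c, (A c).PosDef) (hm : ∀ c x, QL (A (mv c x)) (A c)) (c : Cf) :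
    QL (ch mv A c) (A c) := mn_le (fun _ => hA _) (hA c) (hm c)

lemma nf_x_le (hA : ∀ c, (A c).PosDef) (hm : ∀ c x, QL (A (mv c x)) (A c)) (c : Cf) (i : n) :
    (nf mv A c).x i ≤ 1 :=
  Fr.x_le_one _ (by rw [nf_a hA, nf_b hA]; exact ch_le hA hm c) i

lemma nd_le (hA : ∀ c, (A c).PosDef) (hm : ∀ c x, QL (A (mv c x)) (A c)) {σ : ℝ} (hσ : 0 ≤ σ)
    (c : Cf) : QL (nd mv A σ c) (A c) := by
  rw [← nf_a (mv := mv) hA c]
  exact Fr.D_mono _ fun i => Real.rpow_le_one ((nf mv A c).hx i).le (nf_x_le hA hm c i) hσ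

lemma le_nd (hA : ∀ c, (A c).PosDef) (hm : ∀ c x, QL (A (mv c x)) (A c)) {σ : ℝ} (hσ : σ ≤ 1)
    (c : Cf) : QL (ch mv A c) (nd mv A σ c) := by
  rw [← nf_b (mv := mv) hA c]
  refine Fr.D_mono _ fun i => ?_
  have := Real.rpow_le_rpow_of_exponent_ge ((nf mv A c).hx i) (nf_x_le hA hm c i) hσ
  rwa [Real.rpow_one] at this

lemma gn_nonneg (hA : ∀ c, (A c).PosDef) (hm : ∀ c x, QL (A (mv c x)) (A c)) (σ : ℝ) (c : Cf) :
    QL 0 (gn mv A σ c) := fun v => by
  rw [qf_zero, gn, Fr.qf_D]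
  refine Finset.sum_nonneg fun i _ => mul_nonneg (mul_nonneg ?_ ?_) (sq_nonneg _)
  · exact (Real.rpow_pos_of_pos ((nf mv A c).hx i) σ).le
  · exact neg_nonneg.2 (Real.log_nonpos ((nf mv A c).hx i).le (nf_x_le hA hm c i))

/-- second order remainder -/
noncomputable def rm (mv : Cf → X → Cf) (A : Cf → Matrix n n ℂ) (c : Cf) : ℝ :=
  ∑ i, Real.log ((nf mv A c).x i) ^ 2

lemma nd_step (hA : ∀ c, (A c).PosDef) (hm : ∀ c x, QL (A (mv c x)) (A c)) (σ : ℝ) {ε : ℝ}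
    (hε : 0 < ε) (c : Cf) :
    QL (nd mv A (σ + ε) c) ((1 + ε ^ 2 * rm mv A c) • nd mv A σ c + (-ε) • gn mv A σ c) := by
  rw [nd, nd, gn, Fr.m, Fr.m, ← Fr.D_smul, ← Fr.D_smul, ← Fr.D_add]
  refine Fr.D_mono _ fun i => (rpow_step ((nf mv A c).hx i) (nf_x_le hA hm c i) hε).trans ?_
  have h1 : Real.log ((nf mv A c).x i) ^ 2 ≤ rm mv A c :=
    Finset.single_le_sum (f := fun i => Real.log ((nf mv A c).x i) ^ 2) (fun _ _ => sq_nonneg _)
      (Finset.mem_univ i)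
  have h2 := mul_le_mul_of_nonneg_right (mul_le_mul_of_nonneg_left h1 (sq_nonneg ε))
    (Real.rpow_pos_of_pos ((nf mv A c).hx i) σ).le
  linarith

variable (mv A) (c₀ : Cf) (T : ℕ) (Ω : Vec n)

/-- the metric at time `(t, σ)` -/
noncomputable def MM (t : ℕ) (σ : ℝ) : Matrix n n ℂ := Tp mv c₀ T (nd mv A σ) t

lemma MM_posDef (t : ℕ) (σ : ℝ) : (MM mv A c₀ T t σ).PosDef :=
  Tp_posDef mv c₀ T (nd_posDef mv A σ) t

/-- squared norm of the tilted vector -/
noncomputable def ff (t : ℕ) (σ : ℝ) : ℝ := qf Ω (pw (MM mv A c₀ T t σ) (1 / 2))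

/-- the transported functional -/
noncomputable def ll (t : ℕ) (σ : ℝ) (E : Cf → Matrix n n ℂ) : ℝ :=
  qf Ω (LR (MM_posDef mv A c₀ T t σ) (TP mv c₀ T (nd mv A σ) t E))

lemma ll_add (t : ℕ) (σ : ℝ) (E E' : Cf → Matrix n n ℂ) :
    ll mv A c₀ T Ω t σ (fun c => E c + E' c) = ll mv A c₀ T Ω t σ E + ll mv A c₀ T Ω t σ E' := by
  rw [ll, ll, ll, ← qf_add, ← map_add, ← map_add]; rfl

lemma ll_smul (t : ℕ) (σ a : ℝ) (E : Cf → Matrix n n ℂ) :
    ll mv A c₀ T Ω t σ (fun c => a • E c) = a * ll mv A c₀ T Ω t σ E := by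
  rw [ll, ll, ← qf_smul, ← map_smul, ← map_smul]; rfl

lemma ll_sum {κ : Type*} (t : ℕ) (σ : ℝ) (s : Finset κ) (E : κ → Cf → Matrix n n ℂ) :
    ll mv A c₀ T Ω t σ (fun c => ∑ k ∈ s, E k c) = ∑ k ∈ s, ll mv A c₀ T Ω t σ (E k) := by
  simp only [ll]
  rw [← qf_sum, ← map_sum, ← map_sum]
  congr 3
  funext c; simp only [Finset.sum_apply]

lemma ll_mono (t : ℕ) (σ : ℝ) {E E' : Cf → Matrix n n ℂ} (h : ∀ c, QL (E c) (E' c)) :
    ll mv A c₀ T Ω t σ E ≤ ll mv A c₀ T Ω t σ E' := LR_mono _ (TP_mono mv c₀ T _ h t) Ω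

lemma ll_norm (t : ℕ) (σ : ℝ) (ξ : Cf → ℝ) :
    ll mv A c₀ T Ω t σ (fun c => ξ c • nd mv A σ c) =
      ex mv c₀ (T + 1) t ξ * (ff mv A c₀ T Ω t σ / 2) := by
  rw [ll, TP_norm mv c₀ T (nd_posDef mv A σ), map_smul, qf_smul]
  change _ * qf Ω (LR _ (MM mv A c₀ T t σ)) = _
  rw [LR_self, qf_smul, ff]; ring

lemma ll_nonneg (t : ℕ) (σ : ℝ) {E : Cf → Matrix n n ℂ} (h : ∀ c, QL 0 (E c)) :
    0 ≤ ll mv A c₀ T Ω t σ E := by
  have h1 := ll_mono mv A c₀ T Ω t σ (E := fun c => (0 : ℝ) • E c) (E' := E)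
    (fun c => by rw [zero_smul]; exact h c)
  rwa [ll_smul, zero_mul] at h1

lemma ex_one (t : ℕ) : ex mv c₀ (T + 1) t (fun _ => 1) = 1 := by
  have h : ∀ t c, (avg mv)^[t] (fun _ => (1 : ℝ)) c = 1 := by
    intro t
    induction t with
    | zero => intro c; rfl
    | succ t ih =>
      intro c
      simp only [avg_iter_succ, ih, Finset.sum_const, Finset.card_univ, nsmul_eq_mul, mul_one]
      exact div_self (by exact_mod_cast Fintype.card_pos.ne')
  simp only [ex, h, Finset.sum_const, Finset.card_range, nsmul_eq_mul, mul_one]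
  exact div_self (by positivity)

variable {mv A}

lemma ff_step (hA : ∀ c, (A c).PosDef) (hm : ∀ c x, QL (A (mv c x)) (A c)) (t : ℕ) (σ : ℝ)
    {ε : ℝ} (hε : 0 < ε) :
    ff mv A c₀ T Ω t (σ + ε) ≤ ff mv A c₀ T Ω t σ - ε * ll mv A c₀ T Ω t σ (gn mv A σ) +
      ε ^ 2 * ex mv c₀ (T + 1) t (rm mv A) * (ff mv A c₀ T Ω t σ / 2) := by
  have h1 := root_tan (MM_posDef mv A c₀ T t σ) (MM_posDef mv A c₀ T t (σ + ε)) Ω
  have h2 := LR_mono (MM_posDef mv A c₀ T t σ)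
    (Tp_tan mv c₀ T (nd mv A σ) (nd_posDef mv A (σ + ε)) t) Ω
  have h3 := ll_mono mv A c₀ T Ω t σ (nd_step hA hm σ hε)
  rw [ll_add, ll_smul, ll_norm] at h3
  have h4 := ex_lin mv c₀ (T + 1) t 1 (ε ^ 2) (fun _ => 1) (rm mv A)
  simp only [mul_one, ex_one] at h4
  rw [h4] at h3
  rw [qf_add, qf_smul] at h1
  change ff mv A c₀ T Ω t (σ + ε) ≤ 1 / 2 * ff mv A c₀ T Ω t σ + _ at h1
  change _ ≤ ll mv A c₀ T Ω t σ (nd mv A (σ + ε)) at h2
  change qf Ω (LR _ (MM mv A c₀ T t (σ + ε))) ≤ _ at h2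
  linarith

lemma ff_chain (hA : ∀ c, (A c).PosDef) (hm : ∀ c x, QL (A (mv c x)) (A c)) (t : ℕ) {σ σ' : ℝ}
    (hσ : 0 ≤ σ) (hσ' : σ' ≤ 1) : ff mv A c₀ T Ω (t + 1) σ ≤ ff mv A c₀ T Ω t σ' := by
  refine root_mono (MM_posDef mv A c₀ T t σ') (MM_posDef mv A c₀ T (t + 1) σ) ?_ Ω
  rw [MM, MM, Tp_shift]
  refine Tp_mono mv c₀ T (fun _ => mn_posDef fun _ => nd_posDef mv A σ _) (nd_posDef mv A σ')
    (fun c => ?_) t
  exact (mn_mono (fun _ => nd_posDef mv A σ _) (fun _ => hA _) fun _ => nd_le hA hm hσ _).trans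
    (le_nd hA hm hσ' c)

lemma MM_le (hA : ∀ c, (A c).PosDef) (hm : ∀ c x, QL (A (mv c x)) (A c)) (t : ℕ) {σ : ℝ}
    (hσ : 0 ≤ σ) : QL (MM mv A c₀ T t σ) (A c₀) :=
  Tp_le mv c₀ T hA (nd_posDef mv A σ) hm (nd_le hA hm hσ) t

lemma le_MM (hA : ∀ c, (A c).PosDef) (hm : ∀ c x, QL (A (mv c x)) (A c)) {B : Matrix n n ℂ}
    (hB : B.PosDef) (t : ℕ) {σ : ℝ} (hσ : σ ≤ 1)
    (hl : ∀ l : List X, l.length ≤ T + t + 1 → QL B (A (l.foldl mv c₀))) :
    QL B (MM mv A c₀ T t σ) := by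
  refine le_Tp mv c₀ T hB (nd_posDef mv A σ) t fun l hl' => QL.trans ?_ (le_nd hA hm hσ _)
  refine le_mn (fun _ => hA _) hB fun x => ?_
  have := hl (l ++ [x]) (by simpa using hl')
  rwa [List.foldl_append] at this

end Crest.Agent.N336.Eng.En
end

-- ▼ part N336/Eng/Main
section

/-!
# Row 336, engine: `eng : EngStmt` (helper88)
-/

set_option autoImplicit false
set_option linter.unusedSectionVars false

open Matrix Finset
open scoped ComplexOrder MatrixOrder Matrix.Norms.L2Operator InnerProductSpace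

namespace Crest.Agent.N336.Eng.En

open Crest.Agent.N336.Q

variable {n : Type} [Fintype n] [DecidableEq n] {Cf X : Type} [Fintype X] [Nonempty X]
  {mv : Cf → X → Cf} {A : Cf → Matrix n n ℂ} (c₀ : Cf) (T : ℕ) (Ω : Vec n)

lemma ff_pos (hΩ : Ω ≠ 0) (t : ℕ) (σ : ℝ) : 0 < ff mv A c₀ T Ω t σ :=
  qf_pos (pw_posDef (MM_posDef mv A c₀ T t σ) _) hΩ

/-- the gain pigeonhole -/
lemma exists_time (hA : ∀ c, (A c).PosDef) (hm : ∀ c x, QL (A (mv c x)) (A c))
    {Alo : Matrix n n ℂ} (hlo : Alo.PosDef) {S : ℕ} {τ Bud η : ℝ} (hΩ : Ω ≠ 0)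
    (hl : ∀ l : List X, l.length ≤ T + 1 + S → QL Alo (A (l.foldl mv c₀)))
    (hS : 1 ≤ S) (hτ : 0 < τ) (hτ' : τ ≤ 1 / 4) (hη : 0 < η)
    (hB : Real.log (qf Ω (pw (A c₀) (1 / 2))) - Real.log (qf Ω (pw Alo (1 / 2))) ≤ Bud) :
    ∃ t < S, ∃ σ, τ ≤ σ ∧ σ ≤ 2 * τ ∧
      ll mv A c₀ T Ω t σ (gn mv A σ) ≤ (Bud / (S * τ) + η) * ff mv A c₀ T Ω t σ := by
  have hr : ∀ t, 0 ≤ ex mv c₀ (T + 1) t (rm mv A) := fun t =>
    ex_nonneg mv c₀ _ t fun c => Finset.sum_nonneg fun _ _ => sq_nonneg _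
  have hf := ff_pos (mv := mv) (A := A) c₀ T Ω hΩ
  obtain ⟨t, ht, σ, h1, h2, h3⟩ := pigeon (fun t σ => Real.log (ff mv A c₀ T Ω t σ))
    (fun t σ => ll mv A c₀ T Ω t σ (gn mv A σ) / ff mv A c₀ T Ω t σ) (T := S) (τ := τ)
    (Z := ∑ t ∈ range S, ex mv c₀ (T + 1) t (rm mv A)) (Bud := Bud) (η := η) hS hτ
    (Finset.sum_nonneg fun t _ => hr t) hη
    (fun t ht σ ε _ hε _ => by
      have k1 := ff_step c₀ T Ω hA hm t σ hε
      have k2 := Real.log_le_sub_one_of_pos (div_pos (hf t (σ + ε)) (hf t σ))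
      rw [Real.log_div (hf t _).ne' (hf t _).ne'] at k2
      have k3 : ex mv c₀ (T + 1) t (rm mv A) ≤ ∑ t ∈ range S, ex mv c₀ (T + 1) t (rm mv A) :=
        Finset.single_le_sum (f := fun t => ex mv c₀ (T + 1) t (rm mv A)) (fun t _ => hr t)
          (Finset.mem_range.2 ht)
      have k4 : ff mv A c₀ T Ω t (σ + ε) / ff mv A c₀ T Ω t σ ≤
          1 - ε * (ll mv A c₀ T Ω t σ (gn mv A σ) / ff mv A c₀ T Ω t σ) +
            ε ^ 2 * ex mv c₀ (T + 1) t (rm mv A) / 2 := by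
        rw [div_le_iff₀ (hf t σ)]
        refine k1.trans (le_of_eq ?_)
        have := (hf t σ).ne'
        field_simp
      have k5 := mul_le_mul_of_nonneg_left k3 (sq_nonneg ε)
      have k6 := mul_nonneg (sq_nonneg ε) (hr t)
      linarith)
    (fun t => Real.log_le_log (hf _ _) (ff_chain c₀ T Ω hA hm t hτ.le (by linarith)))
    (by
      have k1 : ff mv A c₀ T Ω 0 τ ≤ qf Ω (pw (A c₀) (1 / 2)) :=
        root_mono (hA c₀) (MM_posDef mv A c₀ T 0 τ) (MM_le c₀ T hA hm 0 hτ.le) Ω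
      have k2 : qf Ω (pw Alo (1 / 2)) ≤ ff mv A c₀ T Ω (S - 1) (2 * τ) :=
        root_mono (MM_posDef mv A c₀ T _ _) hlo
          (le_MM c₀ T hA hm hlo _ (by linarith) fun l h => hl l (by omega)) Ω
      have k3 := Real.log_le_log (hf _ _) k1
      have k4 := Real.log_le_log (qf_pos (pw_posDef hlo _) hΩ) k2
      linarith)
  exact ⟨t, ht, σ, h1, h2, (div_le_iff₀ (hf t σ)).1 h3⟩

variable (mv A)

/-- left defect of a node -/
noncomputable def EA (σ : ℝ) (E : Cf → Matrix n n ℂ) (c : Cf) : Matrix n n ℂ :=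
  (nf mv A c).L (nf mv A c) (KA σ) (E c)

/-- right defect of a node -/
noncomputable def EB (σ : ℝ) (E : Cf → Matrix n n ℂ) (c : Cf) : Matrix n n ℂ :=
  (nf mv A c).L (nf mv A c) (KB σ) (mnP (fun x => A (mv c x)) fun x => E (mv c x))

variable {mv A} {σ : ℝ}

lemma MM_dom (hσ : σ ∈ Set.Ioo (0 : ℝ) 1) {A' E : Cf → Matrix n n ℂ} {q : Cf → ℝ}
    (g : Matrix n n ℂ) (hA : ∀ c, (A c).PosDef) (hA' : ∀ c, (A' c).PosDef)
    (hd : ∀ c, Dom (g * A c - A' c * g) (q c • A' c) (E c)) (t : ℕ) :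
    Dom (g * MM mv A c₀ T t σ - MM mv A' c₀ T t σ * g)
      (((1 - σ) * ex mv c₀ (T + 1) t q + σ * ex mv c₀ (T + 1) (t + 1) q) • MM mv A' c₀ T t σ)
      (TP mv c₀ T (nd mv A σ) t fun c => EA mv A σ E c + EB mv A σ E c) := by
  rw [← ex_avg, ← ex_lin]
  refine Tp_dom mv c₀ T g (nd_posDef mv A σ) (nd_posDef mv A' σ) (fun c => ?_) t
  refine (nf mv A c).dom_node (nf mv A' c) hσ g ?_ ?_
  · rw [nf_a hA, nf_a hA']; exact hd c
  · rw [nf_b hA, nf_b hA']
    exact mn_dom g (fun _ => hA _) (fun _ => hA' _) fun x => hd (mv c x)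

lemma EA_nonneg (hσ : σ ∈ Set.Ioo (0 : ℝ) 1) {E : Cf → Matrix n n ℂ} (h : ∀ c, QL 0 (E c))
    (c : Cf) : QL 0 (EA mv A σ E c) := by
  have := (nf mv A c).LA_mono hσ (h c)
  rwa [map_zero] at this

lemma EB_nonneg (hσ : σ ∈ Set.Ioo (0 : ℝ) 1) {E : Cf → Matrix n n ℂ} (h : ∀ c, QL 0 (E c))
    (c : Cf) : QL 0 (EB mv A σ E c) := by
  have h1 := mnP_mono (fun x => A (mv c x)) (E := 0) fun x => h (mv c x)
  have := (nf mv A c).LB_mono hσ h1
  rwa [map_zero, map_zero] at this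

lemma ll_EA (hσ : σ ∈ Set.Ioo (0 : ℝ) 1) (hA : ∀ c, (A c).PosDef) {E : Cf → Matrix n n ℂ}
    {r : Cf → ℝ} (h : ∀ c, QL (E c) (r c • A c)) (t : ℕ) :
    ll mv A c₀ T Ω t σ (EA mv A σ E) ≤
      (1 - σ) * ex mv c₀ (T + 1) t r * (ff mv A c₀ T Ω t σ / 2) := by
  rw [mul_assoc, ← ll_norm, ← ll_smul]
  refine ll_mono mv A c₀ T Ω t σ fun c => ?_
  have h1 := (nf mv A c).LA_mono hσ (h c)
  have h2 := (nf mv A c).LA_a hσ
  rw [nf_a hA] at h2
  rwa [map_smul, h2, smul_comm] at h1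

lemma ll_EB (hσ : σ ∈ Set.Ioo (0 : ℝ) 1) (hA : ∀ c, (A c).PosDef) {E : Cf → Matrix n n ℂ}
    {r : Cf → ℝ} (h : ∀ c, QL (E c) (r c • A c)) (t : ℕ) :
    ll mv A c₀ T Ω t σ (EB mv A σ E) ≤
      σ * ex mv c₀ (T + 1) (t + 1) r * (ff mv A c₀ T Ω t σ / 2) := by
  rw [mul_assoc, ← ex_avg, ← ll_norm, ← ll_smul]
  refine ll_mono mv A c₀ T Ω t σ fun c => ?_
  have h0 := mnP_mono (fun x => A (mv c x)) fun x => h (mv c x)
  rw [mnP_norm (fun x => hA (mv c x)) fun x => r (mv c x)] at h0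
  have h1 := (nf mv A c).LB_mono hσ h0
  have h2 := (nf mv A c).LB_b hσ
  rw [nf_b hA, ch] at h2
  rwa [map_smul, h2, smul_comm] at h1

lemma ll_gain (hσ : σ ∈ Set.Ioo (0 : ℝ) 1) (hA : ∀ c, (A c).PosDef) {κ : Type*} (s : Finset κ)
    {E : κ → Cf → Matrix n n ℂ} {ξ : Cf → ℝ} {β : ℝ}
    (h : ∀ c, QL (∑ k ∈ s, E k c) (pw (A c) (1 / 2) *
      (ξ c • (1 : Matrix n n ℂ) - β • lg (rel (A c) (ch mv A c))) * pw (A c) (1 / 2))) (t : ℕ) :
    ∑ k ∈ s, ll mv A c₀ T Ω t σ (EA mv A σ (E k)) ≤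
      (1 - σ) * (ex mv c₀ (T + 1) t ξ * (ff mv A c₀ T Ω t σ / 2) +
        β * ll mv A c₀ T Ω t σ (gn mv A σ)) := by
  rw [← ll_sum, ← ll_norm, ← ll_smul, ← ll_add, ← ll_smul]
  refine ll_mono mv A c₀ T Ω t σ fun c => ?_
  have h1 := (nf mv A c).LA_mono hσ (h c)
  have e1 := fr0_D (hA c) (ch_posDef (mv := mv) hA c) Real.log
  have e2 : pw (A c) (1 / 2) * (ξ c • (1 : Matrix n n ℂ) - β • lg (rel (A c) (ch mv A c))) *
      pw (A c) (1 / 2) = (nf mv A c).D fun i => ξ c * 1 + β * -Real.log ((nf mv A c).x i) := by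
    rw [Fr.D_add, Fr.D_smul, Matrix.mul_sub, Matrix.sub_mul, Matrix.mul_smul, Matrix.smul_mul,
      Matrix.mul_smul, Matrix.smul_mul, Matrix.mul_one, pw_mul (hA c), add_halves, pw_one (hA c).1,
      ← e1, sub_eq_add_neg, ← neg_smul, ← Fr.D_smul]
    congr 1
    · congr 1; exact (nf_a (mv := mv) hA c).symm
    · congr 1; funext i; simp only [nf]; ring
  rw [e2, Fr.LA_D _ hσ, map_sum] at h1
  have e3 : ((nf mv A c).D fun i => (nf mv A c).x i ^ σ *
      (ξ c * 1 + β * -Real.log ((nf mv A c).x i))) = ξ c • nd mv A σ c + β • gn mv A σ c := by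
    rw [nd, gn, Fr.m, ← Fr.D_smul, ← Fr.D_smul, ← Fr.D_add]
    congr 1; funext i; ring
  rwa [e3] at h1

lemma conj_half {A B B' : Matrix n n ℂ} (h : B ≤ B') :
    QL (pw A (1 / 2) * B * pw A (1 / 2)) (pw A (1 / 2) * B' * pw A (1 / 2)) := by
  have := (QL.of_le h).conj (pw A (1 / 2))
  rwa [pw_herm] at this

open Classical in
theorem eng : EngStmt := by
  refine ⟨1 + 2 * c14 ^ 2, by positivity, ?_⟩
  intro n _ _ Cf X V _ _ _ mv c₀ A g At B cr act ξ p Ω Alo E₀ β βc ξb pb τ Bud ζ T₀ S hA hm hlo hl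
    hΩ hH hnc hcr hG hT₀ hS hτ hτ' hβ hβc hξb hpb hζ hp hpa hξ hBud
  obtain ⟨T, rfl⟩ : ∃ T, T₀ = T + 1 := ⟨T₀ - 1, by omega⟩
  set C : ℝ := 1 + 2 * c14 ^ 2 with hC
  have hC0 : 0 < C := by positivity
  have hΩ0 : Ω ≠ 0 := by rintro rfl; simp at hΩ
  have hm' : ∀ c x, QL (A (mv c x)) (A c) := fun c x => QL.of_le (hm c x)
  have hη : 0 < ζ / (C * pb * β + 1) := by positivity
  obtain ⟨t, ht, σ, hσ1, hσ2, hγ⟩ := exists_time c₀ T Ω hA hm' hlo hΩ0
    (fun l h => QL.of_le (hl l h)) hS hτ hτ' hη hBud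
  have hσ : σ ∈ Set.Ioo (0 : ℝ) 1 := ⟨by linarith, by linarith⟩
  have hM := MM_posDef mv A c₀ T t σ
  refine ⟨MM mv A c₀ T t σ, hM, ?_, ?_, ?_⟩
  · exact (le_MM c₀ T hA hm' hlo t hσ.2.le fun l h => QL.of_le (hl l (by omega))).le hlo.1 hM.1
  · exact (MM_le c₀ T hA hm' t hσ.1.le).le hM.1 (hA c₀).1
  set A' : V → Cf → Matrix n n ℂ := fun v c => if cr c v then At c v else A c with hA'
  set E : V → Cf → Matrix n n ℂ :=
    fun v c => if cr c v then pw (A c) (1 / 2) * B c v * pw (A c) (1 / 2) else 0 with hE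
  set q : V → Cf → ℝ := fun v c => if cr c v then 1 else 0 with hq
  have hA'p : ∀ v c, (A' v c).PosDef := fun v c => by
    by_cases h : cr c v
    · simp only [hA', if_pos h]; exact (hcr c v h).1
    · simp only [hA', if_neg h]; exact hA c
  have hd : ∀ v c, Dom (g v * A c - A' v c * g v) (q v c • A' v c) (E v c) := fun v c => by
    by_cases h : cr c v
    · simp only [hA', hE, hq, if_pos h, one_smul]
      exact dom_of_le (hcr c v h).1 (QL.of_le (hcr c v h).2.2.2)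
    · simp only [hA', hE, hq, if_neg h, zero_smul, hnc c v h, sub_self]; exact Dom.zero
  have hE0 : ∀ v c, QL 0 (E v c) := fun v c => (hd v c).right
  have hE1 : ∀ v c, QL (E v c) ((βc * q v c) • A c) := fun v c => by
    by_cases h : cr c v
    · simp only [hE, hq, if_pos h, mul_one]
      have := conj_half (A := A c) (hcr c v h).2.2.1
      rwa [Matrix.mul_smul, Matrix.smul_mul, Matrix.mul_one, pw_mul (hA c), add_halves,
        pw_one (hA c).1] at this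
    · simp only [hE, hq, if_neg h, mul_zero, zero_smul]; exact QL.refl _
  have hq0 : ∀ v s, 0 ≤ ex mv c₀ (T + 1) s (q v) := fun v s =>
    ex_nonneg mv c₀ _ s fun c => by simp only [hq]; split_ifs <;> norm_num
  have hq1 : ∀ v, ex mv c₀ (T + 1) t (q v) ≤ p v := fun v => hp v t ht.le
  have hq2 : ∀ v, ex mv c₀ (T + 1) (t + 1) (q v) ≤ p v := fun v => hp v (t + 1) ht
  have hp0 : ∀ v, 0 ≤ p v := fun v => (hq0 v t).trans (hq1 v)
  have hexs : ∀ v s, ex mv c₀ (T + 1) s (fun c => βc * q v c) = βc * ex mv c₀ (T + 1) s (q v) := by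
    intro v s
    have := ex_lin mv c₀ (T + 1) s βc 0 (q v) (q v)
    simpa using this
  have h1 := energy_le hM (g := g) (Mt := fun v => MM mv (A' v) c₀ T t σ)
    (fun v => MM_posDef mv _ c₀ T t σ)
    (fun v => add_nonneg (mul_nonneg (by linarith [hσ.2]) (hq0 v t)) (mul_nonneg hσ.1.le (hq0 v _)))
    (fun v => MM_dom c₀ T hσ (g v) hA (hA'p v) (hd v) t) hH
  rw [qf_root hM]
  change _ ≤ 4 * E₀ * ff mv A c₀ T Ω t σ + C * ∑ v, _ * ll mv A c₀ T Ω t σ _ at h1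
  change _ ≤ _ * ff mv A c₀ T Ω t σ
  simp only [ll_add] at h1
  have hf := ff_pos (mv := mv) (A := A) c₀ T Ω hΩ0 t σ
  set f := ff mv A c₀ T Ω t σ with hfd
  set a : V → ℝ := fun v => ll mv A c₀ T Ω t σ (EA mv A σ (E v)) with ha
  set b : V → ℝ := fun v => ll mv A c₀ T Ω t σ (EB mv A σ (E v)) with hb
  have a0 : ∀ v, 0 ≤ a v := fun v => ll_nonneg mv A c₀ T Ω t σ (EA_nonneg hσ (hE0 v))
  have b0 : ∀ v, 0 ≤ b v := fun v => ll_nonneg mv A c₀ T Ω t σ (EB_nonneg hσ (hE0 v))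
  have a1 : ∀ v, a v ≤ βc * p v * f := fun v => by
    have k1 := ll_EA (mv := mv) c₀ T Ω hσ hA (hE1 v) t
    rw [hexs, ← hfd] at k1
    have k2 := mul_le_mul_of_nonneg_left (hq1 v) hβc
    have k3 := mul_nonneg hβc (hq0 v t)
    have k4 : (1 - σ) * (βc * ex mv c₀ (T + 1) t (q v)) ≤ 2 * (βc * p v) := by nlinarith [hσ.1]
    have := mul_le_mul_of_nonneg_right k4 (show 0 ≤ f / 2 by linarith)
    change a v ≤ _ at k1
    linarith
  have b1 : ∀ v, b v ≤ βc * τ * p v * f := fun v => by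
    have k1 := ll_EB (mv := mv) c₀ T Ω hσ hA (hE1 v) t
    rw [hexs, ← hfd] at k1
    have k2 := mul_le_mul_of_nonneg_left (hq2 v) hβc
    have k3 := mul_nonneg hβc (hq0 v (t + 1))
    have k4 : σ * (βc * ex mv c₀ (T + 1) (t + 1) (q v)) ≤ 2 * τ * (βc * p v) :=
      mul_le_mul hσ2 k2 k3 (by linarith)
    have := mul_le_mul_of_nonneg_right k4 (show 0 ≤ f / 2 by linarith)
    change b v ≤ _ at k1
    linarith
  have a2 : ∑ v ∈ univ.filter act, a v ≤ (ξb + β * (Bud / (S * τ) + ζ / (C * pb * β + 1))) * f := by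
    have k1 := ll_gain (mv := mv) c₀ T Ω hσ hA (univ.filter act) (E := E) (ξ := ξ) (β := β)
      (fun c => by
        have k := conj_half (A := A c) (hG c (ch mv A c) (ch_posDef hA c)
          ((ch_le hA hm' c).le (ch_posDef hA c).1 (hA c).1)
          fun w hw => mn_geo (fun x => hA (mv c x)) hw)
        rw [Finset.mul_sum, Finset.sum_mul, ← Finset.filter_filter, Finset.sum_filter] at k
        exact k) t
    rw [← hfd] at k1
    have k2 := ll_nonneg mv A c₀ T Ω t σ (gn_nonneg hA hm' σ)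
    have k3 := mul_le_mul_of_nonneg_left hγ hβ
    have k4 := mul_le_mul_of_nonneg_right (hξ t ht) (show 0 ≤ f / 2 by linarith)
    have k5 := mul_nonneg hβ k2
    have k6 := mul_nonneg hξb hf.le
    have k7 : (1 - σ) * (ex mv c₀ (T + 1) t ξ * (f / 2) + β * ll mv A c₀ T Ω t σ (gn mv A σ)) ≤
        (1 - σ) * (ξb * (f / 2) + β * ll mv A c₀ T Ω t σ (gn mv A σ)) :=
      mul_le_mul_of_nonneg_left (by linarith) (by linarith [hσ.2])
    have k8 := mul_nonneg hσ.1.le (show 0 ≤ ξb * (f / 2) + β * ll mv A c₀ T Ω t σ (gn mv A σ) by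
      linarith)
    change ∑ v ∈ univ.filter act, a v ≤ _ at k1
    linarith
  have s1 : ∑ v, ((1 - σ) * ex mv c₀ (T + 1) t (q v) + σ * ex mv c₀ (T + 1) (t + 1) (q v)) *
      (a v + b v) ≤ pb * ∑ v ∈ univ.filter act, a v +
        βc * (τ * ∑ v, p v ^ 2 + ∑ v ∈ univ.filter (fun v => ¬ act v), p v ^ 2) * f := by
    have k1 : ∀ v, ((1 - σ) * ex mv c₀ (T + 1) t (q v) + σ * ex mv c₀ (T + 1) (t + 1) (q v)) *
        (a v + b v) ≤ (if act v then pb * a v else 0) +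
          (βc * τ * f * p v ^ 2 + if ¬ act v then βc * f * p v ^ 2 else 0) := fun v => by
      have k2 : (1 - σ) * ex mv c₀ (T + 1) t (q v) + σ * ex mv c₀ (T + 1) (t + 1) (q v) ≤ p v := by
        nlinarith [hq1 v, hq2 v, hσ.1, hσ.2]
      have k3 := mul_le_mul_of_nonneg_right k2 (add_nonneg (a0 v) (b0 v))
      have k4 := mul_le_mul_of_nonneg_left (b1 v) (hp0 v)
      by_cases h : act v
      · have := mul_le_mul_of_nonneg_right (hpa v h) (a0 v)
        simp only [h, if_true, not_true, if_false]; linarith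
      · have := mul_le_mul_of_nonneg_left (a1 v) (hp0 v)
        simp only [h, if_true, not_false_eq_true, if_false]; linarith
    refine (Finset.sum_le_sum fun v _ => k1 v).trans (le_of_eq ?_)
    rw [Finset.sum_add_distrib, Finset.sum_add_distrib, ← Finset.sum_filter, ← Finset.sum_filter,
      ← Finset.mul_sum, ← Finset.mul_sum, ← Finset.mul_sum]
    ring
  have s2 := mul_le_mul_of_nonneg_left a2 hpb
  have s3 : C * pb * β * (ζ / (C * pb * β + 1)) ≤ ζ := by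
    rw [mul_div_assoc', div_le_iff₀ (by positivity)]; nlinarith
  have s4 := mul_le_mul_of_nonneg_right s3 hf.le
  have s5 := mul_le_mul_of_nonneg_left (s1.trans (add_le_add_left s2 _)) hC0.le
  refine h1.trans ?_
  change _ + C * ∑ v, _ * (a v + b v) ≤ _
  rw [mul_div_assoc]
  linarith

end Crest.Agent.N336.Eng.En
end

-- ▼ part N336/Eng/KA
section

/-!
# Row 336, engine, lemma (K): the complex analysis (helper66)

three lines, Harnack, three circles, propagation of smallness from a segment, positivity.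
-/

set_option autoImplicit false

open Complex Metric Set Filter Topology

namespace Crest.Agent.N336.Eng.KA

/-- three lines -/
theorem tl {f : ℂ → ℂ} (hf : Differentiable ℂ f) {u a b M : ℝ} (h : 0 < u)
    (hM : ∀ z : ℂ, 0 ≤ z.re → z.re ≤ u → ‖f z‖ ≤ M) (ha : ∀ z : ℂ, z.re = 0 → ‖f z‖ ≤ a)
    (hb : ∀ z : ℂ, z.re = u → ‖f z‖ ≤ b) {z : ℂ} (h1 : 0 ≤ z.re) (h2 : z.re ≤ u) :
    ‖f z‖ ≤ a ^ (1 - z.re / u) * b ^ (z.re / u) := by
  have := HadamardThreeLines.norm_le_interp_of_mem_verticalClosedStrip' (f := f) (z := z) h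
    ⟨h1, h2⟩ hf.diffContOnCl ⟨M, by rintro _ ⟨w, hw, rfl⟩; exact hM w hw.1 hw.2⟩
    (fun w hw => ha w hw) fun w hw => hb w hw
  simpa using this

/-- propagation of smallness into a strip -/
theorem tl' {f : ℂ → ℂ} (hf : Differentiable ℂ f) {u δ M θ : ℝ} (h : 0 < u) (hδ : 0 < δ)
    (hθ : θ ≤ 1) (hM : ∀ z : ℂ, 0 ≤ z.re → z.re ≤ u → ‖f z‖ ≤ M)
    (ha : ∀ z : ℂ, z.re = 0 → ‖f z‖ ≤ δ) {z : ℂ} (h1 : 0 ≤ z.re) (h2 : z.re ≤ θ * u) :
    ‖f z‖ ≤ δ ^ (1 - θ) * M ^ θ := by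
  have h3 : z.re ≤ u := h2.trans (mul_le_of_le_one_left h.le hθ)
  have hM0 : 0 ≤ M := (norm_nonneg _).trans (hM z h1 h3)
  have h4 : z.re / u ≤ θ := (div_le_iff₀ h).2 h2
  rcases le_total δ M with h5 | h5
  · refine (tl hf h hM ha (fun w hw => hM w (hw ▸ h.le) hw.le) h1 h3).trans ?_
    have e1 : δ ^ (1 - z.re / u) = δ ^ (1 - θ) * δ ^ (θ - z.re / u) := by
      rw [← Real.rpow_add hδ]; congr 1; ring
    have e2 : M ^ θ = M ^ (θ - z.re / u) * M ^ (z.re / u) := by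
      rw [← Real.rpow_add (hδ.trans_le h5)]; congr 1; ring
    rw [e1, e2, mul_assoc]
    gcongr
  · calc ‖f z‖ ≤ M := hM z h1 h3
      _ = M ^ (1 - θ) * M ^ θ := by rw [← Real.rpow_add' hM0 (by simp)]; simp
      _ ≤ _ := by gcongr

/-- Harnack's inequality -/
theorem harnack {f : ℂ → ℂ} {c z : ℂ} {R : ℝ} (hd : DifferentiableOn ℂ f (ball c R))
    (hp : ∀ z ∈ ball c R, 0 < (f z).re) (hz : z ∈ ball c R) :
    ‖f z‖ * (R - ‖z - c‖) ≤ ‖f c‖ * (R + ‖z - c‖) := by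
  have hR : 0 < R := pos_of_mem_ball hz
  have hc := hp c (mem_ball_self hR)
  have hne : ∀ w ∈ ball c R, f w + (starRingEnd ℂ) (f c) ≠ 0 := fun w hw h => by
    have h1 := congrArg re h
    simp only [add_re, conj_re, zero_re] at h1
    linarith [hp w hw]
  have h1 := dist_le_div_mul_dist_of_mapsTo_ball
    (f := fun w => (f w - f c) / (f w + (starRingEnd ℂ) (f c))) (R₂ := 1)
    ((hd.sub_const _).div (hd.add_const _) hne) (fun w hw => by
      simp only [sub_self, zero_div, mem_closedBall_zero_iff, norm_div]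
      refine div_le_one_of_le₀ (abs_le_of_sq_le_sq' ?_ (norm_nonneg _)).2 (norm_nonneg _)
      rw [Complex.sq_norm, Complex.sq_norm, normSq_apply, normSq_apply]
      simp only [sub_re, sub_im, add_re, add_im, conj_re, conj_im]
      nlinarith [mul_pos (hp w hw) hc]) hz
  simp only [sub_self, zero_div, dist_eq_norm, sub_zero, norm_div] at h1
  rw [div_le_iff₀ (norm_pos_iff.2 (hne z hz))] at h1
  have h2 := norm_add_le (f z) ((starRingEnd ℂ) (f c))
  rw [Complex.norm_conj] at h2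
  have h3 := norm_sub_norm_le (f z) (f c)
  have h4 : ‖f z - f c‖ * R ≤ ‖z - c‖ * (‖f z‖ + ‖f c‖) := by
    calc ‖f z - f c‖ * R ≤ 1 / R * ‖z - c‖ * ‖f z + (starRingEnd ℂ) (f c)‖ * R := by gcongr
      _ = ‖z - c‖ * ‖f z + (starRingEnd ℂ) (f c)‖ := by field_simp
      _ ≤ _ := by gcongr
  nlinarith

/-- a small derivative at a boundary maximum forces `G` to be close to `1` -/
theorem small {G : ℂ → ℂ} (hG : Differentiable ℂ G) (h0 : G 0 = 1) {e σ : ℝ} (he : 0 < e)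
    (hσ : 0 < σ) (hd : ‖deriv G 0‖ ≤ e) (h1 : ∀ z : ℂ, -(4 * σ) ≤ z.re → z.re ≤ 0 → ‖G z‖ ≤ 1)
    (h2 : ∀ z : ℂ, -(6 * σ) ≤ z.re → z.re ≤ 2 * σ → ‖G z‖ ≤ 2) {t : ℝ} (ht : |t| ≤ 2 * σ) :
    ‖1 - G (t * I)‖ ≤ 3 * (27 * σ * e) ^ (1 / 4 : ℝ) := by
  set g : ℂ → ℂ := fun z => 1 - G z - e * z with hg
  set c : ℂ := ((-(2 * σ) : ℝ) : ℂ) with hc
  have hgd : Differentiable ℂ g := (hG.const_sub 1).sub (differentiable_id.const_mul _)
  have hp : ∀ z ∈ ball c (2 * σ), 0 < (g z).re := fun z hz => by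
    have h3 := abs_lt.1 ((abs_re_le_norm _).trans_lt (mem_ball_iff_norm.1 hz))
    simp only [hc, sub_re, ofReal_re] at h3
    have h4 := (re_le_norm _).trans (h1 z (by linarith) (by linarith))
    simp only [hg, sub_re, one_re, re_ofReal_mul]
    nlinarith
  have hne : ∀ z ∈ ball c (2 * σ), g z ≠ 0 := fun z hz h => by simpa [h] using hp z hz
  have hcm : c ∈ ball c (2 * σ) := mem_ball_self (by linarith)
  have h3 : ‖g c‖ ≤ 8 * σ * e := by
    have hder : HasDerivAt g (-deriv G 0 - e) 0 := by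
      have := ((hG 0).hasDerivAt.const_sub 1).sub ((hasDerivAt_id (0 : ℂ)).const_mul (e : ℂ))
      rwa [mul_one] at this
    have ht : Tendsto (fun x : ℝ => ((-x : ℝ) : ℂ)) (𝓝[>] 0) (𝓝[≠] 0) := by
      refine tendsto_nhdsWithin_iff.2 ⟨?_, eventually_mem_nhdsWithin.mono fun x hx => ?_⟩
      · refine Tendsto.mono_left ?_ nhdsWithin_le_nhds
        exact Continuous.tendsto' (by fun_prop) _ _ (by simp)
      · simpa using ne_of_gt hx
    have h4 := ((hasDerivAt_iff_tendsto_slope_zero.1 hder).comp ht).norm.const_mul (4 * σ)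
    refine (ge_of_tendsto h4 ?_).trans ?_
    · filter_upwards [Ioo_mem_nhdsGT hσ] with x hx
      have e1 : ‖((-x : ℝ) : ℂ) - c‖ = 2 * σ - x := by
        rw [hc, ← ofReal_sub, norm_real, Real.norm_of_nonneg (by linarith [hx.2])]; ring
      have hm : ((-x : ℝ) : ℂ) ∈ ball c (2 * σ) := by
        rw [mem_ball_iff_norm, e1]; linarith [hx.1]
      have h5 := harnack (f := fun z => (g z)⁻¹) (hgd.differentiableOn.inv hne) (fun z hz => by
        rw [inv_re]; exact div_pos (hp z hz) (normSq_pos.2 (hne z hz))) hm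
      have p1 := norm_pos_iff.2 (hne _ hm)
      have p2 := norm_pos_iff.2 (hne _ hcm)
      rw [e1, norm_inv, norm_inv, inv_mul_le_iff₀ p1, mul_left_comm, le_inv_mul_iff₀ p2] at h5
      have g0 : g 0 = 0 := by simp [hg, h0]
      simp only [Function.comp, zero_add, g0, sub_zero, norm_smul, norm_inv, norm_real,
        norm_neg, Real.norm_of_nonneg hx.1.le]
      rw [mul_left_comm, le_inv_mul_iff₀ hx.1]
      nlinarith [hx.1]
    · have := (norm_sub_le (-deriv G 0) (e : ℂ))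
      rw [norm_neg, norm_real, Real.norm_of_nonneg he.le] at this
      nlinarith
  have h4 : ∀ z, ‖z - c‖ = σ → ‖1 - G z‖ ≤ 27 * σ * e := fun z hz => by
    have h5 := harnack hgd.differentiableOn hp (z := z) (by rw [mem_ball_iff_norm, hz]; linarith)
    rw [hz] at h5
    have h6 : ‖z‖ ≤ 3 * σ := by
      have := norm_sub_norm_le z c
      rw [hz, hc, norm_real, norm_neg, Real.norm_of_nonneg (by linarith)] at this
      linarith
    have h7 := norm_add_le (g z) (e * z)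
    rw [norm_mul, norm_real, Real.norm_of_nonneg he.le, hg, sub_add_cancel] at h7
    have h8 : ‖g z‖ ≤ 3 * ‖g c‖ := by
      refine le_of_mul_le_mul_right ?_ hσ
      linarith
    nlinarith
  have hl : 0 < Real.log 2 := Real.log_pos one_lt_two
  have hw : (2 + t / σ * I : ℂ) ≠ 0 := fun h => by simpa using congrArg re h
  have hn : ∀ ζ : ℂ, ‖c + σ * exp ζ - c‖ = σ * Real.exp ζ.re := fun ζ => by
    rw [add_sub_cancel_left, norm_mul, norm_real, Real.norm_of_nonneg hσ.le, norm_exp]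
  have h5 := tl' (f := fun ζ => 1 - G (c + σ * exp ζ)) (by fun_prop) (u := 2 * Real.log 2)
    (δ := 27 * σ * e) (M := 3) (θ := 3 / 4) (by positivity) (by positivity) (by norm_num)
    (fun ζ _ hζ => by
      have h6 := abs_le.1 ((abs_re_le_norm _).trans (hn ζ).le)
      have h7 : Real.exp ζ.re ≤ 4 := by
        refine (Real.exp_le_exp.2 hζ).trans (le_of_eq ?_)
        rw [two_mul, Real.exp_add, Real.exp_log two_pos]; norm_num
      simp only [hc, sub_re, ofReal_re] at h6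
      have h8 := h2 (c + σ * exp ζ) (by nlinarith) (by nlinarith)
      have := norm_sub_le 1 (G (c + σ * exp ζ))
      rw [norm_one] at this
      linarith)
    (fun ζ hζ => h4 _ (by rw [hn, hζ]; simp)) (z := log (2 + t / σ * I))
    (by
      rw [log_re]
      refine Real.log_nonneg (le_trans ?_ (re_le_norm _))
      simp)
    (by
      have h6 : (t / σ) ^ 2 ≤ 4 := by
        rw [div_pow, div_le_iff₀ (by positivity), ← sq_abs]
        nlinarith [abs_nonneg t]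
      have h7 : ‖(2 + t / σ * I : ℂ)‖ ^ 2 ≤ 2 ^ 3 := by
        rw [← ofReal_div, ← ofReal_ofNat, Complex.sq_norm, normSq_add_mul_I]
        linarith
      have h8 := Real.log_le_log (by positivity) h7
      rw [Real.log_pow, Real.log_pow] at h8
      rw [log_re]
      push_cast at h8
      linarith)
  have e2 : c + σ * (2 + t / σ * I) = t * I := by
    have : (σ : ℂ) ≠ 0 := by exact_mod_cast hσ.ne'
    rw [hc]; push_cast; field_simp; ring
  simp only [exp_log hw, e2] at h5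
  refine h5.trans ?_
  rw [mul_comm, show (1 - 3 / 4 : ℝ) = 1 / 4 by norm_num]
  gcongr
  exact (Real.rpow_le_rpow_of_exponent_le (by norm_num) (by norm_num)).trans (Real.rpow_one 3).le

theorem sinh_re_im (ζ : ℂ) : (sinh ζ).re = Real.sinh ζ.re * Real.cos ζ.im ∧
    (sinh ζ).im = Real.cosh ζ.re * Real.sin ζ.im := by
  conv_lhs => rw [← re_add_im ζ]
  conv_rhs => rw [← re_add_im ζ]
  simp only [sinh_add, cosh_mul_I, sinh_mul_I, ← ofReal_sinh, ← ofReal_cosh, ← ofReal_cos,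
    ← ofReal_sin]
  simp [-ofReal_sinh, -ofReal_cosh, -ofReal_cos, -ofReal_sin]

/-- from a segment to a disc -/
theorem seg {f : ℂ → ℂ} (hf : Differentiable ℂ f) {σ δ M : ℝ} (hσ : 0 < σ) (hδ : 0 < δ)
    (h1 : ∀ t : ℝ, |t| ≤ 2 * σ → ‖f (t * I)‖ ≤ δ) (h2 : ∀ z : ℂ, |z.re| ≤ 3 * σ → ‖f z‖ ≤ M)
    {z : ℂ} (hz : ‖z‖ ≤ σ) : ‖f z‖ ≤ δ ^ (1 / 2 : ℝ) * M ^ (1 / 2 : ℝ) := by
  have hσ' : (σ : ℂ) ≠ 0 := by exact_mod_cast hσ.ne'
  obtain ⟨ζ, hζ0, hζ⟩ : ∃ ζ : ℂ, 0 ≤ ζ.re ∧ sinh ζ = z / (2 * σ) := by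
    obtain ⟨u, hu⟩ := sin_surjective (z / (2 * σ) * I)
    have h3 : sinh (-(u * I)) = z / (2 * σ) := by
      refine mul_right_cancel₀ I_ne_zero ?_
      rw [← sin_mul_I, ← hu, neg_mul, mul_assoc, I_mul_I]; simp
    rcases le_total 0 (-(u * I)).re with h | h
    · exact ⟨_, h, h3⟩
    · refine ⟨u * I + Real.pi * I, by simpa using h, ?_⟩
      rw [sinh_add_pi_mul_I, ← sinh_neg, h3]
  have h3 := tl' (f := fun ζ => f (2 * σ * sinh ζ)) (by fun_prop) (u := 1) (δ := δ) (M := M)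
    (θ := 1 / 2) one_pos hδ (by norm_num)
    (fun w hw0 hw => h2 _ (by
      have h4 : Real.sinh w.re ≤ 3 / 2 := by
        refine (Real.sinh_le_sinh.2 hw).trans ?_
        rw [Real.sinh_eq]
        linarith [Real.exp_one_lt_d9, Real.exp_pos (-1)]
      have h5 : 0 ≤ Real.sinh w.re := Real.sinh_nonneg_iff.2 hw0
      rw [← ofReal_ofNat, ← ofReal_mul, re_ofReal_mul, (sinh_re_im w).1, abs_mul, abs_mul,
        abs_of_pos hσ, abs_mul, abs_of_nonneg h5, abs_two]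
      have := mul_le_mul h4 (Real.abs_cos_le_one w.im) (abs_nonneg _) (by norm_num)
      nlinarith))
    (fun w hw => by
      have e : 2 * σ * sinh w = (2 * σ * Real.sin w.im : ℝ) * I := by
        rw [← re_add_im (sinh w), (sinh_re_im w).1, (sinh_re_im w).2, hw]
        simp [mul_assoc]
      simp only [e]
      refine h1 _ ?_
      rw [abs_mul, abs_of_pos (by positivity : 0 < 2 * σ)]
      exact mul_le_of_le_one_right (by positivity) (Real.abs_sin_le_one _)) hζ0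
    (by
      have h4 : ‖sinh ζ‖ ≤ 1 / 2 := by
        rw [hζ, norm_div, div_le_iff₀ (by simpa using hσ.ne')]
        simpa [abs_of_pos hσ] using hz
      have h5 := pow_le_pow_left₀ (norm_nonneg _) h4 2
      rw [Complex.sq_norm, normSq_apply, (sinh_re_im ζ).1, (sinh_re_im ζ).2] at h5
      have h6 := Real.self_le_sinh_iff.2 hζ0
      have h7 := Real.cosh_sq ζ.re
      have h8 := Real.sin_sq_add_cos_sq ζ.im
      have h9 : Real.sinh ζ.re ^ 2 ≤ (1 / 2) ^ 2 := by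
        refine le_trans ?_ h5
        calc _ = Real.sinh ζ.re ^ 2 * (Real.sin ζ.im ^ 2 + Real.cos ζ.im ^ 2) := by rw [h8, mul_one]
          _ ≤ _ := by nlinarith [sq_nonneg (Real.sin ζ.im)]
      have := (abs_le_of_sq_le_sq' h9 (by norm_num)).2
      linarith)
  simp only [hζ] at h3
  rw [mul_div_cancel₀ _ (by simpa using hσ')] at h3
  convert h3 using 3
  norm_num

/-- positivity on the imaginary axis -/
theorem pos {c : ℂ → ℂ} (hc : Differentiable ℂ c) {σ δ : ℝ} (hδ : 0 < δ)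
    (h1 : ∀ t : ℝ, (c (t * I)).im = 0 ∧ 0 ≤ (c (t * I)).re)
    (h2 : ∀ z : ℂ, ‖z‖ < σ → ‖c z - c 0‖ ≤ δ) {s : ℝ} (hs : |s| < σ) :
    ‖c s - c 0‖ ^ 2 ≤ (16 * δ / σ ^ 2 * s ^ 2) * ((c 0).re + 16 * δ / σ ^ 2 * s ^ 2) := by
  have hσ : 0 < σ := (abs_nonneg _).trans_lt hs
  have h3 : ∀ z ∈ ball (0 : ℂ) σ, ‖dslope c 0 z‖ ≤ δ / σ := fun z hz =>
    norm_dslope_le_div_of_mapsTo_ball hc.differentiableOn
      (fun w hw => mem_closedBall_iff_norm.2 (h2 w (mem_ball_zero_iff.1 hw))) hz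
  set k := dslope c 0 0 with hk
  set M := 2 * δ / σ ^ 2 with hM
  have hM0 : 0 < M := by positivity
  have hk0 : ‖k‖ ≤ δ / σ := h3 0 (mem_ball_self hσ)
  have h4 : ∀ z : ℂ, ‖z‖ < σ → ‖c z - c 0 - z * k‖ ≤ M * ‖z‖ ^ 2 := fun z hz => by
    have h5 := dist_le_div_mul_dist_of_mapsTo_ball (f := dslope c 0) (R₂ := 2 * (δ / σ))
      ((differentiableOn_dslope (ball_mem_nhds 0 hσ)).2 hc.differentiableOn)
      (fun w hw => mem_closedBall_iff_norm.2 ((norm_sub_le _ _).trans (by linarith [h3 w hw])))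
      (mem_ball_zero_iff.2 hz)
    rw [dist_eq_norm, dist_zero_right] at h5
    have e : c z - c 0 - z * k = z * (dslope c 0 z - k) := by
      rw [← sub_smul_dslope c 0 z]; simp [mul_sub]
    rw [e, norm_mul]
    calc _ ≤ ‖z‖ * (2 * (δ / σ) / σ * ‖z‖) := by gcongr
      _ = _ := by rw [hM]; field_simp
  have h0 := h1 0
  simp only [ofReal_zero, zero_mul] at h0
  have h5 : ∀ r : ℝ, |r| ≤ ‖k‖ → ‖c ((r / (2 * M) : ℝ) * I) - c 0 - (r / (2 * M) : ℝ) * I * k‖ ≤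
      r ^ 2 / (4 * M) := fun r hr => by
    have e : ‖((r / (2 * M) : ℝ) : ℂ) * I‖ = |r| / (2 * M) := by
      rw [norm_mul, norm_I, mul_one, norm_real, Real.norm_eq_abs, abs_div,
        abs_of_pos (by positivity : 0 < 2 * M)]
    refine (h4 _ ?_).trans (le_of_eq ?_)
    · rw [e, div_lt_iff₀ (by positivity)]
      refine (hr.trans hk0).trans_lt ?_
      rw [hM, div_lt_iff₀ hσ]
      field_simp
      linarith
    · rw [e, div_pow, sq_abs]; field_simp; norm_num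
  have h6 : k.re = 0 := by
    have h7 := (abs_im_le_norm _).trans (h5 k.re (abs_re_le_norm k))
    simp only [sub_im, (h1 _).1, h0.1, mul_im, mul_re, ofReal_re, ofReal_im, I_re, I_im, mul_zero,
      zero_mul, mul_one, sub_zero, add_zero, zero_add, zero_sub, abs_neg] at h7
    have h8 := (le_abs_self _).trans h7
    rw [div_mul_eq_mul_div, div_le_div_iff₀ (by positivity) (by positivity)] at h8
    exact pow_eq_zero_iff two_ne_zero |>.1 (le_antisymm (by nlinarith) (sq_nonneg _))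
  have h7 : ‖k‖ ^ 2 ≤ 4 * M * (c 0).re := by
    have h8 := (re_le_norm _).trans (h5 k.im (abs_im_le_norm k))
    simp only [sub_re, mul_im, mul_re, ofReal_re, ofReal_im, I_re, I_im, mul_zero,
      zero_mul, mul_one, sub_zero, add_zero, zero_sub] at h8
    have h9 := (h1 (k.im / (2 * M))).2
    have h10 : k.im ^ 2 / (4 * M) ≤ (c 0).re := by
      have : k.im / (2 * M) * k.im = 2 * (k.im ^ 2 / (4 * M)) := by field_simp; norm_num
      linarith
    rw [div_le_iff₀ (by positivity)] at h10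
    rw [Complex.sq_norm, normSq_apply, h6]
    nlinarith
  have h8 := h4 s (by simpa using hs)
  have h9 : ‖c s - c 0‖ ≤ |s| * ‖k‖ + M * s ^ 2 := by
    have := norm_add_le (c s - c 0 - s * k) (s * k)
    rw [sub_add_cancel, norm_mul] at this
    simp only [norm_real, Real.norm_eq_abs, sq_abs] at this h8
    linarith
  have e : 16 * δ / σ ^ 2 * s ^ 2 = 8 * (M * s ^ 2) := by rw [hM]; ring
  rw [e]
  have h10 := pow_le_pow_left₀ (norm_nonneg _) h9 2
  have h11 : (|s| * ‖k‖) ^ 2 ≤ 4 * (M * s ^ 2) * (c 0).re := by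
    rw [mul_pow, sq_abs]
    nlinarith [sq_nonneg s]
  nlinarith [sq_nonneg (|s| * ‖k‖ - M * s ^ 2), sq_nonneg (M * s ^ 2)]

end Crest.Agent.N336.Eng.KA
end

-- ▼ part N336/Eng/KB
section

/-!
# Row 336, engine, lemma (K): the two abstract steps (helper66)

* `close` : two ordered positive matrices with close logarithms have close modular flows
* `fin`   : from closeness on an imaginary segment and positivity to the real axis
-/

set_option autoImplicit false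
set_option linter.unusedSectionVars false

open Matrix Finset Complex
open scoped ComplexOrder MatrixOrder Matrix.Norms.L2Operator InnerProductSpace ComplexConjugate

namespace Crest.Agent.N336.Eng.K

open Crest.Agent.N336.Q

variable {n : Type} [Fintype n] [DecidableEq n]

/-- perturbation of an expectation value -/
lemma norm_inner_sub_le {h : Matrix n n ℂ} {v w : Vec n} (hv : ‖v‖ = 1) (hw : ‖w‖ = 1) :
    ‖⟪w, ap h w⟫_ℂ - ⟪v, ap h v⟫_ℂ‖ ≤ 2 * ‖h‖ * ‖w - v‖ := by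
  have e : ⟪w, ap h w⟫_ℂ - ⟪v, ap h v⟫_ℂ = ⟪w - v, ap h w⟫_ℂ + ⟪v, ap h (w - v)⟫_ℂ := by
    rw [map_sub, inner_sub_left, inner_sub_right]; ring
  have h1 := norm_inner_ap_le h (w - v) w
  have h2 := norm_inner_ap_le h v (w - v)
  rw [hw] at h1
  rw [hv] at h2
  rw [e]
  linarith [norm_add_le ⟪w - v, ap h w⟫_ℂ ⟪v, ap h (w - v)⟫_ℂ]

lemma norm_sub_sq_le {v w : Vec n} (hv : ‖v‖ = 1) (hw : ‖w‖ = 1) :
    ‖w - v‖ ^ 2 ≤ 2 * ‖1 - ⟪v, w⟫_ℂ‖ := by
  rw [norm_sub_rev, @norm_sub_sq ℂ, hv, hw]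
  have := re_le_norm (1 - ⟪v, w⟫_ℂ)
  simp only [sub_re, one_re] at this
  simp only [RCLike.re_to_complex]
  linarith

/-- two ordered positive matrices with close logarithms have close flows -/
theorem close {A B : Matrix n n ℂ} (hA : A.PosDef) (hle : A ≤ B) {χ : Vec n} (hχ : ‖χ‖ = 1)
    {m e σ : ℝ} (hm : 1 ≤ m) (h1 : qf χ B ≤ m) (h2 : qf χ A⁻¹ ≤ m)
    (h3 : qf χ (lg B) - qf χ (lg A) ≤ e) (he : 0 < e) (hσ : 0 < σ) (hσ' : 27 * σ ≤ 1)
    (hmσ : m ^ (4 * σ) ≤ 2) {t : ℝ} (ht : |t| ≤ 2 * σ) :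
    ‖ap (cpw B (t * I) * cpw A (-(t * I))) χ - χ‖ ≤ 5 / 2 * e ^ (1 / 8 : ℝ) := by
  have hB := posDef_of_le hA hle
  have hm0 : 0 < m := by linarith
  set G : ℂ → ℂ := fun z => ⟪χ, ap (cpw B z * cpw A (-z)) χ⟫_ℂ with hG
  have sG : SB G := (((SB.cpw B).mul (SB.cpw_neg A)).ap_const χ).inner χ
  have hu : ∀ z : ℂ, z.re = 0 → ‖ap (cpw B z * cpw A (-z)) χ‖ = 1 := fun z hz => by
    rw [ap_mul, norm_ap_cpw_im _ hz, norm_ap_cpw_im _ (by simpa using hz), hχ]
  have g1 : ∀ z : ℂ, -(1 / 2) ≤ z.re → z.re ≤ 0 → ‖G z‖ ≤ 1 := fun z ha hb =>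
    three_max sG (by norm_num) ha hb (fun w hw => by
      refine (norm_inner_ap_le _ _ _).trans ?_
      rw [hχ, mul_one, mul_one, cpw_split hB, cpw_split' hA, hw, neg_re, hw, neg_neg,
        Matrix.mul_assoc, ← Matrix.mul_assoc (pw B _)]
      refine (norm_mul_le _ _).trans (mul_le_one₀ (norm_cpw_im_le _ (by simp)) (norm_nonneg _) ?_)
      exact (norm_mul_le _ _).trans (mul_le_one₀ (norm_half_le' hA hle) (norm_nonneg _)
        (norm_cpw_im_le _ (by simp)))) fun w hw =>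
      (norm_inner_le_norm (𝕜 := ℂ) _ _).trans (by rw [hu w hw, hχ, mul_one])
  have g2 : ∀ z : ℂ, 0 ≤ z.re → z.re ≤ 2 * σ → ‖G z‖ ≤ 2 := fun z ha hb => by
    have a1 := mom_pw hB hχ hm0 h1 (g := 2 * z.re) (by linarith) (by linarith)
    have a2 := mom_pw_neg hA hχ hm0 h2 (g := 2 * z.re) (by linarith) (by linarith)
    have a3 : m ^ (2 * z.re) ≤ 2 :=
      (Real.rpow_le_rpow_of_exponent_le hm (by linarith)).trans hmσ
    have a4 := norm_ap_cpw_sq hB (conj z) χ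
    have a5 := norm_ap_cpw_sq hA (-z) χ
    rw [conj_re] at a4
    rw [neg_re, mul_neg] at a5
    simp only [hG]
    rw [ap_mul, inner_ap_right, cpw_conjTranspose]
    refine (norm_inner_le_norm (𝕜 := ℂ) _ _).trans ?_
    nlinarith [sq_nonneg (‖ap (cpw B (conj z)) χ‖ - ‖ap (cpw A (-z)) χ‖)]
  have hd : HasDerivAt G ⟪χ, ap (lg B - lg A) χ⟫_ℂ 0 := by
    have := (hasDerivAt_cpw_zero B).mul (hasDerivAt_cpw_neg_zero A)
    simp only [neg_zero, cpw_zero, Matrix.mul_one, Matrix.one_mul, ← sub_eq_add_neg] at this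
    exact HasDerivAt.inner_ap this χ χ
  have hd' : ‖deriv G 0‖ ≤ e := by
    have b1 := im_inner_ap ((fr_isHermitian Real.log B).sub (fr_isHermitian Real.log A)) χ
    have b2 := re_inner_ap_nonneg (Matrix.le_iff.1 (lg_mono hA hle)) χ
    have b3 := qf_sub (lg B) (lg A) χ
    rw [hd.deriv, ← re_add_im ⟪χ, ap (lg B - lg A) χ⟫_ℂ, b1, ofReal_zero, zero_mul, add_zero,
      norm_real, Real.norm_of_nonneg b2]
    exact b3.le.trans h3
  have h0 : G 0 = 1 := by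
    simp only [hG, neg_zero, cpw_zero, Matrix.mul_one, ap_one, inner_self_eq_norm_sq_to_K, hχ]
    simp
  have h4 := KA.small sG.diff h0 he hσ hd' (fun z ha hb => g1 z (by linarith) hb)
    (fun z ha hb => (le_total z.re 0).elim
      (fun h => (g1 z (by linarith) h).trans one_le_two) fun h => g2 z h hb) ht
  have h5 := norm_sub_sq_le hχ (hu (t * I) (by simp))
  have h6 : (27 * σ * e) ^ (1 / 4 : ℝ) ≤ e ^ (1 / 4 : ℝ) :=
    Real.rpow_le_rpow (by positivity) (mul_le_of_le_one_left he.le hσ') (by norm_num)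
  have h7 : (e ^ (1 / 8 : ℝ)) ^ 2 = e ^ (1 / 4 : ℝ) := by
    rw [← Real.rpow_natCast, ← Real.rpow_mul he.le]; norm_num
  refine (abs_le_of_sq_le_sq' ?_ (by positivity)).2
  rw [mul_pow, h7]
  have : 0 ≤ e ^ (1 / 4 : ℝ) := by positivity
  simp only [hG] at h4
  linarith

/-- from the imaginary segment to the real axis -/
theorem fin {c : ℂ → ℂ} (hc : Differentiable ℂ c) {J e σ : ℝ} (hJ : 0 < J) (he : 0 < e)
    (h0 : ‖c 0‖ ≤ J) (h1 : ∀ t : ℝ, (c (t * I)).im = 0 ∧ 0 ≤ (c (t * I)).re)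
    (h2 : ∀ t : ℝ, |t| ≤ 2 * σ → ‖c (t * I) - c 0‖ ≤ 5 * J * e ^ (1 / 8 : ℝ))
    (h3 : ∀ z : ℂ, |z.re| ≤ 3 * σ → ‖c z‖ ≤ 2 * J) {s : ℝ} (hs : |s| < σ) :
    ‖c s - c 0‖ ^ 2 ≤ (16 * (4 * J * e ^ (1 / 16 : ℝ)) / σ ^ 2 * s ^ 2) *
      ((c 0).re + 16 * (4 * J * e ^ (1 / 16 : ℝ)) / σ ^ 2 * s ^ 2) := by
  refine KA.pos hc (by positivity) h1 (fun z hz => ?_) hs
  refine (KA.seg (f := fun z => c z - c 0) (M := 3 * J) (hc.sub_const _)
    ((abs_nonneg _).trans_lt hs) (by positivity) h2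
    (fun z hz => (norm_sub_le _ _).trans (by linarith [h3 z hz])) hz.le).trans ?_
  rw [← Real.mul_rpow (by positivity) (by positivity), ← Real.sqrt_eq_rpow,
    Real.sqrt_le_left (by positivity)]
  have h7 : (e ^ (1 / 16 : ℝ)) ^ 2 = e ^ (1 / 8 : ℝ) := by
    rw [← Real.rpow_natCast, ← Real.rpow_mul he.le]; norm_num
  rw [mul_pow, h7]
  have : 0 ≤ J ^ 2 * e ^ (1 / 8 : ℝ) := by positivity
  nlinarith

end Crest.Agent.N336.Eng.K
end

-- ▼ part N336/Eng/KC
section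

/-!
# Row 336, engine, lemma (K): regularised marginals (helper66)
-/

set_option autoImplicit false
set_option linter.unusedSectionVars false

open Matrix Finset Complex
open scoped ComplexOrder MatrixOrder Matrix.Norms.L2Operator InnerProductSpace ComplexConjugate

namespace Crest.Agent.N336.Eng.K

open Crest.Agent.N336.Q

variable {ι : Type} [Fintype ι] [DecidableEq ι] {d : ι → Type} [∀ x, Fintype (d x)]
  [∀ x, DecidableEq (d x)] [∀ x, Nonempty (d x)] {χ : Vec (Cfg d)} {X y P Y : Finset ι}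
  {ε ε' : ℝ}

lemma dj (h : Disjoint X Y) (x : ι) : x ∈ X → x ∉ Y := fun hx => disjoint_left.1 h hx

lemma rq_pd (hε : 0 < ε) : (rq χ X ε).PosDef := rq_posDef χ X hε

lemma rq_supp : Supp X (rq χ X ε) := supp_rq χ X ε

lemma trace_rq (hχ : ‖χ‖ = 1) : (trace (rq χ X ε)).re = dim d Xᶜ * (1 + ε * dim d X) := by
  rw [re_trace_rq, hχ, ← dim_mul_compl X]
  push_cast
  ring

/-- conjugation by the regularised marginal on the line `Re = 1/2` -/
lemma conj_le {a : Q.Op d} (ha : Supp X a) (h1 : ‖a‖ ≤ 1) (hχ : ‖χ‖ = 1) (hε : 0 < ε)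
    (hε1 : ε * dim d X ≤ 1) {w : ℂ} (hw : w.re = 1 / 2) :
    ‖ap (cpw (rq χ X ε) w * a * cpw (rq χ X ε) (-w)) χ‖ ^ 2 ≤ 2 := by
  have hr := rq_pd (χ := χ) (X := X) hε
  refine (norm_ap_mul_cpw_rq_sq_le ((supp_cpw rq_supp hr.1 w).mul ha) χ hε
    (by rw [neg_re, hw])).trans ?_
  have h3 := re_trace_mul_mono
    (le_one_of_norm_le (C := aᴴ) (by rwa [l2_opNorm_conjTranspose])) hr.posSemidef
  rw [conjTranspose_conjTranspose, Matrix.one_mul, trace_rq hχ, Matrix.mul_assoc,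
    trace_mul_comm] at h3
  rw [conjTranspose_mul, cpw_conjTranspose, Matrix.mul_assoc, ← Matrix.mul_assoc (cpw _ _),
    cpw_mul_cpw, add_comm, add_conj, hw, mul_one_div_cancel two_ne_zero, ofReal_one, cpw_one hr,
    ← Matrix.mul_assoc, div_le_iff₀' (dim_pos_real _)]
  refine h3.trans ?_
  gcongr
  linarith

/-- first moment of a conditional density -/
lemma mom (hd : Disjoint X y) (hχ : ‖χ‖ = 1) (hε : 0 < ε) (hε' : 0 < ε')
    (hε1 : ε * dim d X ≤ 1) : qf χ (rq χ X ε * (rq χ (X ∪ y)ᶜ ε')⁻¹) ≤ 2 * dim d y := by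
  have hr := rq_pd (χ := χ) (X := X) hε
  have h1 := qf_mul_inv_rq_le (rq_supp.mono (subset_union_left (s₂ := y))) hr.posSemidef χ hε'
  rw [trace_rq hχ, dim_compl_union hd, mul_assoc, mul_div_cancel_left₀ _ (dim_pos_real _).ne', qf,
    ap_mul, ap_inv_rq_compl _ _ hε', ← ap_mul] at h1
  refine h1.trans ?_
  rw [mul_comm 2]
  gcongr
  linarith

lemma eta_nonneg (h1 : Disjoint P y) (h2 : Disjoint P Y) (h3 : Disjoint y Y) :
    0 ≤ eta χ P y Y := by
  have h4 := SX_submod (P ∪ y) (Y ∪ y)ᶜ (pj_posSemidef χ)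
  have e1 : P ∪ y ∪ (Y ∪ y)ᶜ = Yᶜ := by
    ext x
    have := dj h2 x
    have := dj h3 x
    simp only [mem_union, mem_compl]
    tauto
  have e2 : (P ∪ y) ∩ (Y ∪ y)ᶜ = P := by
    ext x
    have := dj h1 x
    have := dj h2 x
    simp only [mem_union, mem_compl, mem_inter]
    tauto
  rw [e1, e2, SX_compl, SX_compl] at h4
  change 0 ≤ SX (P ∪ y) (pj χ) - SX P (pj χ) + SX (Y ∪ y) (pj χ) - SX Y (pj χ)
  linarith

lemma dim_le (X : Finset ι) : (dim d X : ℝ) ≤ dim d univ := by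
  rw [← dim_mul_compl X, Nat.cast_mul]
  exact le_mul_of_one_le_right (Nat.cast_nonneg _) (by exact_mod_cast dim_pos _)

/-- the modular flows before and after the move agree up to a unitary far from the term -/
theorem flow (h1 : Disjoint P y) (h2 : Disjoint P Y) (h3 : Disjoint y Y) (hχ : ‖χ‖ = 1)
    (hε' : 0 < ε') (h4 : ε' * dim d univ ≤ ε) (h5 : ε * dim d univ ≤ 1) {l : ℝ} (hl : 1 ≤ l)
    (h6 : Real.log (dim d y) ≤ l) {t : ℝ} (ht : |t| ≤ 2 * (1 / (32 * l))) :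
    ∃ u : Q.Op d, Supp (P ∪ y)ᶜ u ∧ uᴴ * u = 1 ∧
      ‖ap u (ap (cpw (rq χ P ε) (t * I) * cpw (rq χ (Y ∪ y) ε') (-(t * I))) χ) - χ‖ ≤
        5 / 2 * (eta χ P y Y + 2 * ε * dim d univ) ^ (1 / 8 : ℝ) := by
  have hD := dim_pos_real (d := d) univ
  have hε : 0 < ε := (mul_pos hε' hD).trans_le h4
  have k1 := lkh_rq (A := P) (B := (P ∪ y ∪ Y)ᶜ) (C := Y)
    (disjoint_compl_right.mono_left (subset_union_left.trans subset_union_left)) h2
    (disjoint_compl_left.mono_right subset_union_right) χ χ hε' hε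
  have e1' : P ∪ (P ∪ y ∪ Y)ᶜ = (Y ∪ y)ᶜ := by
    ext x
    have := dj h1 x
    have := dj h2 x
    simp only [mem_union, mem_compl]
    tauto
  have e2' : (P ∪ y ∪ Y)ᶜ ∪ Y = (P ∪ y)ᶜ := by
    ext x
    have := dj h2 x
    have := dj h3 x
    simp only [mem_union, mem_compl]
    tauto
  rw [e1', e2'] at k1
  set δ := ε * dim d (P ∪ y ∪ Y)ᶜ with hδ
  have hδ0 : 0 < δ := mul_pos hε (dim_pos_real _)
  have hδ1 : δ * dim d Y ≤ ε * dim d univ := by
    rw [hδ, mul_assoc, ← Nat.cast_mul,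
      ← dim_union (disjoint_compl_left.mono_right subset_union_right)]
    exact mul_le_mul_of_nonneg_left (dim_le _) hε.le
  have hP1 : ε * dim d P ≤ ε * dim d univ := mul_le_mul_of_nonneg_left (dim_le P) hε.le
  have pP := rq_pd (χ := χ) (X := P) hε
  have pt := rq_pd (χ := χ) (X := (Y ∪ y)ᶜ) hε'
  have pF := rq_pd (χ := χ) (X := (P ∪ y)ᶜ) hε
  have pY := rq_pd (χ := χ) (X := Y) hδ0
  have dP : Disjoint P (P ∪ y)ᶜ := disjoint_compl_right.mono_left subset_union_left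
  have dY : Disjoint (Y ∪ y)ᶜ Y := disjoint_compl_left.mono_right subset_union_left
  have cP : Commute (rq χ P ε) (rq χ (P ∪ y)ᶜ ε) := rq_supp.commute rq_supp dP
  have cY : Commute (rq χ (Y ∪ y)ᶜ ε') (rq χ Y δ) := rq_supp.commute rq_supp dY
  have k2 : rq χ (Y ∪ y)ᶜ ε' * (rq χ Y δ)⁻¹ ≤ rq χ P ε * (rq χ (P ∪ y)ᶜ ε)⁻¹ :=
    k1.trans (mul_le_mul_comm
      (rq_mono _ _ ((mul_le_mul_of_nonneg_left (dim_le _) hε'.le).trans h4))
      pF.inv.posSemidef (commute_inv pF (rq_supp.commute rq_supp dP)) (commute_inv pF cP))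
  have hη := eta_nonneg (χ := χ) h1 h2 h3
  have hy : (dim d y : ℝ) ≤ Real.exp l := (Real.log_le_iff_le_exp (dim_pos_real _)).1 h6
  have k3 := close (posDef_mul_inv pt pY cY) k2 hχ (m := 2 * dim d y)
    (e := eta χ P y Y + 2 * ε * dim d univ) (σ := 1 / (32 * l)) 
    (by linarith [(Nat.one_le_cast (α := ℝ)).2 (dim_pos (d := d) y)])
    (mom h1 hχ hε hε (hP1.trans h5))
    (by rw [inv_mul_inv _ pY]; exact mom h3.symm hχ hδ0 hε' (hδ1.trans h5))
    (by
      have a1 := (qf_lg_rq χ P hε).2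
      have a2 := (qf_lg_rq χ Y hδ0).2
      have a3 := (qf_lg_rq χ (P ∪ y) hε).1
      have a4 := (qf_lg_rq χ (Y ∪ y) hε').1
      rw [qf, lg, fr, ap_fc_rq_compl] at a3 a4
      rw [lg_mul_inv pP pF cP, lg_mul_inv pt pY cY, qf_sub, qf_sub, eta]
      simp only [qf] at a1 a2 ⊢
      linarith)
    (by positivity) (by positivity)
    (by rw [mul_one_div, div_le_one (by positivity)]; linarith)
    (by
      have a1 : 2 * (dim d y : ℝ) ≤ Real.exp (2 * l) := by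
        rw [two_mul l, Real.exp_add]
        exact mul_le_mul (by linarith [Real.add_one_le_exp l]) hy (Nat.cast_nonneg _)
          (Real.exp_pos _).le
      refine (Real.rpow_le_rpow (by positivity) a1 (by positivity)).trans ?_
      rw [← Real.exp_mul, show 2 * l * (4 * (1 / (32 * l))) = 1 / 4 by field_simp; norm_num]
      have := Real.exp_one_lt_d9
      have a2 : Real.exp (1 / 4) ^ 4 = Real.exp 1 := by rw [← Real.exp_nat_mul]; norm_num
      refine (pow_le_pow_iff_left₀ (Real.exp_pos _).le zero_le_two four_ne_zero).1 ?_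
      rw [a2]; linarith) ht
  have hYs : Y ⊆ (P ∪ y)ᶜ := by rw [← e2']; exact subset_union_right
  have su : Supp (P ∪ y)ᶜ (cpw (rq χ (P ∪ y)ᶜ ε) (-(t * I)) * cpw (rq χ Y δ) (t * I)) :=
    (supp_cpw rq_supp pF.1 _).mul ((supp_cpw rq_supp pY.1 _).mono hYs)
  refine ⟨_, su, ?_, le_of_eq_of_le ?_ k3⟩
  · rw [conjTranspose_mul, Matrix.mul_assoc, ← Matrix.mul_assoc _ (cpw _ _),
      cpw_unitary _ (by simp), Matrix.one_mul, cpw_unitary _ (by simp)]
  · rw [cpw_mul_inv pP pF cP, cpw_mul_inv pt pY cY, neg_neg, (commute_cpw_cpw pt.1 pY.1 cY _ _).eq,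
      ap_mul (cpw (rq χ P ε) _), ap_cpw_rq_compl, ← ap_mul, ← ap_mul,
      (su.commute (supp_cpw rq_supp pP.1 _) dP.symm).eq]
    simp only [Matrix.mul_assoc]

end Crest.Agent.N336.Eng.K
end

-- ▼ part N336/Eng/K
section

/-!
# Row 336, engine: lemma (K) (helper66)
-/

set_option autoImplicit false
set_option linter.unusedSectionVars false

open Matrix Finset Complex
open scoped ComplexOrder MatrixOrder Matrix.Norms.L2Operator InnerProductSpace ComplexConjugate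

namespace Crest.Agent.N336.Eng

open Crest.Agent.N336.Q

namespace K

section
variable {n : Type} [Fintype n] [DecidableEq n]

/-- the symbol at a complex parameter -/
noncomputable def sy (R S h : Matrix n n ℂ) (χ : Vec n) (z : ℂ) : ℂ :=
  ⟪χ, ap (cpw R z * cpw S (-z) * h * cpw S z * cpw R (-z)) χ⟫_ℂ

variable {R S h : Matrix n n ℂ} {χ : Vec n}

lemma sb_sy : SB (sy R S h χ) :=
  ((((((SB.cpw R).mul (SB.cpw_neg S)).mul_const h).mul (SB.cpw S)).mul
    (SB.cpw_neg R)).ap_const χ).inner χ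

lemma sy_zero : sy R S h χ 0 = ⟪χ, ap h χ⟫_ℂ := by simp [sy]

lemma sy_im {z : ℂ} (hz : z.re = 0) : sy R S h χ z =
    ⟪ap (cpw S z * cpw R (-z)) χ, ap h (ap (cpw S z * cpw R (-z)) χ)⟫_ℂ := by
  have : conj z = -z := by apply Complex.ext <;> simp [hz]
  rw [inner_ap_left, ← ap_mul, ← ap_mul, conjTranspose_mul, cpw_conjTranspose, cpw_conjTranspose,
    map_neg, this, neg_neg, sy]
  simp only [Matrix.mul_assoc]

lemma norm_im {z : ℂ} (hz : z.re = 0) : ‖ap (cpw S z * cpw R (-z)) χ‖ = ‖χ‖ := by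
  rw [ap_mul, norm_ap_cpw_im _ hz, norm_ap_cpw_im _ (by simpa using hz)]

lemma norm_sy_neg (hh : h.IsHermitian) (z : ℂ) : ‖sy R S h χ (-conj z)‖ = ‖sy R S h χ z‖ := by
  rw [sy, sy, norm_inner_symm, inner_ap_left]
  simp only [conjTranspose_mul, cpw_conjTranspose, hh.eq, map_neg, conj_conj, neg_neg,
    Matrix.mul_assoc]

end

variable {ι : Type} [Fintype ι] [DecidableEq ι] {d : ι → Type} [∀ x, Fintype (d x)]
  [∀ x, DecidableEq (d x)] [∀ x, Nonempty (d x)] {χ : Vec (Cfg d)} {P Z B : Finset ι}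
  {ε ε' : ℝ}

/-- the symbol on the line `Re = 1/2` -/
lemma sy_half (hd : Disjoint P Z) (hB : B ⊆ P ∪ Z) {h : Q.Op d} (hh : Supp B h) (hχ : ‖χ‖ = 1)
    (hε : 0 < ε) (hε' : 0 < ε') (h1 : ε * dim d P ≤ 1) (h2 : ε' * dim d Z ≤ 1) {z : ℂ}
    (hz : z.re = 1 / 2) : ‖sy (rq χ Z ε') (rq χ P ε) h χ z‖ ≤ dim d B ^ 2 * (‖h‖ * 2) := by
  obtain ⟨K, _, c, a, b, hK, hab, e⟩ := hh.decomp P
  have pP := rq_pd (χ := χ) (X := P) hε
  have pZ := rq_pd (χ := χ) (X := Z) hε'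
  have sP := fun w => supp_cpw (rq_supp (χ := χ) (X := P) (ε := ε)) pP.1 w
  have sZ := fun w => supp_cpw (rq_supp (χ := χ) (X := Z) (ε := ε')) pZ.1 w
  rw [sy]
  conv_lhs => rw [e]
  simp only [Matrix.mul_sum, Matrix.sum_mul, Matrix.mul_smul, Matrix.smul_mul, ap_sum, ap_smul,
    inner_sum, inner_smul_right]
  refine (norm_sum_le _ _).trans ((Finset.sum_le_card_nsmul _ _ (‖h‖ * 2) fun k _ => ?_).trans
    (by rw [card_univ, hK, nsmul_eq_mul]; push_cast; rfl))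
  obtain ⟨hc, ha, hb, ha1, hb1⟩ := hab k
  replace ha := ha.mono inter_subset_right
  replace hb : Supp Z (b k) := hb.mono fun x hx =>
    (mem_union.1 (hB (mem_sdiff.1 hx).1)).resolve_left (mem_sdiff.1 hx).2
  rw [norm_mul]
  refine mul_le_mul hc ?_ (norm_nonneg _) (norm_nonneg _)
  have k1 := conj_le ha.conjTranspose (by rwa [l2_opNorm_conjTranspose]) hχ hε h1
    (w := conj z) (by simpa using hz)
  have k2 := conj_le hb hb1 hχ hε' h2 hz
  have k3 : cpw (rq χ Z ε') z * cpw (rq χ P ε) (-z) * (a k * b k) * cpw (rq χ P ε) z *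
      cpw (rq χ Z ε') (-z) = (cpw (rq χ P ε) (conj z) * (a k)ᴴ * cpw (rq χ P ε) (-conj z))ᴴ *
        (cpw (rq χ Z ε') z * b k * cpw (rq χ Z ε') (-z)) := by
    simp only [conjTranspose_mul, cpw_conjTranspose, map_neg, conj_conj,
      conjTranspose_conjTranspose]
    rw [← Matrix.mul_assoc (_ * (a k * _)), ← Matrix.mul_assoc (_ * (a k * _)),
      (((sP _).mul (ha.mul (sP _))).commute (sZ z) hd).eq]
    simp only [Matrix.mul_assoc]
    rw [← Matrix.mul_assoc (b k), ← ((sP _).commute hb hd).eq, Matrix.mul_assoc]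
  rw [k3, ap_mul, ← inner_ap_left]
  refine (norm_inner_le_norm (𝕜 := ℂ) _ _).trans ?_
  nlinarith [sq_nonneg (‖ap (cpw (rq χ P ε) (conj z) * (a k)ᴴ * cpw (rq χ P ε) (-conj z)) χ‖ -
    ‖ap (cpw (rq χ Z ε') z * b k * cpw (rq χ Z ε') (-z)) χ‖)]

end K

open K in
/-- lemma (K) -/
theorem kk : KStmt := by
  refine ⟨16, 65536, by norm_num, by norm_num, ?_⟩
  intro ι _ _ d _ _ _ P y Y B h χ J l s ε ε' h1 h2 h3 _ hB hh hp hJ hl hlB hs hCs hχ hε' h4 h5
  have hD := dim_pos_real (d := d) univ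
  have hε : 0 < ε := (mul_pos hε' hD).trans_le h4
  have hη := eta_nonneg (χ := χ) h1 h2 h3
  have hyl : Real.log (dim d y) ≤ l := by
    refine le_trans (Real.log_le_log (dim_pos_real _) ?_) hlB
    rw [← union_sdiff_of_subset ‹y ⊆ B›, dim_union disjoint_sdiff, Nat.cast_mul]
    exact le_mul_of_one_le_right (Nat.cast_nonneg _) (by exact_mod_cast dim_pos _)
  set e := eta χ P y Y + 2 * ε * dim d univ with he
  have he0 : 0 < e := by positivity
  rcases ((norm_nonneg _).trans hJ).eq_or_lt with rfl | hJ0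
  · obtain rfl := norm_le_zero_iff.1 hJ
    simp [sym, qf]
  have pP := rq_pd (χ := χ) (X := P) hε
  have pZ := rq_pd (χ := χ) (X := Y ∪ y) hε'
  have hq : ((qf χ h : ℝ) : ℂ) = sy (rq χ (Y ∪ y) ε') (rq χ P ε) h χ 0 := by
    rw [sy_zero]
    apply Complex.ext <;> simp [im_inner_ap hp.1]
  have hsy : sym χ P (Y ∪ y) s ε ε' h = sy (rq χ (Y ∪ y) ε') (rq χ P ε) h χ s := by
    rw [sym, sy, ← ofReal_neg, cpw_ofReal pP, cpw_ofReal pP, cpw_ofReal pZ, cpw_ofReal pZ]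
  have him : ∀ z : ℂ, z.re = 0 → ‖sy (rq χ (Y ∪ y) ε') (rq χ P ε) h χ z‖ ≤ J := fun z hz => by
    rw [sy_im hz]
    refine (norm_inner_ap_le _ _ _).trans ?_
    rwa [norm_im hz, hχ, mul_one, mul_one]
  have hl16 : l ^ 2 ≤ l ^ 16 := pow_le_pow_right₀ hl (by norm_num)
  have hstrip : ∀ z : ℂ, 0 ≤ z.re → z.re ≤ 3 * (1 / (32 * l)) →
      ‖sy (rq χ (Y ∪ y) ε') (rq χ P ε) h χ z‖ ≤ 2 * J := fun z ha hb => by
    rw [mul_one_div, le_div_iff₀ (by positivity)] at hb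
    refine (three_exp sb_sy (a := 0) (b := 1 / 2) (m₀ := Real.log J) (m₁ := Real.log J + 3 * l)
      one_half_pos ha (by nlinarith) (fun w hw => by rw [Real.exp_log hJ0]; exact him w hw)
      fun w hw => ?_).trans ?_
    · refine (sy_half (disjoint_union_right.2 ⟨h2, h1⟩)
        (hB.trans (union_subset_union_right subset_union_right)) hh hχ hε hε'
        ((mul_le_mul_of_nonneg_left (dim_le _) hε.le).trans h5)
        ((mul_le_mul_of_nonneg_left (dim_le _) hε'.le).trans (h4.trans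
          ((le_mul_of_one_le_right hε.le (by exact_mod_cast dim_pos _)).trans h5))) hw).trans ?_
      have a1 : (dim d B : ℝ) ≤ Real.exp l := (Real.log_le_iff_le_exp (dim_pos_real _)).1 hlB
      have a2 : 2 ≤ Real.exp l := by linarith [Real.add_one_le_exp l]
      rw [Real.exp_add, Real.exp_log hJ0, show 3 * l = (3 : ℕ) * l by norm_num, Real.exp_nat_mul]
      calc _ ≤ Real.exp l ^ 2 * (J * Real.exp l) := by gcongr
        _ = _ := by ring
    · rw [← Real.exp_log (show 0 < 2 * J by positivity), Real.exp_le_exp,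
        Real.log_mul two_ne_zero hJ0.ne', sub_zero, sub_zero, div_div_eq_mul_div, div_one]
      nlinarith [Real.log_two_gt_d9]
  have key := fin (sb_sy (R := rq χ (Y ∪ y) ε') (S := rq χ P ε) (h := h) (χ := χ)).diff hJ0 he0
    (σ := 1 / (32 * l)) (him 0 rfl)
    (fun t => by
      rw [sy_im (by simp)]
      exact ⟨im_inner_ap hp.1 _, re_inner_ap_nonneg hp _⟩)
    (fun t ht => by
      obtain ⟨u, su, hu, hle⟩ := flow h1 h2 h3 hχ hε' h4 h5 hl hyl ht
      have hc : Commute h u := hh.commute su (disjoint_compl_right.mono_left hB)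
      have a1 : ∀ v : Vec (Cfg d), ⟪v, ap h v⟫_ℂ = ⟪ap u v, ap h (ap u v)⟫_ℂ := fun v => by
        rw [inner_ap_left, ← ap_mul, ← ap_mul, Matrix.mul_assoc, hc.eq, ← Matrix.mul_assoc, hu,
          Matrix.one_mul]
      rw [sy_im (by simp), sy_zero, a1]
      refine (norm_inner_sub_le hχ
        (by rw [norm_ap_unitary hu, norm_im (by simp), hχ])).trans ?_
      calc _ ≤ 2 * J * (5 / 2 * e ^ (1 / 8 : ℝ)) := by gcongr
        _ = _ := by ring)
    (fun z hz => by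
      rcases le_total 0 z.re with a | a
      · exact hstrip z a (le_of_abs_le hz)
      · rw [← norm_sy_neg hp.1]
        exact hstrip _ (by simpa using a) (by simpa using neg_le_of_abs_le hz |> neg_le.1))
    (s := s) (by
      rw [abs_of_pos hs, lt_div_iff₀ (by positivity)]
      nlinarith [mul_pos hs (zero_lt_one.trans_le hl), mul_le_mul_of_nonneg_left
        (le_self_pow₀ hl (show 16 ≠ 0 by norm_num)) hs.le])
  rw [← hq, ← hsy, ofReal_re] at key
  refine key.trans ?_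
  have a1 : 16 * (4 * J * e ^ (1 / 16 : ℝ)) / (1 / (32 * l)) ^ 2 * s ^ 2 ≤
      65536 * J * s ^ 2 * l ^ 16 * e ^ ((1 : ℝ) / (16 : ℕ)) := by
    rw [Nat.cast_ofNat]
    calc _ = 65536 * J * s ^ 2 * l ^ 2 * e ^ (1 / 16 : ℝ) := by field_simp; norm_num
      _ ≤ _ := by gcongr
  have a2 : 0 ≤ qf χ h := re_inner_ap_nonneg hp χ
  gcongr

end Crest.Agent.N336.Eng
end

-- ▼ part N336/Eng/G1
section

/-!
# Row 336, CORE, gain lemma, part 1: pure states and the Rényi estimate (helper96)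

* `flip` : functions of complementary marginals act in the same way on the state
* `half` : the bound on the line `Re z = 1/2`
* `rl` : `‖σ^z r^{-z} ξ‖ ≤ exp (-Re z · H(y|P) + C (Re z)² l²)`
-/

set_option autoImplicit false
set_option linter.unusedSectionVars false

open Matrix Finset
open scoped ComplexOrder MatrixOrder Matrix.Norms.L2Operator InnerProductSpace

namespace Crest.Agent.N336.Eng.G

open Crest.Agent.N336.Q

variable {ι κ : Type} [Fintype ι] [DecidableEq ι] [Fintype κ] [DecidableEq κ] {d : ι → Type}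
  [∀ x, Fintype (d x)] [∀ x, DecidableEq (d x)] [∀ x, Nonempty (d x)]

lemma vm_ap_emb (e : κ ↪ ι) (m : Q.Op (sub e d)) (ψ : Vec (Cfg d)) :
    vm e (ap (emb e m) ψ) = m * vm e ψ := by
  ext a c
  simp only [vm, of_apply, ap_apply, mul_apply]
  rw [← Equiv.sum_comp (eqv e d).symm, Fintype.sum_prod_type]
  simp [emb_def, one_apply]

lemma vm_ap_cs (e : κ ↪ ι) (m : Matrix (Rest (rg e) d) (Rest (rg e) d) ℂ) (ψ : Vec (Cfg d)) :
    vm e (ap (emb (cs e) m) ψ) = vm e ψ * mᵀ := by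
  have h := emb_cs e m
  ext a c
  simp only [vm, of_apply, ap_apply, mul_apply]
  rw [← Equiv.sum_comp (eqv e d).symm, Fintype.sum_prod_type, Finset.sum_comm, h]
  simp [one_apply, mul_comm]

lemma vm_inj (e : κ ↪ ι) {ψ φ : Vec (Cfg d)} (h : vm e ψ = vm e φ) : ψ = φ := by
  ext σ
  have := congrFun (congrFun h (eqv e d σ).1) (eqv e d σ).2
  simpa only [vm, of_apply, Prod.mk.eta, Equiv.symm_apply_apply] using this

lemma ap_mg_compl (X : Finset ι) (χ : Vec (Cfg d)) :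
    ap (mg X (pj χ)) χ = ap (mg Xᶜ (pj χ)) χ := by
  have h1 := emb_red_eq_mg (cs (sb X)) (pj χ)
  have h0 : rg (cs (sb X)) = Xᶜ := by rw [rg_cs, rg_sb]
  rw [h0] at h1
  refine vm_inj (sb X) ?_
  rw [← h1, mg, vm_ap_emb, red_kb]
  refine Eq.trans ?_ (vm_ap_cs (sb X) (red (cs (sb X)) (pj χ)) χ).symm
  have h2 := red_cs_kb (sb X) χ χ
  refine Eq.trans ?_ (congrArg (fun M => vm (sb X) χ * Mᵀ) h2.symm)
  rw [transpose_transpose, Matrix.mul_assoc]

theorem flip (f : ℝ → ℂ) (X : Finset ι) (χ : Vec (Cfg d)) :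
    ap (fc f (mg X (pj χ))) χ = ap (fc f (mg Xᶜ (pj χ))) χ := by
  obtain ⟨p, h1, h2⟩ := exists_poly₂ f (mg_isHermitian X (pj_isHermitian χ))
    (mg_isHermitian Xᶜ (pj_isHermitian χ))
  rw [h1, h2]
  clear h1 h2
  have hc : Commute (mg X (pj χ)) (mg Xᶜ (pj χ)) :=
    (supp_mg _ _).commute (supp_mg _ _) disjoint_compl_right
  have hk : ∀ k : ℕ, ap (mg X (pj χ) ^ k) χ = ap (mg Xᶜ (pj χ) ^ k) χ := by
    intro k
    induction k with
    | zero => simp
    | succ k ih =>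
      rw [pow_succ, ap_mul, ap_mg_compl, ← ap_mul, (hc.pow_left k).eq, ap_mul, ih, ← ap_mul,
        ← pow_succ']
  induction p using Polynomial.induction_on' with
  | add p q hp hq => simp only [map_add, _root_.add_apply, hp, hq]
  | monomial k a =>
    simp only [Polynomial.aeval_monomial, Algebra.algebraMap_eq_smul_one, smul_mul_assoc, one_mul,
      ap_smul, hk]

lemma fc_rq (f : ℝ → ℂ) (χ : Vec (Cfg d)) (X : Finset ι) (ε : ℝ) :
    fc f (rq χ X ε) = fc (fun x => f (x + ε)) (mg X (pj χ)) :=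
  fc_add_smul_one (mg_isHermitian X (pj_isHermitian χ)) f ε

lemma flip_cpw (χ : Vec (Cfg d)) (X : Finset ι) (ε : ℝ) (z : ℂ) :
    ap (cpw (rq χ X ε) z) χ = ap (cpw (rq χ Xᶜ ε) z) χ := by
  rw [cpw, cpw, fc_rq, fc_rq, flip]

lemma smul_one_posDef {n : Type} [Fintype n] [DecidableEq n] {ε : ℝ} (h : 0 < ε) :
    (ε • (1 : Matrix n n ℂ)).PosDef := PosDef.one.smul h

lemma rq_posDef (χ : Vec (Cfg d)) (X : Finset ι) {ε : ℝ} (h : 0 < ε) : (rq χ X ε).PosDef :=
  PosDef.posSemidef_add (mg_posSemidef X (pj_posSemidef χ)) (smul_one_posDef h)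

lemma mg_le_rq (χ : Vec (Cfg d)) (X : Finset ι) {ε : ℝ} (h : 0 < ε) :
    mg X (pj χ) ≤ rq χ X ε := by
  rw [Matrix.le_iff, rq, add_sub_cancel_left]
  exact (smul_one_posDef h).posSemidef

lemma supp_rq (χ : Vec (Cfg d)) (X : Finset ι) (ε : ℝ) : Supp X (rq χ X ε) := by
  rw [rq, ← Complex.coe_smul]
  exact (supp_mg _ _).add ((Supp.one X).smul _)

lemma trace_rq {χ : Vec (Cfg d)} (h : ‖χ‖ = 1) (X : Finset ι) (ε : ℝ) :
    (trace (rq χ X ε)).re = dim d Xᶜ + ε * dim d univ := by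
  rw [rq, trace_add, trace_mg, trace_pj, h, trace_smul, trace_one, card_cfg]
  simp

lemma mg_posDef (X : Finset ι) {ω : Q.Op d} (h : ω.PosDef) : (mg X ω).PosDef := by
  obtain ⟨i, hi⟩ := Finite.exists_min (ev ω)
  have h1 : ((ev ω i : ℝ) : ℂ) • (1 : Q.Op d) ≤ ω := by
    conv_rhs => rw [← fr_id h.1]
    rw [← fc_const]
    exact fr_le_fr (g := fun _ => ev ω i) hi
  have h2 := mg_mono X h1
  rw [mg_smul, (Supp.one X).mg_eq, smul_smul, ← Complex.ofReal_natCast, ← Complex.ofReal_mul,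
    Complex.coe_smul] at h2
  exact posDef_of_le (smul_one_posDef (mul_pos (ev_pos h i) (dim_pos_real _))) h2

lemma qf_lg_rq (χ : Vec (Cfg d)) (X : Finset ι) (ε : ℝ) : qf χ (lg (rq χ X ε)) =
    ∑ i, ev (red (sb X) (pj χ)) i * Real.log (ev (red (sb X) (pj χ)) i + ε) := by
  have hρ := red_isHermitian (sb X) (pj_isHermitian χ)
  rw [qf, ← trace_mul_kb, lg, fr, fc_rq, mg, ← emb_fc _ _ hρ, trace_emb_mul]
  conv_lhs => arg 1; arg 1; arg 2; rw [← fc_id hρ]
  rw [fc_mul, trace_fc, Complex.re_sum]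
  refine Finset.sum_congr rfl fun i _ => ?_
  rw [← Complex.ofReal_mul, Complex.ofReal_re, mul_comm]

lemma neg_SV_le (χ : Vec (Cfg d)) (X : Finset ι) {ε : ℝ} (h : 0 < ε) :
    -SV χ X ≤ qf χ (lg (rq χ X ε)) := by
  rw [qf_lg_rq, SV, ← Finset.sum_neg_distrib]
  refine Finset.sum_le_sum fun i _ => ?_
  have h0 := ev_nonneg (red_posSemidef (sb X) (pj_posSemidef χ)) i
  rw [Real.negMulLog, neg_mul, neg_neg]
  rcases h0.eq_or_lt with h1 | h1
  · rw [← h1]; simp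
  · exact mul_le_mul_of_nonneg_left (Real.log_le_log h1 (by linarith)) h0

lemma qf_lg_le (χ : Vec (Cfg d)) (X : Finset ι) {ε : ℝ} (h : 0 < ε) :
    qf χ (lg (rq χ X ε)) ≤ -SV χ X + ε * dim d X := by
  rw [qf_lg_rq, SV, ← Finset.sum_neg_distrib, ← card_sub_sb, ← card_univ, mul_comm ε,
    ← nsmul_eq_mul, ← Finset.sum_const, ← Finset.sum_add_distrib]
  refine Finset.sum_le_sum fun i _ => ?_
  have h0 := ev_nonneg (red_posSemidef (sb X) (pj_posSemidef χ)) i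
  set x := ev (red (sb X) (pj χ)) i
  rw [Real.negMulLog, neg_mul, neg_neg]
  rcases h0.eq_or_lt with h1 | h1
  · rw [← h1]; simp [h.le]
  · have h2 := Real.log_le_sub_one_of_pos (div_pos (by linarith : 0 < x + ε) h1)
    rw [Real.log_div (by linarith) h1.ne'] at h2
    have h3 : x * ((x + ε) / x - 1) = ε := by field_simp; ring
    nlinarith

/-- the bound on the line `Re z = 1/2` -/
theorem half {X : Finset ι} {A U : Q.Op d} (hA : A.PosSemidef) (sA : Supp Xᶜ A) (sU : Supp Xᶜ U)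
    (hU : U * Uᴴ = 1) (ξ : Vec (Cfg d)) {ε : ℝ} (hε : 0 < ε) {z : ℂ} (hz : z.re = -(1 / 2)) :
    dim d X * qf (ap U (ap (cpw (rq ξ X ε) z) ξ)) A ≤ (trace A).re := by
  have hr := rq_posDef ξ Xᶜ hε
  have sW : Supp Xᶜ (U * cpw (rq ξ Xᶜ ε) z) := sU.mul (supp_cpw (supp_rq _ _ _) hr.1 _)
  have h1 : U * cpw (rq ξ Xᶜ ε) z * mg Xᶜ (pj ξ) * (U * cpw (rq ξ Xᶜ ε) z)ᴴ ≤ 1 := by
    have h2 := conj_mono (mg_le_rq ξ Xᶜ hε) (U * cpw (rq ξ Xᶜ ε) z)ᴴ
    rw [conjTranspose_conjTranspose] at h2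
    refine h2.trans (le_of_eq ?_)
    conv_lhs => arg 1; arg 2; rw [← cpw_one hr]
    rw [conjTranspose_mul, cpw_conjTranspose, Matrix.mul_assoc U, cpw_mul_cpw, Matrix.mul_assoc,
      ← Matrix.mul_assoc (cpw _ _), cpw_mul_cpw, add_right_comm, Complex.add_conj, hz]
    norm_num [hU]
  have h3 := re_trace_mul_mono h1 hA
  rw [← sW.mg_mul, ← sW.conjTranspose.mg_mul', ← pj_ap, trace_mul_comm, sA.trace_mul_mg,
    compl_compl, Matrix.one_mul, trace_mul_kb, ap_mul, ← flip_cpw, ← Complex.ofReal_natCast,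
    Complex.re_ofReal_mul] at h3
  exact h3

lemma qf_mul_inv {n : Type} [Fintype n] [DecidableEq n] {A B : Matrix n n ℂ} (hB : B.PosDef)
    (h : Commute A B) (v : Vec n) : qf v (A * B⁻¹) = qf (ap (cpw B (-(1 / 2))) v) A := by
  rw [qf, qf, inner_ap_left, ← ap_mul, ← ap_mul, cpw_conjTranspose,
    (commute_cpw_left hB.1 h.symm _).eq, Matrix.mul_assoc, cpw_mul_cpw, ← cpw_neg_one hB]
  congr 6
  simp only [map_neg, map_div₀, map_one, map_ofNat]
  norm_num

lemma qf_rq_le {A B y : Finset ι} (hd : Disjoint A B) (hy : dim d Aᶜ = dim d B * dim d y)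
    {ξ : Vec (Cfg d)} (hξ : ‖ξ‖ = 1) {l a b : ℝ} (hl : Real.log (dim d y) ≤ l) (ha : 0 < a)
    (hb : 0 < b) (ha1 : a * dim d univ ≤ 1) :
    qf ξ (rq ξ A a * (rq ξ B b)⁻¹) ≤ Real.exp (l + 1) := by
  have hc : Commute (rq ξ A a) (rq ξ B b) := (supp_rq _ _ _).commute (supp_rq _ _ _) hd
  have h1 := half (X := B) (U := 1) (rq_posDef ξ A ha).posSemidef
    ((supp_rq _ _ _).mono (le_compl_iff_disjoint_right.2 hd)) (Supp.one _) (by simp) ξ hb
    (z := -(1 / 2)) (by simp)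
  rw [ap_one, ← qf_mul_inv (rq_posDef ξ B hb) hc, trace_rq hξ, hy, Nat.cast_mul] at h1
  have h2 : (1 : ℝ) ≤ dim d B := by exact_mod_cast dim_pos B
  have h3 : (1 : ℝ) ≤ dim d y := by exact_mod_cast dim_pos y
  have h4 : (dim d y : ℝ) ≤ Real.exp l := by
    rw [← Real.log_le_iff_le_exp (by linarith)]; exact hl
  have h5 := Real.add_one_le_exp 1
  have h6 := Real.exp_pos l
  rw [Real.exp_add]
  refine le_of_mul_le_mul_left (h1.trans ?_) (by linarith : (0 : ℝ) < dim d B)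
  have h7 : (dim d y : ℝ) * 2 ≤ Real.exp l * Real.exp 1 := by gcongr; linarith
  have h8 : (dim d B : ℝ) * (dim d y * 2) ≤ dim d B * (Real.exp l * Real.exp 1) := by gcongr
  nlinarith

lemma mom_rq {P y : Finset ι} (hd : Disjoint P y) {ξ : Vec (Cfg d)} (hξ : ‖ξ‖ = 1) {l a b : ℝ}
    (h1 : 1 ≤ l) (hl : Real.log (dim d y) ≤ l) (ha : 0 < a) (hb : 0 < b)
    (ha1 : a * dim d univ ≤ 1) (hb1 : b * dim d univ ≤ 1) :
    Mom (rq ξ P a * (rq ξ (P ∪ y)ᶜ b)⁻¹) ξ (l + 1) := by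
  have hd' : Disjoint P (P ∪ y)ᶜ := disjoint_compl_right.mono_left subset_union_left
  have hc : Commute (rq ξ P a) (rq ξ (P ∪ y)ᶜ b) := (supp_rq _ _ _).commute (supp_rq _ _ _) hd'
  refine ⟨posDef_mul_inv (rq_posDef _ _ ha) (rq_posDef _ _ hb) hc, hξ, by linarith, ?_, ?_⟩
  · refine qf_rq_le hd' ?_ hξ hl ha hb ha1
    rw [← dim_union (disjoint_compl_left.mono_right subset_union_right)]
    congr 1
    ext x
    have : x ∈ y → x ∉ P := fun h => Finset.disjoint_right.1 hd h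
    simp; tauto
  · rw [inv_mul_inv _ (rq_posDef _ _ hb)]
    exact qf_rq_le hd'.symm (by rw [compl_compl, dim_union hd]) hξ hl hb ha hb1

lemma norm_half_le {X : Finset ι} {ω U : Q.Op d} (hω : ω.PosDef) (htr : ω.trace = 1)
    (sU : Supp X U) (hU : U * Uᴴ = 1) (ξ : Vec (Cfg d)) {ε : ℝ} (hε : 0 < ε) {w z : ℂ}
    (hw : w.re = 1 / 2) (hz : z.re = -(1 / 2)) :
    ‖ap (cpw (mg X ω) w) (ap U (ap (cpw (rq ξ Xᶜ ε) z) ξ))‖ ≤ 1 := by
  have hσ := mg_posDef X hω
  have h1 := half (X := Xᶜ) (U := U) hσ.posSemidef (by rw [compl_compl]; exact supp_mg _ _)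
    (by rwa [compl_compl]) hU ξ hε hz
  rw [trace_mg, htr, mul_one, Complex.natCast_re] at h1
  rw [← sq_le_one_iff₀ (norm_nonneg _), norm_ap_cpw_sq hσ, hw, show 2 * (1 / 2 : ℝ) = 1 by norm_num,
    pw_one hσ.1]
  exact (mul_le_iff_le_one_right (dim_pos_real _)).1 h1

/-- the Rényi estimate -/
theorem rl {P y : Finset ι} (hd : Disjoint P y) {ω : Q.Op d} (hω : ω.PosDef) (htr : ω.trace = 1)
    {ξ : Vec (Cfg d)} (hξ : ‖ξ‖ = 1) {l ε : ℝ} (h1 : 1 ≤ l) (hl : Real.log (dim d y) ≤ l)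
    (hε : 0 < ε) (hε1 : ε * dim d univ ≤ 1) {z : ℂ} (h0 : 0 < z.re)
    (hz : 16 * z.re * (l + 1) ≤ 1) :
    ‖ap (cpw (mg (P ∪ y) ω) z * cpw (rq ξ P ε) (-z)) ξ‖ ≤
      Real.exp (-(z.re * (SV ξ (P ∪ y) - SV ξ P)) + 60 * z.re ^ 2 * (l + 1) ^ 2) := by
  set g := z.re with hg
  have hD := dim_pos_real (d := d) univ
  have hg1 : g ≤ 1 / 32 := by nlinarith
  set b := g / dim d univ with hb
  have hb0 : 0 < b := div_pos h0 hD
  have hb1 : b * dim d univ = g := div_mul_cancel₀ _ hD.ne'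
  have hM := mom_rq hd hξ h1 hl hε hb0 hε1 (by linarith)
  set r := rq ξ P ε with hr
  set k := rq ξ (P ∪ y)ᶜ b with hk
  set σ := mg (P ∪ y) ω with hσ
  have pr : r.PosDef := rq_posDef _ _ hε
  have pk : k.PosDef := rq_posDef _ _ hb0
  have hc : Commute r k := (supp_rq _ _ _).commute (supp_rq _ _ _)
    (disjoint_compl_right.mono_left subset_union_left)
  set c := g / (1 - 2 * g) with hcd
  have hc1 : c * (1 - 2 * g) = g := div_mul_cancel₀ _ (by linarith)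
  have hc0 : 0 < c := div_pos h0 (by linarith)
  have hc2 : c ≤ 16 / 15 * g := by nlinarith
  let a : ℂ → ℂ := fun w => (2 * c : ℝ) * w + (-z - (2 * c : ℝ) * z)
  have ha : ∀ w, (a w).re = 2 * c * w.re - c := fun w => by
    simp only [a, Complex.add_re, Complex.sub_re, Complex.neg_re, Complex.re_ofReal_mul, ← hg]
    linarith
  have hF : SB fun w => ap (cpw σ w * cpw k (-w) * cpw (r * k⁻¹) (a w)) ξ :=
    (((SB.cpw σ).mul (SB.cpw_neg k)).mul (SB.cpw_affine _ _ _)).ap_const ξ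
  have he : ∀ w, cpw σ w * cpw k (-w) * cpw (r * k⁻¹) (a w) =
      cpw σ w * cpw r (a w) * cpw k (-w + -a w) := fun w => by
    rw [cpw_mul_inv pr pk hc, cpw_add k, Matrix.mul_assoc, Matrix.mul_assoc,
      ← Matrix.mul_assoc (cpw k _), ← (commute_cpw_cpw pr.1 pk.1 hc _ _).eq, Matrix.mul_assoc]
  have h3 := three_exp hF (a := 0) (b := 1 / 2) (z := z)
    (m₀ := -(c * qf ξ (lg (r * k⁻¹))) + 48 * c ^ 2 * (l + 1) ^ 2) (m₁ := 0) (by norm_num) h0.le
    (by linarith) (fun w hw => ?_) fun w hw => ?_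
  · have h4 : a z = -z := by simp only [a]; ring
    rw [he, h4, neg_neg, neg_add_cancel, cpw_zero, Matrix.mul_one] at h3
    refine h3.trans (Real.exp_le_exp.2 ?_)
    have h5 := neg_SV_le ξ P hε
    have h6 := qf_lg_le ξ (P ∪ y)ᶜ hb0
    have h7 : SV ξ (P ∪ y)ᶜ = SV ξ (P ∪ y) := SX_compl _ _
    have h8 : b * dim d (P ∪ y)ᶜ ≤ g := by
      rw [← hb1, ← dim_mul_compl (P ∪ y), Nat.cast_mul]
      have : (1 : ℝ) ≤ dim d (P ∪ y) := by exact_mod_cast dim_pos _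
      exact mul_le_mul_of_nonneg_left (le_mul_of_one_le_left (Nat.cast_nonneg _) this) hb0.le
    rw [lg_mul_inv pr pk hc, qf_sub, ← hg]
    rw [← hr] at h5
    rw [← hk, h7] at h6
    have e1 : (-(c * (qf ξ (lg r) - qf ξ (lg k))) + 48 * c ^ 2 * (l + 1) ^ 2) *
        (1 - (g - 0) / (1 / 2 - 0)) + 0 * ((g - 0) / (1 / 2 - 0)) =
        -(c * (1 - 2 * g) * (qf ξ (lg r) - qf ξ (lg k))) +
          48 * c * (c * (1 - 2 * g)) * (l + 1) ^ 2 := by ring
    rw [e1, hc1]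
    have h9 : 48 * c * g * (l + 1) ^ 2 ≤ 48 * (16 / 15 * g) * g * (l + 1) ^ 2 := by gcongr
    have h10 : g ^ 2 * 1 ≤ g ^ 2 * (l + 1) ^ 2 := by gcongr; nlinarith
    have h11 : g * (-(qf ξ (lg r) - qf ξ (lg k))) ≤ g * (-(SV ξ (P ∪ y) - SV ξ P) + g) :=
      mul_le_mul_of_nonneg_left (by linarith) h0.le
    nlinarith
  · rw [ap_mul, ap_mul, norm_ap_cpw_im _ hw, norm_ap_cpw_im _ (by simp [hw]),
      ← sq_le_sq₀ (norm_nonneg _) (Real.exp_pos _).le, norm_ap_cpw_sq hM.pd, ha, hw,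
      ← Real.exp_nat_mul]
    refine (hM.pw_le_exp ?_).trans (le_of_eq ?_)
    · rw [abs_of_nonpos (by linarith)]; nlinarith
    · congr 1; push_cast; ring
  · rw [he, ap_mul, ap_mul, Real.exp_zero]
    have h4 : (a w).re = 0 := by rw [ha, hw]; ring
    exact norm_half_le hω htr ((supp_cpw (supp_rq _ _ _) pr.1 _).mono subset_union_left)
      (cpw_unitary' _ h4) ξ hb0 hw (by simp [h4, hw])

end Crest.Agent.N336.Eng.G
end

-- ▼ part N336/Eng/G2
section

/-!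
# Row 336, CORE, gain lemma, part 2: the dichotomy for the buffer factor (helper96)
-/

set_option autoImplicit false
set_option linter.unusedSectionVars false

open Matrix Finset
open scoped ComplexOrder MatrixOrder Matrix.Norms.L2Operator InnerProductSpace Topology

namespace Crest.Agent.N336.Eng.G

open Crest.Agent.N336.Q

section an

variable {E : Type} [NormedAddCommGroup E] [NormedSpace ℂ E]

/-- division by `z` -/
lemma div_bound [CompleteSpace E] {u : ℂ → E} (hu : SB u) (h0 : u 0 = 0) {b M : ℝ} (hb : 0 < b)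
    (h1 : ∀ w : ℂ, w.re = 0 → ‖u w‖ ≤ M * ‖w‖) (h2 : ∀ w : ℂ, w.re = b → ‖u w‖ ≤ M * b) {z : ℂ}
    (hz0 : 0 ≤ z.re) (hz1 : z.re ≤ b) : ‖u z‖ ≤ M * ‖z‖ := by
  have hD := hu.dslope 0
  have hM : 0 ≤ M := by
    have := (norm_nonneg _).trans (h2 b (by simp))
    exact nonneg_of_mul_nonneg_left this hb
  have key : ∀ w, ‖u w‖ = ‖dslope u 0 w‖ * ‖w‖ := fun w => by
    have := sub_smul_dslope u 0 w
    rw [sub_zero, h0, sub_zero] at this
    rw [← this, norm_smul, mul_comm]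
  have k2 : ∀ w : ℂ, w ≠ 0 → ‖u w‖ ≤ M * ‖w‖ → ‖dslope u 0 w‖ ≤ M := fun w hw h => by
    rw [key] at h
    exact le_of_mul_le_mul_right h (norm_pos_iff.2 hw)
  rw [key]
  refine mul_le_mul_of_nonneg_right (three_max hD hb hz0 hz1 (fun w hw => ?_) fun w hw => ?_)
    (norm_nonneg _)
  · by_cases hw0 : w = 0
    · have hc : Continuous fun t : ℝ => ‖dslope u 0 (t * Complex.I)‖ :=
        (hD.diff.continuous.comp (by fun_prop)).norm
      have h3 := (hc.tendsto 0).mono_left (nhdsWithin_le_nhds (s := {0}ᶜ))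
      simp only [Complex.ofReal_zero, zero_mul] at h3
      rw [hw0]
      refine le_of_tendsto h3 (Filter.eventually_of_mem self_mem_nhdsWithin fun t ht => ?_)
      exact k2 _ (mul_ne_zero (Complex.ofReal_ne_zero.2 ht) Complex.I_ne_zero) (h1 _ (by simp))
    · exact k2 w hw0 (h1 w hw)
  · refine k2 w (by rintro rfl; simp at hw; linarith) ((h2 w hw).trans ?_)
    exact mul_le_mul_of_nonneg_left (hw ▸ Complex.re_le_norm w) hM

lemma fin_damp {F : ℂ → E} (hF : SB F) {A B lam : ℝ} (hl : 0 ≤ lam)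
    (h0 : ∀ w : ℂ, w.re = 0 → ‖F w‖ ≤ Real.exp (A + lam * w.im ^ 2))
    (h1 : ∀ w : ℂ, w.re = 1 → ‖F w‖ ≤ Real.exp (B + lam * w.im ^ 2)) :
    ‖F ((1 / 2 : ℝ) : ℂ)‖ ^ 2 ≤ Real.exp (A + B + lam / 2) := by
  have key : ∀ (C : ℝ) (w : ℂ), ‖F w‖ ≤ Real.exp (C + lam * w.im ^ 2) →
      ‖F w‖ * Real.exp (-(lam * (w.im - ((1 / 2 : ℝ) : ℂ).im) ^ 2)) ≤ Real.exp C := by
    intro C w h
    refine (mul_le_mul_of_nonneg_right h (Real.exp_pos _).le).trans (le_of_eq ?_)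
    rw [← Real.exp_add, Complex.ofReal_im, sub_zero, add_neg_cancel_right]
  have h := three_damp hF (a := 0) (b := 1) (z := ((1 / 2 : ℝ) : ℂ)) zero_lt_one hl
    (by norm_num) (by norm_num) (fun w hw => key A w (h0 w hw)) fun w hw => key B w (h1 w hw)
  rw [← Real.exp_mul, ← Real.exp_mul, ← Real.exp_add, ← Real.exp_add, Complex.ofReal_re] at h
  refine (pow_le_pow_left₀ (norm_nonneg _) h 2).trans (le_of_eq ?_)
  rw [← Real.exp_nat_mul]
  congr 1; push_cast; ring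

lemma pt_bound {x θ T : ℝ} (hx : 0 < x) (h0 : 0 ≤ θ) (h1 : θ ≤ 1) (hT : 0 ≤ T) {z : ℂ}
    (hz : z.re = 0) (hi : 2 * |z.im| ≤ θ * T) :
    ‖Complex.exp (z * Real.log x) - 1‖ ^ 2 ≤
      (4 + T) + -(4 + T) * x ^ θ + ((4 + T) * θ + θ * T) * x := by
  have h2 : z * Real.log x = Complex.I * ((z.im * Real.log x : ℝ) : ℂ) := by
    apply Complex.ext <;> simp [hz]
  have h3 : ‖Complex.exp (z * Real.log x) - 1‖ ≤ |z.im| * |Real.log x| := by
    rw [h2, ← abs_mul]; exact Real.norm_exp_I_mul_ofReal_sub_one_le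
  have h4 : ‖Complex.exp (z * Real.log x) - 1‖ ≤ 2 := by
    refine (norm_sub_le _ _).trans ?_
    rw [h2, Complex.norm_exp_I_mul_ofReal, norm_one]; norm_num
  have h5 := norm_nonneg (Complex.exp (z * Real.log x) - 1)
  set a := ‖Complex.exp (z * Real.log x) - 1‖
  have h6 : a ^ 2 ≤ θ * T * |Real.log x| := by
    have := mul_le_mul_of_nonneg_right hi (abs_nonneg (Real.log x))
    nlinarith
  have h7 : a ^ 2 ≤ 4 := by nlinarith
  have h8 : 0 ≤ ((4 + T) * θ + θ * T) * x := by positivity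
  rcases le_total (Real.log x) 0 with h | h
  · rw [abs_of_nonpos h] at h6
    set u := -(Real.log x * θ) with hu
    have hu0 : 0 ≤ u := by nlinarith
    have h9 : x ^ θ * (1 + u) ≤ 1 := by
      have := Real.add_one_le_exp u
      rw [Real.rpow_def_of_pos hx]
      calc _ ≤ Real.exp (Real.log x * θ) * Real.exp u := by gcongr; linarith
        _ = 1 := by rw [← Real.exp_add, hu, add_neg_cancel, Real.exp_zero]
    have h10 : a ^ 2 * (1 + u) ≤ (4 + T) * (1 - x ^ θ) * (1 + u) := by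
      have : θ * T * -Real.log x = T * u := by rw [hu]; ring
      nlinarith
    have := le_of_mul_le_mul_right h10 (by linarith)
    linarith
  · rw [abs_of_nonneg h] at h6
    have h9 := rpow_one_add_le_one_add_mul_self (s := x - 1) (by linarith) h0 h1
    rw [add_sub_cancel] at h9
    have h10 := Real.log_le_sub_one_of_pos hx
    have h11 : θ * T * Real.log x ≤ θ * T * x := by gcongr; linarith
    nlinarith

end an

lemma cbound {n : Type} [Fintype n] [DecidableEq n] {D : Matrix n n ℂ} (hD : D.PosDef)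
    {v : Vec n} (hv : ‖v‖ = 1) (h : qf v D ≤ 1) {θ T : ℝ} (h0 : 0 ≤ θ) (h1 : θ ≤ 1) (hT : 0 ≤ T)
    {z : ℂ} (hz : z.re = 0) (hi : 2 * |z.im| ≤ θ * T) :
    ‖ap (cpw D z) v - v‖ ^ 2 ≤ (4 + T) * (1 - qf v (pw D θ) + 2 * θ) := by
  have e1 : ap (cpw D z) v - v = ap (fc (fun x => Complex.exp (z * Real.log x) - 1) D) v := by
    rw [← fc_sub, fc_one, ap_sub, ap_one, cpw]
  have h2 := qf_fr_le_lin (A := D) (g := fun x => ‖Complex.exp (z * Real.log x) - 1‖ ^ 2)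
    (k₁ := fun x => x ^ θ) (k₂ := fun x => x) (k₃ := fun x => x) (a := 4 + T) (b₁ := -(4 + T))
    (b₂ := (4 + T) * θ + θ * T) (b₃ := 0) hv fun i => by
      simpa using pt_bound (ev_pos hD i) h0 h1 hT hz hi
  rw [qf_fr, fr_id hD.1] at h2
  rw [e1, norm_ap_fc_sq]
  have h3 : ((4 + T) * θ + θ * T) * qf v D ≤ ((4 + T) * θ + θ * T) * 1 := by gcongr
  have h4 : 0 ≤ θ * 4 := by positivity
  refine h2.trans ?_
  simp only [pw]
  nlinarith

variable {ι : Type} [Fintype ι] [DecidableEq ι] {d : ι → Type}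
  [∀ x, Fintype (d x)] [∀ x, DecidableEq (d x)] [∀ x, Nonempty (d x)]

lemma abs_H_le {P y : Finset ι} (hd : Disjoint P y) {χ : Vec (Cfg d)} (hχ : ‖χ‖ = 1) {l : ℝ}
    (hl : Real.log (dim d y) ≤ l) : |SV χ (P ∪ y) - SV χ P| ≤ l := by
  rw [union_comm]
  exact (abs_cond_le_dim hd.symm (dens_pj hχ)).trans hl

lemma afw_vec {P y : Finset ι} (hd : Disjoint P y) {χ ξ : Vec (Cfg d)} (hχ : ‖χ‖ = 1)
    (hξ : ‖ξ‖ = 1) {l e : ℝ} (h1 : 1 ≤ l) (hl : Real.log (dim d y) ≤ l) (h0 : 0 ≤ e)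
    (he : ‖χ - ξ‖ ≤ e ^ 2) :
    (SV χ (P ∪ y) - SV χ P) - (SV ξ (P ∪ y) - SV ξ P) ≤ 6 * l * e := by
  rcases le_total e 1 with h | h
  · have h2 := afw_dim hd.symm (dens_pj hχ) (dens_pj hξ) (ε := e ^ 2) fun O _ _ hO =>
      (re_inner_sub_le hχ.le hξ.le hO).trans (by linarith)
    have h3 := bin_le (sq_nonneg e) (by nlinarith)
    rw [Real.sqrt_sq h0] at h3
    rw [union_comm] at h2
    have h4 : 2 * e ^ 2 * Real.log (dim d y) ≤ 2 * e ^ 2 * l := by gcongr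
    have h5 : e ^ 2 * l ≤ e * l := by gcongr; nlinarith
    refine le_trans h2 ?_
    nlinarith
  · have h2 := abs_le.1 (abs_H_le hd hχ hl)
    have h3 := abs_le.1 (abs_H_le hd hξ hl)
    nlinarith

theorem ulem {Y y : Finset ι} (hd : Disjoint Y y) {ω : Q.Op d} (hω : ω.PosDef)
    (htr : ω.trace = 1) {χ : Vec (Cfg d)} (hχ : ‖χ‖ = 1) {l ε : ℝ} (h1 : 1 ≤ l)
    (hl : Real.log (dim d y) ≤ l) (hε : 0 < ε) (hε1 : ε * dim d univ ≤ 1) :
    ∃ D : Q.Op d, D.PosDef ∧ qf χ D ≤ 1 ∧ ∀ z : ℂ, 0 ≤ z.re → 16 * z.re * (l + 1) ≤ 1 →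
      ‖ap (cpw (mg (Y ∪ y) ω) z * cpw (rq χ Y ε) (-z)) χ - ap (cpw D z) χ‖ ≤
        64 * (l + 1) * ‖z‖ := by
  have hM := mom_rq hd hχ h1 hl hε hε hε1 hε1
  set r := rq χ Y ε with hr
  set k := rq χ (Y ∪ y)ᶜ ε with hk
  set σ := mg (Y ∪ y) ω with hσ
  have pr : r.PosDef := rq_posDef _ _ hε
  have pk : k.PosDef := rq_posDef _ _ hε
  have pσ : σ.PosDef := mg_posDef _ hω
  have hc : Commute r k := (supp_rq _ _ _).commute (supp_rq _ _ _)
    (disjoint_compl_right.mono_left subset_union_left)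
  have hc' : Commute σ k := (supp_mg _ _).commute (supp_rq _ _ _) disjoint_compl_right
  have pD := posDef_mul_inv pσ pk hc'
  have hq : qf χ (σ * k⁻¹) ≤ 1 := by
    have h2 := norm_half_le (X := Y ∪ y) (U := 1) hω htr (Supp.one _) (by simp) χ hε
      (w := ((1 / 2 : ℝ) : ℂ)) (z := -(1 / 2)) (by simp) (by simp)
    rw [← sq_le_one_iff₀ (norm_nonneg _), norm_ap_cpw_sq pσ, ap_one, Complex.ofReal_re,
      show 2 * (1 / 2 : ℝ) = 1 by norm_num, pw_one pσ.1] at h2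
    rwa [qf_mul_inv pk hc']
  refine ⟨σ * k⁻¹, pD, hq, fun z hz0 hz1 => ?_⟩
  have hm : 0 < l + 1 := by linarith
  refine div_bound (u := fun z => ap (cpw σ z * cpw r (-z)) χ - ap (cpw (σ * k⁻¹) z) χ)
    ((((SB.cpw σ).mul (SB.cpw_neg r)).ap_const χ).sub ((SB.cpw _).ap_const χ)) (by simp)
    (b := 1 / (16 * (l + 1))) (by positivity) (fun w hw => ?_) (fun w hw => ?_) hz0 ?_
  · have h2 := hM.norm_cpw_sub_le (z := -w) (by simp [hw])
    have e : ap (cpw σ w * cpw r (-w)) χ - ap (cpw (σ * k⁻¹) w) χ =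
        ap (cpw σ w) (ap (cpw k (-w)) (ap (cpw (r * k⁻¹) (-w)) χ - χ)) := by
      rw [map_sub, map_sub, cpw_mul_inv pσ pk hc', cpw_mul_inv pr pk hc, ← ap_mul (cpw k _),
        (commute_cpw_cpw pr.1 pk.1 hc _ _).eq, ← Matrix.mul_assoc, cpw_mul_neg, Matrix.one_mul,
        ap_mul, ap_mul]
    rw [e, norm_ap_cpw_im _ hw, norm_ap_cpw_im _ (by simp [hw])]
    rw [norm_neg] at h2
    refine h2.trans ?_
    gcongr; norm_num
  · have hb : 16 * w.re * (l + 1) = 1 := by rw [hw]; field_simp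
    have hw0 : 0 < w.re := by rw [hw]; positivity
    have h2 := rl hd hω htr hχ h1 hl hε hε1 hw0 hb.le
    have h3 := abs_le.1 (abs_H_le hd hχ hl)
    have h4 : -(w.re * (SV χ (Y ∪ y) - SV χ Y)) + 60 * w.re ^ 2 * (l + 1) ^ 2 ≤ 1 := by
      have e : 60 * w.re ^ 2 * (l + 1) ^ 2 = 60 / 256 * (16 * w.re * (l + 1)) ^ 2 := by ring
      rw [e, hb]
      nlinarith
    have h5 := h2.trans ((Real.exp_le_exp.2 h4).trans Real.exp_one_lt_d9.le)
    have h6 : ‖ap (cpw (σ * k⁻¹) w) χ‖ ≤ 1 := by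
      rw [← sq_le_one_iff₀ (norm_nonneg _), norm_ap_cpw_sq pD]
      have := mom_pw pD hχ one_pos hq (g := 2 * w.re) (by linarith) (by nlinarith)
      rwa [Real.one_rpow] at this
    have e : 64 * (l + 1) * (1 / (16 * (l + 1))) = 4 := by field_simp; norm_num
    rw [e]
    exact (norm_sub_le _ _).trans (by linarith)
  · rw [le_div_iff₀ (by positivity)]; linarith

/-- either the buffer factor loses norm, or its unitary part hardly moves the state -/
theorem dich {Y y : Finset ι} (hd : Disjoint Y y) {ω : Q.Op d} (hω : ω.PosDef)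
    (htr : ω.trace = 1) {χ : Vec (Cfg d)} (hχ : ‖χ‖ = 1) {l ε s κ : ℝ} (h1 : 1 ≤ l)
    (hl : Real.log (dim d y) ≤ l) (hε : 0 < ε) (hε1 : ε * dim d univ ≤ 1) (hs : 0 < s)
    (hs1 : 32 * s * (l + 1) ≤ 1) (hκ1 : κ ^ 2 ≤ 1) (hκ : s * (l + 1) ≤ κ ^ 4) :
    (∀ (z : ℂ) (t : ℝ), z.re = 2 * s → |z.im| ≤ 2 * s * |t| →
      ‖ap (cpw (mg (Y ∪ y) ω) z * cpw (rq χ Y ε) (-z)) χ‖ ≤
        Real.exp (-(116 * s * (l + 1)) + 128 * s * (l + 1) * t ^ 2)) ∨
    ∀ (z : ℂ) (t : ℝ), z.re = 0 → |z.im| ≤ 2 * s * |t| →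
      ‖χ - ap (cpw (mg (Y ∪ y) ω) z * cpw (rq χ Y ε) (-z)) χ‖ ≤ (13 * κ * (1 + |t|)) ^ 2 := by
  obtain ⟨D, pD, hq, hu⟩ := ulem hd hω htr hχ h1 hl hε hε1
  set δ := 1 - qf χ (pw D (4 * s)) with hδ
  set x := s * (l + 1) with hx
  have hx0 : 0 < x := by positivity
  rcases le_total (1000 * x) δ with h | h
  · refine Or.inl fun z t hz hi => ?_
    have h2 := hu z (by linarith) (by rw [hz]; linarith)
    have h3 : ‖z‖ ≤ 2 * s + 2 * s * |t| := by
      refine (Complex.norm_le_abs_re_add_abs_im z).trans ?_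
      rw [hz, abs_of_pos (by positivity : 0 < 2 * s)]; linarith
    have h4 : ‖ap (cpw D z) χ‖ ≤ Real.exp (-(δ / 2)) := by
      rw [← sq_le_sq₀ (norm_nonneg _) (Real.exp_pos _).le, norm_ap_cpw_sq pD, hz,
        ← Real.exp_nat_mul, show 2 * (2 * s) = 4 * s by ring]
      have := Real.add_one_le_exp (((2 : ℕ) : ℝ) * -(δ / 2))
      refine le_trans ?_ this
      push_cast; linarith
    have h5 : δ ≤ 1 := by
      have := re_inner_ap_nonneg (pw_posDef pD (4 * s)).posSemidef χ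
      simp only [hδ, qf]; linarith
    have h6 := Real.add_one_le_exp (-(δ / 2))
    have h7 := Real.add_one_le_exp (256 * x * (1 + |t|))
    have h8 : 0 ≤ x * (1 + |t|) := by positivity
    have h9 : 64 * (l + 1) * ‖z‖ ≤ 128 * x * (1 + |t|) := by
      calc _ ≤ 64 * (l + 1) * (2 * s + 2 * s * |t|) := by gcongr
        _ = _ := by rw [hx]; ring
    have h10 := norm_le_insert' (ap (cpw (mg (Y ∪ y) ω) z * cpw (rq χ Y ε) (-z)) χ)
      (ap (cpw D z) χ)
    calc _ ≤ Real.exp (-(δ / 2)) * (256 * x * (1 + |t|) + 1) := by nlinarith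
      _ ≤ Real.exp (-(δ / 2)) * Real.exp (256 * x * (1 + |t|)) := by gcongr
      _ ≤ _ := by
        rw [← Real.exp_add, Real.exp_le_exp, mul_assoc 116, mul_assoc 128, ← hx, ← sq_abs t]
        nlinarith [mul_nonneg hx0.le (sq_nonneg (|t| - 1))]
  · refine Or.inr fun z t hz hi => ?_
    have ht := abs_nonneg t
    have h2 := hu z hz.ge (by rw [hz]; norm_num)
    have h3 : ‖z‖ ≤ 2 * s * |t| := by
      refine (Complex.norm_le_abs_re_add_abs_im z).trans ?_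
      rw [hz, abs_zero, zero_add]; exact hi
    have h4 := cbound pD hχ hq (θ := 4 * s) (by positivity) (by nlinarith) ht hz (by linarith)
    have hk := sq_nonneg κ
    have h5 : ‖ap (cpw D z) χ - χ‖ ≤ 32 * κ ^ 2 * (2 + |t|) := by
      rw [← sq_le_sq₀ (norm_nonneg _) (by positivity)]
      refine h4.trans ?_
      have h6 : δ + 2 * (4 * s) ≤ 1024 * κ ^ 4 := by nlinarith
      calc _ ≤ (2 + |t|) ^ 2 * (1024 * κ ^ 4) := by
            refine (mul_le_mul_of_nonneg_left h6 (by positivity)).trans ?_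
            gcongr; nlinarith
        _ = _ := by ring
    have h6 : 64 * (l + 1) * ‖z‖ ≤ 128 * κ ^ 2 * |t| := by
      have h7 : x ≤ κ ^ 2 := hκ.trans (by nlinarith)
      calc _ ≤ 64 * (l + 1) * (2 * s * |t|) := by gcongr
        _ = 128 * x * |t| := by rw [hx]; ring
        _ ≤ _ := by gcongr
    have h8 := norm_sub_le_norm_sub_add_norm_sub
      (ap (cpw (mg (Y ∪ y) ω) z * cpw (rq χ Y ε) (-z)) χ) (ap (cpw D z) χ) χ
    rw [norm_sub_rev]
    have h9 : 0 ≤ κ ^ 2 * |t| := by positivity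
    have h10 : 0 ≤ κ ^ 2 * |t| ^ 2 := by positivity
    nlinarith

end Crest.Agent.N336.Eng.G
end

-- ▼ part N336/Eng/G

/-!
# Row 336, CORE: the single-letter gain lemma `gg : GStmt` (helper96)
-/

set_option autoImplicit false
set_option linter.unusedSectionVars false

open Matrix Finset
open scoped ComplexOrder MatrixOrder Matrix.Norms.L2Operator InnerProductSpace

namespace Crest.Agent.N336.Eng

open Crest.Agent.N336.Q

namespace G

variable {ι : Type} [Fintype ι] [DecidableEq ι] {d : ι → Type}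
  [∀ x, Fintype (d x)] [∀ x, DecidableEq (d x)] [∀ x, Nonempty (d x)]

lemma rq_unitary {P : Finset ι} {U : Q.Op d} (sU : Supp Pᶜ U) (hU : Uᴴ * U = 1)
    (χ : Vec (Cfg d)) (ε : ℝ) : rq (ap U χ) P ε = rq χ P ε := by
  rw [rq, rq, pj_ap, mg, mg, red_conj_unitary (by rwa [rg_sb]) hU]

theorem main {P y Y : Finset ι} {ω ω' : Q.Op d} {χ : Vec (Cfg d)} {l s ε κ : ℝ}
    (hPy : Disjoint P y) (hPY : Disjoint P Y) (hyY : Disjoint y Y) (hω : ω.PosDef)
    (hω' : ω'.PosDef) (htr : ω.trace = 1) (htr' : ω'.trace = 1) (h1 : 1 ≤ l)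
    (hl : Real.log (dim d y) ≤ l) (hs : 0 < s) (hχ : ‖χ‖ = 1) (hε : 0 < ε)
    (hε1 : ε * dim d univ ≤ 1) (hs1 : 32 * s * (l + 1) ≤ 1) (hκ0 : 0 ≤ κ) (hκ1 : κ ^ 2 ≤ 1)
    (hκ : s * (l + 1) ≤ κ ^ 4) :
    ‖ap (pw (mg (P ∪ y) ω) s * pw (rq χ P ε) (-s) * pw (mg (Y ∪ y) ω') s * pw (rq χ Y ε) (-s))
        χ‖ ^ 2 ≤
      Real.exp (-(2 * s * eta χ P y Y) + (480 * s ^ 2 * (l + 1) ^ 2 + 273 * s * l * κ)) := by
  have pσ := mg_posDef (P ∪ y) hω
  have pσ' := mg_posDef (Y ∪ y) hω'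
  have pr := rq_posDef χ P hε
  have pr' := rq_posDef χ Y hε
  let a : ℂ → ℂ := fun w => (2 * s : ℝ) * w
  let b : ℂ → ℂ := fun w => (2 * s : ℝ) * (1 - w)
  let V : ℂ → Q.Op d := fun w => cpw (mg (Y ∪ y) ω') (b w) * cpw (rq χ Y ε) (-b w)
  let F : ℂ → Vec (Cfg d) := fun w =>
    ap (cpw (mg (P ∪ y) ω) (a w) * cpw (rq χ P ε) (-a w)) (ap (V w) χ)
  have hF : SB F :=
    ((SB.cpw_of _ (2 * s) 0 fun w => by simp [a]).mul
      (SB.cpw_of _ (-(2 * s)) 0 fun w => by simp [a])).ap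
      (((SB.cpw_of _ (-(2 * s)) (2 * s) fun w => by simp only [b]; push_cast; ring).mul
        (SB.cpw_of _ (2 * s) (-(2 * s)) fun w => by simp only [b]; push_cast; ring)).ap_const χ)
  have are : ∀ w, (a w).re = 2 * s * w.re := fun w => Complex.re_ofReal_mul _ _
  have bre : ∀ w, (b w).re = 2 * s * (1 - w.re) := fun w => by
    simp only [b, Complex.re_ofReal_mul, Complex.sub_re, Complex.one_re]
  have bim : ∀ w, |(b w).im| ≤ 2 * s * |w.im| := fun w => by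
    simp only [b, Complex.im_ofReal_mul, Complex.sub_im, Complex.one_im, zero_sub, abs_mul, abs_neg,
      abs_of_pos hs, abs_two, le_refl]
  have hv : ap (pw (mg (P ∪ y) ω) s * pw (rq χ P ε) (-s) * pw (mg (Y ∪ y) ω') s *
      pw (rq χ Y ε) (-s)) χ = F ((1 / 2 : ℝ) : ℂ) := by
    have ea : a ((1 / 2 : ℝ) : ℂ) = s := by simp only [a]; push_cast; ring
    have eb : b ((1 / 2 : ℝ) : ℂ) = s := by simp only [b]; push_cast; ring
    simp only [F, V, ea, eb]
    rw [← ap_mul, ← Complex.ofReal_neg, cpw_ofReal pσ, cpw_ofReal pσ', cpw_ofReal pr,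
      cpw_ofReal pr', Matrix.mul_assoc (_ * _)]
  have L0 : ∀ w : ℂ, w.re = 0 → ‖F w‖ = ‖ap (V w) χ‖ := fun w hw => by
    have : (a w).re = 0 := by rw [are, hw, mul_zero]
    simp only [F]
    rw [ap_mul, norm_ap_cpw_im _ this, norm_ap_cpw_im _ (by simp [this])]
  have L1 : ∀ w : ℂ, w.re = 1 → ‖ap (V w) χ‖ = 1 ∧ ‖F w‖ ≤ Real.exp
      (-(2 * s * (SV (ap (V w) χ) (P ∪ y) - SV (ap (V w) χ) P)) + 240 * s ^ 2 * (l + 1) ^ 2) := by
    intro w hw
    have h2 : (b w).re = 0 := by rw [bre, hw, sub_self, mul_zero]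
    have h3 : (a w).re = 2 * s := by rw [are, hw, mul_one]
    have hU : (V w)ᴴ * V w = 1 := by
      simp only [V]
      rw [conjTranspose_mul, Matrix.mul_assoc, ← Matrix.mul_assoc (cpw _ _)ᴴ (cpw _ _) (cpw _ _),
        cpw_unitary _ h2, Matrix.one_mul, cpw_unitary _ (by simp [h2])]
    have sU : Supp Pᶜ (V w) :=
      ((supp_cpw (supp_mg _ _) pσ'.1 _).mul
        ((supp_cpw (supp_rq _ _ _) pr'.1 _).mono subset_union_left)).mono
        (le_compl_iff_disjoint_left.2 (disjoint_union_right.2 ⟨hPY, hPy⟩))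
    have h4 : ‖ap (V w) χ‖ = 1 := by rw [norm_ap_unitary hU, hχ]
    have h5 := rl hPy hω htr h4 h1 hl hε hε1 (z := a w) (by rw [h3]; positivity)
      (by rw [h3]; linarith)
    rw [rq_unitary sU hU, h3] at h5
    exact ⟨h4, h5.trans (le_of_eq (by congr 1; ring))⟩
  have hP := abs_le.1 (abs_H_le hPy hχ hl)
  have hY := abs_le.1 (abs_H_le hyY.symm hχ hl)
  have p1 : 0 ≤ s ^ 2 * (l + 1) ^ 2 := by positivity
  have p2 : 0 ≤ s * l * κ := by positivity
  rw [hv]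
  rcases dich hyY.symm hω' htr' hχ h1 hl hε hε1 hs hs1 hκ1 hκ with h | h
  · refine (fin_damp hF (A := -(116 * s * (l + 1))) (B := 2 * s * l + 240 * s ^ 2 * (l + 1) ^ 2)
      (lam := 128 * s * (l + 1)) (by positivity) (fun w hw => ?_) fun w hw => ?_).trans
      (Real.exp_le_exp.2 ?_)
    · rw [L0 w hw]
      exact h _ _ (by rw [bre, hw]; ring) (bim w)
    · obtain ⟨h2, h3⟩ := L1 w hw
      refine h3.trans (Real.exp_le_exp.2 ?_)
      have h4 := abs_le.1 (abs_H_le hPy h2 hl)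
      have h5 : 0 ≤ 128 * s * (l + 1) * w.im ^ 2 := by positivity
      nlinarith
    · unfold eta
      nlinarith
  · refine (fin_damp hF (A := -(2 * s * (SV χ (Y ∪ y) - SV χ Y)) + 240 * s ^ 2 * (l + 1) ^ 2)
      (B := -(2 * s * (SV χ (P ∪ y) - SV χ P)) + 240 * s ^ 2 * (l + 1) ^ 2 + 234 * s * l * κ)
      (lam := 78 * s * l * κ) (by positivity) (fun w hw => ?_) fun w hw => ?_).trans
      (Real.exp_le_exp.2 (le_of_eq ?_))
    · have h3 : (b w).re = 2 * s := by rw [bre, hw]; ring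
      have h5 := rl hyY.symm hω' htr' hχ h1 hl hε hε1 (z := b w) (by rw [h3]; positivity)
        (by rw [h3]; linarith)
      rw [L0 w hw]
      refine h5.trans (Real.exp_le_exp.2 ?_)
      have h6 : 0 ≤ 78 * s * l * κ * w.im ^ 2 := by positivity
      rw [h3]
      linarith
    · obtain ⟨h2, h3⟩ := L1 w hw
      refine h3.trans (Real.exp_le_exp.2 ?_)
      have h4 := afw_vec hPy hχ h2 h1 hl (by positivity)
        (h _ _ (by rw [bre, hw]; ring) (bim w))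
      have h5 := mul_le_mul_of_nonneg_left h4 hs.le
      rw [← sq_abs w.im]
      nlinarith [mul_nonneg p2 (sq_nonneg (|w.im| - 1))]
    · unfold eta
      ring

end G

/-- the single-letter gain lemma -/
theorem gg : GStmt := by
  refine ⟨4, 3000, by norm_num, by norm_num, ?_⟩
  intro ι _ _ d _ _ _ P y Y ω ω' χ l s ε hPy hPY hyY hω hω' htr htr' h1 hl hs hC hχ hε hε1
  obtain ⟨q, hq0, hq⟩ : ∃ q : ℝ, 0 < q ∧ q ^ 4 = s :=
    ⟨s ^ ((1 : ℝ) / (4 : ℕ)), Real.rpow_pos_of_pos hs _, by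
      rw [one_div]; exact Real.rpow_inv_natCast_pow hs.le (by norm_num)⟩
  have h5 : s ^ (1 + (1 : ℝ) / (4 : ℕ)) = q ^ 5 := by
    rw [← hq, ← Real.rpow_natCast, ← Real.rpow_mul hq0.le, ← Real.rpow_natCast]
    norm_num
  have hm : l + 1 ≤ 2 * l := by linarith
  have l0 : 0 ≤ l := by linarith
  have l4 : l ≤ l ^ 4 := le_self_pow₀ h1 (by norm_num)
  have l24 : l ^ 2 ≤ l ^ 4 := pow_le_pow_right₀ h1 (by norm_num)
  have k4 : (q * (l + 1)) ^ 4 ≤ 1 := by
    calc _ ≤ (q * (2 * l)) ^ 4 := by gcongr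
      _ = 16 * l ^ 4 * s := by rw [← hq]; ring
      _ ≤ 3000 * l ^ 4 * s := by gcongr; norm_num
      _ ≤ 1 := hC
  have k1 : q * (l + 1) ≤ 1 := (pow_le_one_iff_of_nonneg (by positivity) (by norm_num)).1 k4
  have q1 : q ≤ 1 := by nlinarith
  refine (G.main (κ := q * (l + 1)) hPy hPY hyY hω hω' htr htr' h1 hl hs hχ hε hε1 ?_
    (by positivity) (pow_le_one₀ (by positivity) k1) ?_).trans (Real.exp_le_exp.2 ?_)
  · have : l * s ≤ l ^ 4 * s := by gcongr
    nlinarith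
  · rw [mul_pow, hq]
    gcongr
    exact le_self_pow₀ (by linarith) (by norm_num)
  · rw [h5, ← hq]
    have e1 : (q ^ 4) ^ 2 * (l + 1) ^ 2 ≤ 4 * (q ^ 5 * l ^ 4) := by
      calc _ ≤ (q ^ 4) ^ 2 * (2 * l) ^ 2 := by gcongr
        _ = 4 * (q ^ 8 * l ^ 2) := by ring
        _ ≤ _ := by gcongr 4 * (?_ * ?_); exact pow_le_pow_of_le_one hq0.le q1 (by norm_num)
    have e2 : q ^ 4 * l * (q * (l + 1)) ≤ 2 * (q ^ 5 * l ^ 4) := by
      calc _ ≤ q ^ 4 * l * (q * (2 * l)) := by gcongr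
        _ = 2 * (q ^ 5 * l ^ 2) := by ring
        _ ≤ _ := by gcongr
    have e3 : 0 ≤ q ^ 5 * l ^ 4 := by positivity
    nlinarith

end Crest.Agent.N336.Eng
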